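import Mathlib

/-!
Analytic core, interface. Affine chart: `(z, s, u, v)` with `u² = s^(6m) - 1`, `v² = s^(6m) + 1`;
capital letters stand for the `m`-th powers `Z = z^m`, `T = s^m`.
`K` is the Gram matrix of the twisted dual metric in the frame dual to `(x₁, x₂, h)`:
the squared norm of the functional `φ` is `re (star φ ⬝ᵥ K.mulVec φ)`.
-/

open scoped ContDiff ComplexOrder
open Complex ComplexConjugate

namespace Vale.Agent.P296.An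

/-- `u² = pp m s`. -/
def pp (m : ℕ) (s : ℂ) : ℂ := s ^ (6 * m) - 1

/-- `v² = qq m s`. -/
def qq (m : ℕ) (s : ℂ) : ℂ := s ^ (6 * m) + 1

/-- The affine model of the curve, with both signs. -/
def OnCurve (m : ℕ) (s u v : ℂ) : Prop := u ^ 2 = pp m s ∧ v ^ 2 = qq m s

noncomputable def del (f : ℂ → ℂ) (s : ℂ) : ℂ :=
  (1 / 2 : ℂ) * (fderiv ℝ f s 1 - I * fderiv ℝ f s I)

noncomputable def delBar (f : ℂ → ℂ) (s : ℂ) : ℂ :=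
  (1 / 2 : ℂ) * (fderiv ℝ f s 1 + I * fderiv ℝ f s I)

/-- `∂̄∂G - ∂̄G G⁻¹ ∂G`. -/
noncomputable def dualCurv (G : ℂ → Matrix (Fin 3) (Fin 3) ℂ) (s : ℂ) :
    Matrix (Fin 3) (Fin 3) ℂ :=
  Matrix.of (fun a b => delBar (fun x => del (fun y => G y a b) x) s) -
    Matrix.of (fun a b => delBar (fun x => G x a b) s) * (G s)⁻¹ *
      Matrix.of (fun a b => del (fun x => G x a b) s)

noncomputable def quad (K : Matrix (Fin 3) (Fin 3) ℂ) (φ : Fin 3 → ℂ) : ℝ :=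
  (star φ ⬝ᵥ K.mulVec φ).re

/-- The pull-back of the Fubini-Study density by `s ↦ s^m`. -/
noncomputable def om (m : ℕ) (s : ℂ) : ℝ :=
  ((m : ℝ) * ‖s‖ ^ (m - 1)) ^ 2 / (1 + ‖s‖ ^ (2 * m)) ^ 2

def q1 (m : ℕ) (z s u v : ℂ) : Fin 3 → ℂ := ![u, v, s ^ m - z ^ m]

def vV (u v : ℂ) : Fin 3 → ℂ := ![u, v, 0]

noncomputable def wW (u v : ℂ) : Fin 3 → ℂ :=
  ((‖u‖ ^ 2 + ‖v‖ ^ 2 : ℝ) : ℂ)⁻¹ • ![conj v, -conj u, 0]

/-- `θ = Z̄ / (1 + |Z|²)` at `Z = z^m`. -/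
noncomputable def theta (m : ℕ) (z : ℂ) : ℂ :=
  conj (z ^ m) / (1 + ((‖z ^ m‖ ^ 2 : ℝ) : ℂ))

/-- `r = (1 + Z̄ T) / (1 + |Z|²)`. -/
noncomputable def rr (m : ℕ) (z s : ℂ) : ℂ :=
  (1 + conj (z ^ m) * s ^ m) / (1 + ((‖z ^ m‖ ^ 2 : ℝ) : ℂ))

/-- `(r⁵ q₁ - V) / (T - Z)`, extended across `T = Z`. -/
noncomputable def gG (m : ℕ) (z s u v : ℂ) : Fin 3 → ℂ :=
  (theta m z * ∑ i ∈ Finset.range 5, rr m z s ^ i) • q1 m z s u v + ![0, 0, 1]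

/-- The sum of the four normalised squared norms. -/
noncomputable def traceFn (m : ℕ) (K : Matrix (Fin 3) (Fin 3) ℂ) (z s u v : ℂ) : ℝ :=
  quad K (q1 m z s u v) / (1 + ‖z ^ m‖ ^ 2) ^ 5 +
  quad K (vV u v) / (1 + ‖s ^ m‖ ^ 2) ^ 5 +
  quad K (wW u v) * (1 + ‖s ^ m‖ ^ 2) +
  quad K (gG m z s u v) * (1 + ‖z ^ m‖ ^ 2) / (1 + ‖s ^ m‖ ^ 2) ^ 4

/-- What a Griffiths positive metric on `E_m` yields in the affine chart. -/
structure MetricData (m : ℕ) where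
  K : ℂ → ℂ → ℂ → ℂ → Matrix (Fin 3) (Fin 3) ℂ
  posDef : ∀ z s u v, OnCurve m s u v → (K z s u v).PosDef
  neg_sign : ∀ z s u v, OnCurve m s u v →
    K z s (-u) (-v) = Matrix.diagonal ![-1, -1, 1] * K z s u v * Matrix.diagonal ![-1, -1, 1]
  smooth : ∀ (W : Set ℂ) (u v : ℂ → ℂ), IsOpen W → DifferentiableOn ℂ u W →
    DifferentiableOn ℂ v W → (∀ s ∈ W, OnCurve m s (u s) (v s)) → ∀ a b,
    ContDiffOn ℝ ∞ (fun p : ℂ × ℂ => K p.1 p.2 (u p.2) (v p.2) a b) (Set.univ ×ˢ W)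
  curv_z : ∀ z s u v, OnCurve m s u v → s ^ (12 * m) ≠ 1 → ∀ φ : Fin 3 → ℂ,
    0 ≤ quad (dualCurv (fun x => K x s u v) z) φ + om m z / m * quad (K z s u v) φ
  curv_s : ∀ (W : Set ℂ) (u v : ℂ → ℂ), IsOpen W → DifferentiableOn ℂ u W →
    DifferentiableOn ℂ v W → (∀ s ∈ W, OnCurve m s (u s) (v s)) → ∀ z, ∀ s ∈ W,
    ∀ φ : Fin 3 → ℂ,
    0 ≤ quad (dualCurv (fun x => K z x (u x) (v x)) s) φ + om m s / m * quad (K z s (u s) (v s)) φ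
  bounded : ∃ B : ℝ, ∀ z s u v, OnCurve m s u v → traceFn m (K z s u v) z s u v ≤ B

/-- The theorem to prove (in `Analysis/Main.lean`). -/
def Core : Prop := ∃ m₀ : ℕ, ∀ m : ℕ, m₀ ≤ m → IsEmpty (MetricData m)

end Vale.Agent.P296.An
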