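import Mathlib
import Vale.Agent.P296.Analysis.Interface

/-!
Calculus rules for the Wirtinger derivatives `del`, `delBar` on `ℂ`, and integration by parts.
-/

open scoped ContDiff Topology
open Complex ComplexConjugate MeasureTheory Set Filter

noncomputable section

namespace Vale.Agent.P296.An

variable {f g : ℂ → ℂ} {s : ℂ}

lemma del_congr (h : f =ᶠ[𝓝 s] g) : del f s = del g s := by
  simp [del, h.fderiv_eq]

lemma delBar_congr (h : f =ᶠ[𝓝 s] g) : delBar f s = delBar g s := by
  simp [delBar, h.fderiv_eq]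

lemma del_add (hf : DifferentiableAt ℝ f s) (hg : DifferentiableAt ℝ g s) :
    del (fun x => f x + g x) s = del f s + del g s := by
  simp [del, fderiv_fun_add hf hg]; ring

lemma delBar_add (hf : DifferentiableAt ℝ f s) (hg : DifferentiableAt ℝ g s) :
    delBar (fun x => f x + g x) s = delBar f s + delBar g s := by
  simp [delBar, fderiv_fun_add hf hg]; ring

lemma del_sub (hf : DifferentiableAt ℝ f s) (hg : DifferentiableAt ℝ g s) :
    del (fun x => f x - g x) s = del f s - del g s := by
  simp [del, fderiv_fun_sub hf hg]; ring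

lemma delBar_sub (hf : DifferentiableAt ℝ f s) (hg : DifferentiableAt ℝ g s) :
    delBar (fun x => f x - g x) s = delBar f s - delBar g s := by
  simp [delBar, fderiv_fun_sub hf hg]; ring

lemma del_neg : del (fun x => -f x) s = -del f s := by
  simp [del, fderiv_fun_neg]; ring

lemma delBar_neg : delBar (fun x => -f x) s = -delBar f s := by
  simp [delBar, fderiv_fun_neg]; ring

lemma del_mul (hf : DifferentiableAt ℝ f s) (hg : DifferentiableAt ℝ g s) :
    del (fun x => f x * g x) s = del f s * g s + f s * del g s := by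
  simp [del, fderiv_fun_mul hf hg]; ring

lemma delBar_mul (hf : DifferentiableAt ℝ f s) (hg : DifferentiableAt ℝ g s) :
    delBar (fun x => f x * g x) s = delBar f s * g s + f s * delBar g s := by
  simp [delBar, fderiv_fun_mul hf hg]; ring

lemma del_const (c : ℂ) : del (fun _ => c) s = 0 := by simp [del]

lemma delBar_const (c : ℂ) : delBar (fun _ => c) s = 0 := by simp [delBar]

lemma del_const_mul (hf : DifferentiableAt ℝ f s) (c : ℂ) :
    del (fun x => c * f x) s = c * del f s := by
  rw [del_mul (differentiableAt_const c) hf, del_const, zero_mul, zero_add]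

lemma delBar_const_mul (hf : DifferentiableAt ℝ f s) (c : ℂ) :
    delBar (fun x => c * f x) s = c * delBar f s := by
  rw [delBar_mul (differentiableAt_const c) hf, delBar_const, zero_mul, zero_add]

lemma fderiv_conj_apply (hf : DifferentiableAt ℝ f s) (w : ℂ) :
    fderiv ℝ (fun x => conj (f x)) s w = conj (fderiv ℝ f s w) := by
  have h := (Complex.conjCLE.toContinuousLinearMap.hasFDerivAt).comp s hf.hasFDerivAt
  exact DFunLike.congr_fun h.fderiv w

lemma diffAt_conj (hf : DifferentiableAt ℝ f s) : DifferentiableAt ℝ (fun x => conj (f x)) s :=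
  (Complex.conjCLE.toContinuousLinearMap.differentiableAt).comp s hf

lemma del_conj (hf : DifferentiableAt ℝ f s) :
    del (fun x => conj (f x)) s = conj (delBar f s) := by
  simp only [del, delBar, fderiv_conj_apply hf]
  simp only [map_mul, map_add, map_div₀, map_one, map_ofNat, conj_I]; ring

lemma delBar_conj (hf : DifferentiableAt ℝ f s) :
    delBar (fun x => conj (f x)) s = conj (del f s) := by
  simp only [del, delBar, fderiv_conj_apply hf]
  simp only [map_mul, map_sub, map_div₀, map_one, map_ofNat, conj_I]; ring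

lemma diffAt_of_complex (hf : DifferentiableAt ℂ f s) : DifferentiableAt ℝ f s :=
  hf.restrictScalars ℝ

lemma fderiv_real_of_complex (hf : DifferentiableAt ℂ f s) (w : ℂ) :
    fderiv ℝ f s w = w * deriv f s := by
  rw [hf.fderiv_restrictScalars ℝ]
  simp [fderiv_eq_smul_deriv]

lemma del_holo (hf : DifferentiableAt ℂ f s) : del f s = deriv f s := by
  simp only [del, fderiv_real_of_complex hf, one_mul]
  linear_combination (-(1:ℂ)/2 * deriv f s) * I_sq

lemma delBar_holo (hf : DifferentiableAt ℂ f s) : delBar f s = 0 := by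
  simp only [delBar, fderiv_real_of_complex hf, one_mul]
  linear_combination ((1:ℂ)/2 * deriv f s) * I_sq

lemma delBar_conj_holo (hf : DifferentiableAt ℂ f s) :
    delBar (fun x => conj (f x)) s = conj (deriv f s) := by
  rw [delBar_conj (diffAt_of_complex hf), del_holo hf]

lemma del_conj_holo (hf : DifferentiableAt ℂ f s) : del (fun x => conj (f x)) s = 0 := by
  rw [del_conj (diffAt_of_complex hf), delBar_holo hf, map_zero]

lemma del_sum {ι : Type*} (t : Finset ι) {F : ι → ℂ → ℂ}
    (h : ∀ i ∈ t, DifferentiableAt ℝ (F i) s) :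
    del (fun x => ∑ i ∈ t, F i x) s = ∑ i ∈ t, del (F i) s := by
  simp only [del, fderiv_fun_sum h, FunLike.coe_sum, Finset.sum_apply, Finset.mul_sum,
    ← Finset.sum_sub_distrib]

lemma delBar_sum {ι : Type*} (t : Finset ι) {F : ι → ℂ → ℂ}
    (h : ∀ i ∈ t, DifferentiableAt ℝ (F i) s) :
    delBar (fun x => ∑ i ∈ t, F i x) s = ∑ i ∈ t, delBar (F i) s := by
  simp only [delBar, fderiv_fun_sum h, FunLike.coe_sum, Finset.sum_apply, Finset.mul_sum,
    ← Finset.sum_add_distrib]

lemma del_ofReal_comp {Φ : ℝ → ℝ} {g : ℂ → ℝ} (hΦ : DifferentiableAt ℝ Φ (g s))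
    (hg : DifferentiableAt ℝ g s) :
    del (fun x => ((Φ (g x) : ℝ) : ℂ)) s =
      ((deriv Φ (g s) : ℝ) : ℂ) * del (fun x => ((g x : ℝ) : ℂ)) s := by
  have h1 := (Complex.ofRealCLM.hasFDerivAt).comp s hg.hasFDerivAt
  have h2 := (Complex.ofRealCLM.hasFDerivAt).comp s
    (hΦ.hasDerivAt.comp_hasFDerivAt s hg.hasFDerivAt)
  simp only [Function.comp_def, Complex.ofRealCLM_apply] at h1 h2
  simp [del, h1.fderiv, h2.fderiv]; ring

lemma delBar_ofReal_comp {Φ : ℝ → ℝ} {g : ℂ → ℝ} (hΦ : DifferentiableAt ℝ Φ (g s))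
    (hg : DifferentiableAt ℝ g s) :
    delBar (fun x => ((Φ (g x) : ℝ) : ℂ)) s =
      ((deriv Φ (g s) : ℝ) : ℂ) * delBar (fun x => ((g x : ℝ) : ℂ)) s := by
  have h1 := (Complex.ofRealCLM.hasFDerivAt).comp s hg.hasFDerivAt
  have h2 := (Complex.ofRealCLM.hasFDerivAt).comp s
    (hΦ.hasDerivAt.comp_hasFDerivAt s hg.hasFDerivAt)
  simp only [Function.comp_def, Complex.ofRealCLM_apply] at h1 h2
  simp [delBar, h1.fderiv, h2.fderiv]; ring

lemma norm_delBar_ofReal {g : ℂ → ℝ} (hg : DifferentiableAt ℝ g s) :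
    conj (del (fun x => ((g x : ℝ) : ℂ)) s) = delBar (fun x => ((g x : ℝ) : ℂ)) s := by
  have h1 := (Complex.ofRealCLM.hasFDerivAt).comp s hg.hasFDerivAt
  simp only [Function.comp_def, Complex.ofRealCLM_apply] at h1
  simp [del, delBar, h1.fderiv, map_ofNat]

lemma fderiv_fderiv_apply (hf : ContDiffAt ℝ 2 f s) (v w : ℂ) :
    fderiv ℝ (fun y => fderiv ℝ f y v) s w = fderiv ℝ (fderiv ℝ f) s w v := by
  have hd : DifferentiableAt ℝ (fderiv ℝ f) s :=
    (hf.fderiv_right (m := 1) (by norm_num)).differentiableAt one_ne_zero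
  rw [fderiv_clm_apply hd (differentiableAt_const v)]
  simp

lemma delBar_del_comm (hf : ContDiffAt ℝ 2 f s) : delBar (del f) s = del (delBar f) s := by
  have hd : DifferentiableAt ℝ (fderiv ℝ f) s :=
    (hf.fderiv_right (m := 1) (by norm_num)).differentiableAt one_ne_zero
  have hv : ∀ v : ℂ, DifferentiableAt ℝ (fun y => fderiv ℝ f y v) s := fun v =>
    hd.clm_apply (differentiableAt_const v)
  have hsym := hf.isSymmSndFDerivAt (by simp)
  have e1 : del f = fun y => (1/2 : ℂ) * (fderiv ℝ f y 1 - I * fderiv ℝ f y I) := rfl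
  have e2 : delBar f = fun y => (1/2 : ℂ) * (fderiv ℝ f y 1 + I * fderiv ℝ f y I) := rfl
  rw [e1, e2, delBar_const_mul ((hv 1).fun_sub ((differentiableAt_const I).fun_mul (hv I))),
    del_const_mul ((hv 1).fun_add ((differentiableAt_const I).fun_mul (hv I))),
    delBar_sub (hv 1) ((differentiableAt_const I).fun_mul (hv I)),
    del_add (hv 1) ((differentiableAt_const I).fun_mul (hv I)),
    delBar_const_mul (hv I), del_const_mul (hv I)]
  simp only [del, delBar, fderiv_fderiv_apply hf]
  rw [hsym.eq I 1]; ring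

section Smooth

variable {U : Set ℂ} {n m : WithTop ℕ∞}

lemma contDiffOn_fderiv_apply (hf : ContDiffOn ℝ n f U) (hU : IsOpen U) (h : m + 1 ≤ n) (v : ℂ) :
    ContDiffOn ℝ m (fun y => fderiv ℝ f y v) U :=
  (hf.fderiv_of_isOpen hU h).clm_apply contDiffOn_const

lemma contDiffOn_del (hf : ContDiffOn ℝ n f U) (hU : IsOpen U) (h : m + 1 ≤ n) :
    ContDiffOn ℝ m (del f) U :=
  contDiffOn_const.mul ((contDiffOn_fderiv_apply hf hU h 1).sub
    (contDiffOn_const.mul (contDiffOn_fderiv_apply hf hU h I)))

lemma contDiffOn_delBar (hf : ContDiffOn ℝ n f U) (hU : IsOpen U) (h : m + 1 ≤ n) :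
    ContDiffOn ℝ m (delBar f) U :=
  contDiffOn_const.mul ((contDiffOn_fderiv_apply hf hU h 1).add
    (contDiffOn_const.mul (contDiffOn_fderiv_apply hf hU h I)))

lemma diffAt_of_contDiffOn (hf : ContDiffOn ℝ n f U) (hU : IsOpen U) (hn : n ≠ 0) (hs : s ∈ U) :
    DifferentiableAt ℝ f s :=
  (hf.differentiableOn hn).differentiableAt (hU.mem_nhds hs)

lemma contDiff_of_tsupport (hf : ContDiffOn ℝ n f U) (hU : IsOpen U) (h : tsupport f ⊆ U) :
    ContDiff ℝ n f := by
  rw [contDiff_iff_contDiffAt]
  intro x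
  by_cases hx : x ∈ U
  · exact hf.contDiffAt (hU.mem_nhds hx)
  · have : f =ᶠ[𝓝 x] fun _ => (0 : ℂ) :=
      notMem_tsupport_iff_eventuallyEq.1 fun hh => hx (h hh)
    exact contDiffAt_const.congr_of_eventuallyEq this

end Smooth

lemma integral_fderiv_eq_zero (hf : ContDiff ℝ 1 f) (hc : HasCompactSupport f) (v : ℂ) :
    ∫ x, fderiv ℝ f x v = 0 := by
  have h1 : Integrable (fun x => fderiv ℝ f x v) :=
    ((hf.continuous_fderiv one_ne_zero).clm_apply continuous_const).integrable_of_hasCompactSupport
      (hc.fderiv_apply ℝ v)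
  have h := integral_mul_fderiv_eq_neg_fderiv_mul_of_integrable (f := fun _ : ℂ => (1 : ℂ))
    (g := f) (v := v) (μ := volume) (by simp) (by simpa using h1)
    (by simpa using hf.continuous.integrable_of_hasCompactSupport hc)
    (fun x _ => differentiableAt_const _) (fun x _ => hf.differentiable one_ne_zero x)
  simpa using h

lemma integrable_fderiv_apply (hf : ContDiff ℝ 1 f) (hc : HasCompactSupport f) (v : ℂ) :
    Integrable (fun x => fderiv ℝ f x v) :=
  ((hf.continuous_fderiv one_ne_zero).clm_apply continuous_const).integrable_of_hasCompactSupport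
      (hc.fderiv_apply ℝ v)

lemma integral_del_eq_zero (hf : ContDiff ℝ 1 f) (hc : HasCompactSupport f) :
    ∫ x, del f x = 0 := by
  simp only [del]
  rw [integral_const_mul, integral_sub (integrable_fderiv_apply hf hc 1)
    ((integrable_fderiv_apply hf hc I).const_mul I), integral_const_mul,
    integral_fderiv_eq_zero hf hc, integral_fderiv_eq_zero hf hc]
  simp

lemma integral_delBar_eq_zero (hf : ContDiff ℝ 1 f) (hc : HasCompactSupport f) :
    ∫ x, delBar f x = 0 := by
  simp only [delBar]
  rw [integral_const_mul, integral_add (integrable_fderiv_apply hf hc 1)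
    ((integrable_fderiv_apply hf hc I).const_mul I), integral_const_mul,
    integral_fderiv_eq_zero hf hc, integral_fderiv_eq_zero hf hc]
  simp

end Vale.Agent.P296.An
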