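import Mathlib
import Vale.Agent.P296.Analysis.Calc

/-!
Pointwise identities for a smooth Hermitian metric on a trivial bundle over a plane domain.
-/

open scoped ContDiff Topology ComplexOrder
open Complex ComplexConjugate Matrix Set Filter

noncomputable section

namespace Vale.Agent.P296.An

abbrev Vec : Type := Fin 3 → ℂ
abbrev Mat : Type := Matrix (Fin 3) (Fin 3) ℂ

/-- The sesquilinear form of `K`, conjugate linear in the first slot. -/
def sesq (K : Mat) (a b : Vec) : ℂ := star a ⬝ᵥ K.mulVec b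

lemma quad_eq (K : Mat) (a : Vec) : quad K a = (sesq K a a).re := rfl

lemma sesq_sum (K : Mat) (a b : Vec) :
    sesq K a b = ∑ i, ∑ j, conj (a i) * (K i j * b j) := by
  simp [sesq, dotProduct, Matrix.mulVec, Finset.mul_sum]

lemma sesq_conj {K : Mat} (h : K.IsHermitian) (a b : Vec) : conj (sesq K a b) = sesq K b a := by
  simp only [sesq_sum, map_sum, map_mul, Complex.conj_conj]
  rw [Finset.sum_comm]
  refine Finset.sum_congr rfl fun i _ => Finset.sum_congr rfl fun j _ => ?_
  have hij : conj (K j i) = K i j := h.apply i j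
  rw [hij]; ring

lemma sesq_add_left (K : Mat) (a a' b : Vec) : sesq K (a + a') b = sesq K a b + sesq K a' b := by
  simp [sesq, star_add, add_dotProduct]

lemma sesq_add_right (K : Mat) (a b b' : Vec) : sesq K a (b + b') = sesq K a b + sesq K a b' := by
  simp [sesq, mulVec_add, dotProduct_add]

lemma sesq_smul_left (K : Mat) (t : ℂ) (a b : Vec) : sesq K (t • a) b = conj t * sesq K a b := by
  simp [sesq, star_smul]

lemma sesq_smul_right (K : Mat) (t : ℂ) (a b : Vec) : sesq K a (t • b) = t * sesq K a b := by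
  simp [sesq, mulVec_smul]

lemma sesq_mat_add (K L : Mat) (a b : Vec) : sesq (K + L) a b = sesq K a b + sesq L a b := by
  simp [sesq, add_mulVec, dotProduct_add]

lemma sesq_mulVec (K L : Mat) (a b : Vec) : sesq K a (L.mulVec b) = sesq (K * L) a b := by
  simp [sesq, mulVec_mulVec]

lemma quad_nonneg {K : Mat} (h : K.PosSemidef) (a : Vec) : 0 ≤ quad K a :=
  (Complex.le_def.1 (h.dotProduct_mulVec_nonneg a)).1

lemma sesq_self {K : Mat} (h : K.IsHermitian) (a : Vec) : sesq K a a = ((quad K a : ℝ) : ℂ) :=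
  (Complex.conj_eq_iff_re.1 (sesq_conj h a a)).symm

lemma quad_smul (K : Mat) (t : ℂ) (a : Vec) : quad K (t • a) = ‖t‖ ^ 2 * quad K a := by
  rw [quad_eq, quad_eq, sesq_smul_left, sesq_smul_right, ← mul_assoc,
    ← Complex.normSq_eq_conj_mul_self, Complex.re_ofReal_mul, normSq_eq_norm_sq]

lemma quad_add {K : Mat} (h : K.IsHermitian) (a b : Vec) :
    quad K (a + b) = quad K a + quad K b + 2 * (sesq K a b).re := by
  simp only [quad_eq, sesq_add_left, sesq_add_right, Complex.add_re]
  have : (sesq K b a).re = (sesq K a b).re := by rw [← sesq_conj h a b, Complex.conj_re]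
  linarith

lemma re_sesq_ge {K : Mat} (h : K.PosSemidef) (a b : Vec) {c : ℝ} (hc : 0 < c) :
    -(c / 2 * quad K a + 1 / (2 * c) * quad K b) ≤ (sesq K a b).re := by
  have h0 := quad_nonneg h ((c : ℂ) • a + b)
  rw [quad_add h.1, quad_smul, sesq_smul_left, conj_ofReal, re_ofReal_mul, Complex.norm_real,
    Real.norm_eq_abs, sq_abs] at h0
  have e : c / 2 * quad K a + 1 / (2 * c) * quad K b + (sesq K a b).re =
      (c ^ 2 * quad K a + quad K b + 2 * (c * (sesq K a b).re)) / (2 * c) := by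
    field_simp
  have : 0 ≤ (c ^ 2 * quad K a + quad K b + 2 * (c * (sesq K a b).re)) / (2 * c) :=
    div_nonneg h0 (by linarith)
  linarith

lemma norm_sesq_sq_le {K : Mat} (h : K.PosSemidef) (a b : Vec) :
    ‖sesq K a b‖ ^ 2 ≤ quad K a * quad K b := by
  set z := sesq K a b with hz
  set A := quad K a
  set Bq := quad K b
  have key : ∀ c : ℝ, 0 ≤ c ^ 2 * ‖z‖ ^ 2 * A + Bq - 2 * (c * ‖z‖ ^ 2) := by
    intro c
    have h0 := quad_nonneg h ((-(c : ℂ) * z) • a + b)
    rw [quad_add h.1, quad_smul, sesq_smul_left, map_mul, map_neg, conj_ofReal, ← hz] at h0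
    have e : (-(c:ℂ) * conj z * z).re = -(c * ‖z‖ ^ 2) := by
      rw [mul_assoc, ← Complex.normSq_eq_conj_mul_self, normSq_eq_norm_sq,
        ← Complex.ofReal_neg, re_ofReal_mul, Complex.ofReal_re]; ring
    rw [e, norm_mul, norm_neg, Complex.norm_real, Real.norm_eq_abs, mul_pow, sq_abs] at h0
    linarith
  have hA : 0 ≤ A := quad_nonneg h a
  have hB : 0 ≤ Bq := quad_nonneg h b
  rcases eq_or_lt_of_le hA with hA0 | hA0
  · rw [← hA0, zero_mul]
    by_contra hne
    push Not at hne
    have := key ((Bq + 1) / (2 * ‖z‖ ^ 2))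
    rw [← hA0, mul_zero, show (Bq + 1) / (2 * ‖z‖ ^ 2) * ‖z‖ ^ 2 = (Bq + 1) / 2 by
      rw [← div_div, div_mul_cancel₀ _ hne.ne']] at this
    linarith
  · have := key (1 / A)
    field_simp at this
    nlinarith

/-- Entrywise derivatives. -/
def vdel (φ : ℂ → Vec) (s : ℂ) : Vec := fun a => del (fun x => φ x a) s

/-- Entrywise derivatives of type (0,1). -/
def vdelBar (φ : ℂ → Vec) (s : ℂ) : Vec := fun a => delBar (fun x => φ x a) s

/-- Entrywise derivatives of a matrix. -/
def mdel (G : ℂ → Mat) (s : ℂ) : Mat := Matrix.of fun a b => del (fun x => G x a b) s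

/-- Entrywise derivatives of type (0,1) of a matrix. -/
def mdelBar (G : ℂ → Mat) (s : ℂ) : Mat := Matrix.of fun a b => delBar (fun x => G x a b) s

/-- The (1,0) part of the Chern connection. -/
def grad (G : ℂ → Mat) (φ : ℂ → Vec) (s : ℂ) : Vec :=
  vdel φ s + (G s)⁻¹.mulVec ((mdel G s).mulVec (φ s))

/-- Smoothness data of a metric on an open set. -/
structure Nice (W : Set ℂ) (G : ℂ → Mat) : Prop where
  isOpen : IsOpen W
  smooth : ∀ a b, ContDiffOn ℝ ∞ (fun x => G x a b) W
  posDef : ∀ x ∈ W, (G x).PosDef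

/-- A smooth vector valued function. -/
def VSmooth (W : Set ℂ) (φ : ℂ → Vec) : Prop := ∀ a, ContDiffOn ℝ ∞ (fun x => φ x a) W

variable {W : Set ℂ} {G : ℂ → Mat} {φ ψ : ℂ → Vec} {s : ℂ}

lemma Nice.diff (hG : Nice W G) (hs : s ∈ W) (a b : Fin 3) :
    DifferentiableAt ℝ (fun x => G x a b) s :=
  diffAt_of_contDiffOn (hG.smooth a b) hG.isOpen (by simp) hs

lemma Nice.mdel_smooth (hG : Nice W G) (a b : Fin 3) :
    ContDiffOn ℝ ∞ (fun x => mdel G x a b) W :=
  contDiffOn_del (hG.smooth a b) hG.isOpen (by simp)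

lemma VSmooth.diff (hφ : VSmooth W φ) (hW : IsOpen W) (hs : s ∈ W) (a : Fin 3) :
    DifferentiableAt ℝ (fun x => φ x a) s :=
  diffAt_of_contDiffOn (hφ a) hW (by simp) hs

lemma VSmooth.vdel (hφ : VSmooth W φ) (hW : IsOpen W) : VSmooth W (vdel φ) := fun a =>
  contDiffOn_del (hφ a) hW (by simp)

lemma VSmooth.vdelBar (hφ : VSmooth W φ) (hW : IsOpen W) : VSmooth W (vdelBar φ) := fun a =>
  contDiffOn_delBar (hφ a) hW (by simp)

lemma VSmooth.sesq (hG : Nice W G) (hφ : VSmooth W φ) (hψ : VSmooth W ψ) :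
    ContDiffOn ℝ ∞ (fun x => sesq (G x) (φ x) (ψ x)) W := by
  simp only [sesq_sum]
  exact ContDiffOn.sum fun i _ => ContDiffOn.sum fun j _ =>
    (Complex.conjCLE.toContinuousLinearMap.contDiff.comp_contDiffOn (hφ i)).mul
      ((hG.smooth i j).mul (hψ j))

lemma Nice.inv_smooth (hG : Nice W G) (a b : Fin 3) :
    ContDiffOn ℝ ∞ (fun x => (G x)⁻¹ a b) W := by
  have hdet : ContDiffOn ℝ ∞ (fun x => (G x).det) W := by
    simp only [Matrix.det_fin_three]
    have := hG.smooth
    fun_prop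
  have hadj : ContDiffOn ℝ ∞ (fun x => (G x).adjugate a b) W := by
    simp only [Matrix.adjugate_apply, Matrix.det_fin_three, Matrix.updateRow_apply]
    have := hG.smooth
    fin_cases a <;> fin_cases b <;> simp <;> fun_prop
  refine ((hdet.inv fun x hx => (hG.posDef x hx).det_pos.ne').mul hadj).congr fun x hx => ?_
  simp [Matrix.inv_def, Ring.inverse_eq_inv']

lemma VSmooth.grad (hG : Nice W G) (hφ : VSmooth W φ) : VSmooth W (grad G φ) := by
  intro a
  simp only [An.grad, Pi.add_apply, Matrix.mulVec, dotProduct]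
  exact ((hφ.vdel hG.isOpen) a).add (ContDiffOn.sum fun i _ =>
    (hG.inv_smooth a i).mul (ContDiffOn.sum fun j _ => (hG.mdel_smooth i j).mul (hφ j)))

lemma del_sesq (hG : Nice W G) (hφ : VSmooth W φ) (hψ : VSmooth W ψ) (hs : s ∈ W) :
    del (fun x => sesq (G x) (φ x) (ψ x)) s =
      sesq (G s) (vdelBar φ s) (ψ s) + sesq (G s) (φ s) (grad G ψ s) := by
  have hg := hG.diff hs
  have hp := hφ.diff hG.isOpen hs
  have hq := hψ.diff hG.isOpen hs
  have e : sesq (G s) (φ s) (grad G ψ s) =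
      sesq (G s) (φ s) (vdel ψ s) + sesq (mdel G s) (φ s) (ψ s) := by
    have hu : IsUnit (G s).det := isUnit_iff_ne_zero.2 (hG.posDef s hs).det_pos.ne'
    rw [grad, sesq_add_right, mulVec_mulVec, sesq_mulVec, ← mul_assoc,
      Matrix.mul_nonsing_inv _ hu, one_mul]
  have t : ∀ i j, DifferentiableAt ℝ (fun x => conj (φ x i) * (G x i j * ψ x j)) s := fun i j =>
    (diffAt_conj (hp i)).fun_mul ((hg i j).fun_mul (hq j))
  rw [e]
  simp only [sesq_sum]
  rw [del_sum _ fun i _ => DifferentiableAt.fun_sum fun j _ => t i j]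
  simp only [← Finset.sum_add_distrib]
  refine Finset.sum_congr rfl fun i _ => ?_
  rw [del_sum _ fun j _ => t i j]
  refine Finset.sum_congr rfl fun j _ => ?_
  rw [del_mul (diffAt_conj (hp i)) ((hg i j).fun_mul (hq j)), del_mul (hg i j) (hq j),
    del_conj (hp i)]
  simp only [vdel, vdelBar, mdel, Matrix.of_apply]
  ring

lemma delBar_sesq (hG : Nice W G) (hφ : VSmooth W φ) (hψ : VSmooth W ψ) (hs : s ∈ W) :
    delBar (fun x => sesq (G x) (φ x) (ψ x)) s =
      sesq (G s) (grad G φ s) (ψ s) + sesq (G s) (φ s) (vdelBar ψ s) := by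
  have hH := (hG.posDef s hs).1
  have hev : (fun x => sesq (G x) (φ x) (ψ x)) =ᶠ[𝓝 s]
      fun x => conj (sesq (G x) (ψ x) (φ x)) := by
    filter_upwards [hG.isOpen.mem_nhds hs] with x hx
    exact (sesq_conj (hG.posDef x hx).1 _ _).symm
  rw [delBar_congr hev, delBar_conj (diffAt_of_contDiffOn (VSmooth.sesq hG hψ hφ) hG.isOpen
    (by simp) hs), del_sesq hG hψ hφ hs, map_add, sesq_conj hH, sesq_conj hH]
  ring

lemma dualCurv_eq (G : ℂ → Mat) (s : ℂ) :
    dualCurv G s = Matrix.of (fun a b => delBar (fun x => mdel G x a b) s) -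
      mdelBar G s * (G s)⁻¹ * mdel G s := rfl

lemma sesq_delBar_grad (hG : Nice W G) (hφ : VSmooth W φ) (hs : s ∈ W) :
    sesq (G s) (φ s) (vdelBar (grad G φ) s) =
      sesq (G s) (φ s) (grad G (vdelBar φ) s) + sesq (dualCurv G s) (φ s) (φ s) := by
  have hu : IsUnit (G s).det := isUnit_iff_ne_zero.2 (hG.posDef s hs).det_pos.ne'
  -- differentiate `G · grad φ = G · ∂φ + ∂G · φ`
  have hev : ∀ a, (fun x => ∑ j, G x a j * grad G φ x j) =ᶠ[𝓝 s]
      fun x => ∑ j, (G x a j * vdel φ x j + mdel G x a j * φ x j) := by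
    intro a
    filter_upwards [hG.isOpen.mem_nhds hs] with x hx
    have hux : IsUnit (G x).det := isUnit_iff_ne_zero.2 (hG.posDef x hx).det_pos.ne'
    have h : (G x).mulVec (grad G φ x) = (G x).mulVec (vdel φ x) + (mdel G x).mulVec (φ x) := by
      rw [grad, mulVec_add, mulVec_mulVec, Matrix.mul_nonsing_inv _ hux, one_mulVec]
    have h' := congrFun h a
    simp only [Matrix.mulVec, dotProduct, Pi.add_apply] at h'
    rw [h', Finset.sum_add_distrib]
  have hg := hG.diff hs
  have hgr := (VSmooth.grad hG hφ).diff hG.isOpen hs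
  have hvd := (hφ.vdel hG.isOpen).diff hG.isOpen hs
  have hmd : ∀ a b, DifferentiableAt ℝ (fun x => mdel G x a b) s := fun a b =>
    diffAt_of_contDiffOn (hG.mdel_smooth a b) hG.isOpen (by simp) hs
  have hp := hφ.diff hG.isOpen hs
  have hcomm : ∀ j, delBar (fun x => vdel φ x j) s = vdel (vdelBar φ) s j := fun j =>
    delBar_del_comm ((hφ j).contDiffAt (hG.isOpen.mem_nhds hs) |>.of_le (by
      exact WithTop.coe_le_coe.2 le_top))
  have main : (G s).mulVec (vdelBar (grad G φ) s) =
      (G s).mulVec (grad G (vdelBar φ) s) + (dualCurv G s).mulVec (φ s) := by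
    have step : (mdelBar G s).mulVec (grad G φ s) + (G s).mulVec (vdelBar (grad G φ) s) =
        (mdelBar G s).mulVec (vdel φ s) + (G s).mulVec (vdel (vdelBar φ) s) +
          ((Matrix.of fun a b => delBar (fun x => mdel G x a b) s).mulVec (φ s) +
            (mdel G s).mulVec (vdelBar φ s)) := by
      funext a
      have h := delBar_congr (hev a)
      rw [delBar_sum _ fun j _ => (hg a j).fun_mul (hgr j),
        delBar_sum _ fun j _ => ((hg a j).fun_mul (hvd j)).fun_add ((hmd a j).fun_mul (hp j))] at h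
      simp only [delBar_mul (hg a _) (hgr _),
        delBar_add ((hg a _).fun_mul (hvd _)) ((hmd a _).fun_mul (hp _)),
        delBar_mul (hg a _) (hvd _), delBar_mul (hmd a _) (hp _), hcomm,
        Finset.sum_add_distrib] at h
      simp only [Matrix.mulVec, dotProduct, Pi.add_apply, Matrix.of_apply]
      simp only [mdelBar, vdelBar, Matrix.of_apply] at h ⊢
      linear_combination h
    rw [dualCurv_eq, show grad G (vdelBar φ) s = vdel (vdelBar φ) s +
      (G s)⁻¹.mulVec ((mdel G s).mulVec (vdelBar φ s)) from rfl, mulVec_add, sub_mulVec]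
    rw [show grad G φ s = vdel φ s + (G s)⁻¹.mulVec ((mdel G s).mulVec (φ s)) from rfl,
      mulVec_add] at step
    simp only [mulVec_mulVec, ← mul_assoc, Matrix.mul_nonsing_inv _ hu, one_mul] at step ⊢
    linear_combination (norm := module) step
  simp only [sesq, main, dotProduct_add]

/-- Bochner identity. -/
lemma delBar_del_self (hG : Nice W G) (hφ : VSmooth W φ) (hs : s ∈ W) :
    (delBar (del (fun x => sesq (G x) (φ x) (φ x))) s).re =
      quad (G s) (grad G φ s) + quad (dualCurv G s) (φ s) +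
        2 * (del (fun x => sesq (G x) (φ x) (vdelBar φ x)) s).re - quad (G s) (vdelBar φ s) := by
  have hψ := hφ.vdelBar hG.isOpen
  have hgr := VSmooth.grad hG hφ
  have hev : del (fun x => sesq (G x) (φ x) (φ x)) =ᶠ[𝓝 s]
      fun x => sesq (G x) (vdelBar φ x) (φ x) + sesq (G x) (φ x) (grad G φ x) := by
    filter_upwards [hG.isOpen.mem_nhds hs] with x hx
    exact del_sesq hG hφ hφ hx
  have d1 := diffAt_of_contDiffOn (VSmooth.sesq hG hψ hφ) hG.isOpen (by simp) hs
  have d2 := diffAt_of_contDiffOn (VSmooth.sesq hG hφ hgr) hG.isOpen (by simp) hs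
  rw [delBar_congr hev, delBar_add d1 d2, delBar_sesq hG hψ hφ hs, delBar_sesq hG hφ hgr hs,
    sesq_delBar_grad hG hφ hs, del_sesq hG hφ hψ hs]
  have hH := (hG.posDef s hs).1
  have e : (sesq (G s) (grad G (vdelBar φ) s) (φ s)).re =
      (sesq (G s) (φ s) (grad G (vdelBar φ) s)).re := by
    rw [← sesq_conj hH (φ s) _, Complex.conj_re]
  simp only [quad_eq, Complex.add_re, e]
  ring

/-- The master pointwise inequality. -/
lemma pair_le (hG : Nice W G) (hφ : VSmooth W φ) {Ω : ℂ → Vec} (hΩ : VSmooth W Ω) (hs : s ∈ W)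
    {c δw : ℝ} (hc : 0 < c) (hcurv : 0 ≤ quad (dualCurv G s) (φ s) + δw * quad (G s) (φ s)) :
    (sesq (G s) (vdelBar Ω s) (φ s)).re ≤
      (del (fun x => sesq (G x) (Ω x) (φ x)) s).re +
        1 / (2 * c) * ((delBar (del (fun x => sesq (G x) (φ x) (φ x))) s).re -
          2 * (del (fun x => sesq (G x) (φ x) (vdelBar φ x)) s).re) +
        c / 2 * quad (G s) (Ω s) +
        1 / (2 * c) * (quad (G s) (vdelBar φ s) + δw * quad (G s) (φ s)) := by
  have h1 := re_sesq_ge (hG.posDef s hs).posSemidef (Ω s) (grad G φ s) hc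
  rw [del_sesq hG hΩ hφ hs, Complex.add_re, delBar_del_self hG hφ hs]
  have h2 : 1 / (2 * c) * quad (G s) (grad G φ s) ≤ 1 / (2 * c) *
      (quad (G s) (grad G φ s) + (quad (dualCurv G s) (φ s) + δw * quad (G s) (φ s))) :=
    mul_le_mul_of_nonneg_left (le_add_of_nonneg_right hcurv) (by positivity)
  linear_combination h1 + h2

end Vale.Agent.P296.An
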