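import Mathlib
import Vale.Agent.P296.Analysis.Hermitian

/-!
Pointwise algebra in `T = s^m`, `Z = z^m`, `u`, `v`, and a positive matrix `K`.
-/

open scoped ContDiff Topology ComplexOrder
open Complex ComplexConjugate Matrix

noncomputable section

namespace Vale.Agent.P296.An

/-- `1 + |X|²`. -/
def hl (X : ℂ) : ℝ := 1 + ‖X‖ ^ 2

/-- `X̄ / (1 + |X|²)`. -/
def th (X : ℂ) : ℂ := conj X / (1 + ((‖X‖ ^ 2 : ℝ) : ℂ))

/-- `(1 + X̄ Y) / (1 + |X|²)`. -/
def rh (X Y : ℂ) : ℂ := (1 + conj X * Y) / (1 + ((‖X‖ ^ 2 : ℝ) : ℂ))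

/-- The vector `(u, v, T - Z)`. -/
def qV (T Z u v : ℂ) : Vec := ![u, v, T - Z]

/-- The vector `(r⁵ q - V) / (T - Z)`. -/
def gV (T Z u v : ℂ) : Vec :=
  (th Z * ∑ i ∈ Finset.range 5, rh Z T ^ i) • qV T Z u v + ![0, 0, 1]

/-- `(T⁶ - Z⁶) / (T - Z)`. -/
def piS (T Z : ℂ) : ℂ := ∑ i ∈ Finset.range 6, T ^ i * Z ^ (5 - i)

/-- The potential with `∂̄ = q` (up to the density). -/
def omV (T Z u v : ℂ) : Vec :=
  ![th T * u - piS T Z / u, th T * v - piS T Z / v, -rh T Z]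

def nN (u v : ℂ) : ℝ := ‖u‖ ^ 2 + ‖v‖ ^ 2

def tA (K : Mat) (T Z u v : ℂ) : ℝ := quad K (qV T Z u v) / hl Z ^ 5
def tB (K : Mat) (T u v : ℂ) : ℝ := quad K (vV u v) / hl T ^ 5
def tW (K : Mat) (T u v : ℂ) : ℝ := quad K (wW u v) * hl T
def tG (K : Mat) (T Z u v : ℂ) : ℝ := quad K (gV T Z u v) * hl Z / hl T ^ 4

/-- The defining equations of the curve in terms of `T`. -/
def CurveAt (T u v : ℂ) : Prop := u ^ 2 = T ^ 6 - 1 ∧ v ^ 2 = T ^ 6 + 1

lemma hl_pos (X : ℂ) : 0 < hl X := by unfold hl; positivity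

lemma one_le_hl (X : ℂ) : 1 ≤ hl X := le_add_of_nonneg_right (sq_nonneg _)

lemma hl_cast (X : ℂ) : (hl X : ℂ) = 1 + conj X * X := by
  simp [hl, ← Complex.normSq_eq_norm_sq, Complex.normSq_eq_conj_mul_self]

lemma one_add_ne (X : ℂ) : (1 : ℂ) + conj X * X ≠ 0 := by
  rw [← hl_cast]; exact_mod_cast (hl_pos X).ne'

lemma th_eq (X : ℂ) : th X = conj X / (1 + conj X * X) := by
  simp [th, ← Complex.normSq_eq_norm_sq, Complex.normSq_eq_conj_mul_self]

lemma rh_eq (X Y : ℂ) : rh X Y = (1 + conj X * Y) / (1 + conj X * X) := by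
  simp [rh, ← Complex.normSq_eq_norm_sq, Complex.normSq_eq_conj_mul_self]

lemma norm_sq_sub_add (X Y : ℂ) :
    ‖1 + conj X * Y‖ ^ 2 + ‖Y - X‖ ^ 2 = hl X * hl Y := by
  simp only [hl, ← Complex.normSq_eq_norm_sq, Complex.normSq_apply, Complex.add_re, Complex.add_im,
    Complex.mul_re, Complex.mul_im, Complex.conj_re, Complex.conj_im, Complex.sub_re,
    Complex.sub_im, Complex.one_re, Complex.one_im]
  ring

lemma norm_sq_sub_le (X Y : ℂ) : ‖Y - X‖ ^ 2 ≤ hl X * hl Y := by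
  nlinarith [norm_sq_sub_add X Y, sq_nonneg ‖1 + conj X * Y‖]

lemma norm_sq_th (X : ℂ) : ‖th X‖ ^ 2 = ‖X‖ ^ 2 / hl X ^ 2 := by
  rw [th, norm_div, Complex.norm_conj, div_pow, show (1:ℂ) + ((‖X‖ ^ 2 : ℝ) : ℂ) = (hl X : ℂ) by
    simp [hl], Complex.norm_real, Real.norm_eq_abs, sq_abs]

lemma norm_sq_rh (X Y : ℂ) : ‖rh X Y‖ ^ 2 = ‖1 + conj X * Y‖ ^ 2 / hl X ^ 2 := by
  rw [rh, norm_div, div_pow, show (1:ℂ) + ((‖X‖ ^ 2 : ℝ) : ℂ) = (hl X : ℂ) by
    simp [hl], Complex.norm_real, Real.norm_eq_abs, sq_abs]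

lemma norm_sq_rh_le (X Y : ℂ) : ‖rh X Y‖ ^ 2 ≤ hl Y / hl X := by
  have h := hl_pos X
  rw [norm_sq_rh, div_le_div_iff₀ (by positivity) h]
  nlinarith [norm_sq_sub_add X Y, sq_nonneg ‖Y - X‖]

lemma pow_norm_rh_le (X Y : ℂ) (k : ℕ) : ‖rh X Y ^ k‖ ^ 2 ≤ (hl Y / hl X) ^ k := by
  rw [norm_pow, ← pow_mul, mul_comm, pow_mul]
  exact pow_le_pow_left₀ (sq_nonneg _) (norm_sq_rh_le X Y) k

/-- `(T - Z) g = r⁵ q - V`. -/
lemma sub_smul_gV (T Z u v : ℂ) :
    (T - Z) • gV T Z u v = rh Z T ^ 5 • qV T Z u v - vV u v := by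
  have h : th Z * (T - Z) = rh Z T - 1 := by
    have := one_add_ne Z
    rw [th_eq, rh_eq]; field_simp; ring
  have h5 := geom_sum_mul (rh Z T) 5
  rw [← h] at h5
  funext i
  fin_cases i <;> simp [gV, qV, vV]
  · linear_combination u * h5
  · linear_combination v * h5
  · linear_combination (T - Z) * h5

lemma quad_neg_arg (K : Mat) (a : Vec) : quad K (-a) = quad K a := by
  rw [← neg_one_smul ℂ a, quad_smul]; simp

lemma quad_add_le {K : Mat} (h : K.PosSemidef) (a b : Vec) :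
    quad K (a + b) ≤ 2 * quad K a + 2 * quad K b := by
  have h0 := quad_nonneg h (a - b)
  rw [sub_eq_add_neg, quad_add h.1, quad_neg_arg] at h0
  have : (sesq K a (-b)).re = -(sesq K a b).re := by
    rw [← neg_one_smul ℂ b, sesq_smul_right]; simp
  rw [quad_add h.1]
  linarith

lemma quad_sub_le {K : Mat} (h : K.PosSemidef) (a b : Vec) :
    quad K (a - b) ≤ 2 * quad K a + 2 * quad K b := by
  simpa [sub_eq_add_neg, quad_neg_arg] using quad_add_le h a (-b)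

lemma norm_sq_sum_le {n : ℕ} {F : ℕ → ℂ} {M : ℝ} (h : ∀ i < n, ‖F i‖ ^ 2 ≤ M) :
    ‖∑ i ∈ Finset.range n, F i‖ ^ 2 ≤ (n : ℝ) ^ 2 * M := by
  refine (pow_le_pow_left₀ (norm_nonneg _) (norm_sum_le _ _) 2).trans ?_
  refine sq_sum_le_card_mul_sum_sq.trans ?_
  calc ((Finset.range n).card : ℝ) * ∑ i ∈ Finset.range n, ‖F i‖ ^ 2
      ≤ n * ∑ _i ∈ Finset.range n, M := by
        rw [Finset.card_range]; gcongr with i hi
        exact h i (Finset.mem_range.1 hi)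
    _ = _ := by simp; ring

section Curve

variable {T Z u v : ℂ}

lemma CurveAt.sq_mul (hc : CurveAt T u v) : (u * v) ^ 2 = T ^ 12 - 1 := by
  rw [mul_pow, hc.1, hc.2]; ring

lemma CurveAt.norm_mul_sq (hc : CurveAt T u v) : ‖u‖ ^ 2 * ‖v‖ ^ 2 = ‖T ^ 12 - 1‖ := by
  rw [← hc.sq_mul, norm_pow, norm_mul, mul_pow]

lemma CurveAt.nN_ge (hc : CurveAt T u v) :
    2 ≤ nN u v ∧ 2 * ‖T‖ ^ 6 ≤ nN u v ∧ hl T ^ 3 ≤ 4 * nN u v := by
  have hu : ‖u‖ ^ 2 = ‖T ^ 6 - 1‖ := by rw [← norm_pow, hc.1]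
  have hv : ‖v‖ ^ 2 = ‖T ^ 6 + 1‖ := by rw [← norm_pow, hc.2]
  have h1 : (2:ℝ) ≤ nN u v := by
    have := norm_sub_le (T ^ 6 + 1) (T ^ 6 - 1)
    simp only [add_sub_sub_cancel] at this
    norm_num at this
    rw [nN, hu, hv]; linarith
  have h2 : 2 * ‖T‖ ^ 6 ≤ nN u v := by
    have := norm_add_le (T ^ 6 + 1) (T ^ 6 - 1)
    rw [show (T ^ 6 + 1) + (T ^ 6 - 1) = 2 * T ^ 6 by ring] at this
    simp at this
    rw [nN, hu, hv]; linarith
  refine ⟨h1, h2, ?_⟩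
  have : hl T ^ 3 ≤ 4 * (1 + ‖T‖ ^ 6) := by
    have hx : (0:ℝ) ≤ ‖T‖ ^ 2 := sq_nonneg _
    have e : ‖T‖ ^ 6 = (‖T‖ ^ 2) ^ 3 := by ring
    rw [hl, e]
    nlinarith [mul_nonneg (add_nonneg hx zero_le_one) (sq_nonneg (‖T‖ ^ 2 - 1))]
  linarith

lemma norm_T12_le (T : ℂ) : ‖T ^ 12 - 1‖ ≤ hl T ^ 6 := by
  refine (norm_sub_le _ _).trans ?_
  rw [norm_pow, norm_one, hl]
  have hx : (0:ℝ) ≤ ‖T‖ ^ 2 := sq_nonneg _
  rw [show ‖T‖ ^ 12 = (‖T‖ ^ 2) ^ 6 by ring]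
  generalize ‖T‖ ^ 2 = x at hx ⊢
  nlinarith [pow_nonneg hx 2, pow_nonneg hx 3, pow_nonneg hx 4, pow_nonneg hx 5]

lemma one_le_dens (h : T ^ 12 ≠ 1) : 1 ≤ hl T ^ 6 / ‖T ^ 12 - 1‖ := by
  rw [one_le_div (norm_pos_iff.2 (sub_ne_zero.2 h))]; exact norm_T12_le T

/-- A generic bound for `(±ū/u + v̄/v)/N`. -/
lemma CurveAt.norm_sq_E_le (hc : CurveAt T u v) (ε : ℂ) (hε : ‖ε‖ = 1) :
    ‖(ε * (conj u / u) + conj v / v) / (nN u v : ℂ)‖ ^ 2 ≤ 64 / hl T ^ 6 := by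
  have h3 := hc.nN_ge.2.2
  have hN : 0 < nN u v := by linarith [hc.nN_ge.1]
  have hT := hl_pos T
  have b1 : ∀ x : ℂ, ‖conj x / x‖ ≤ 1 := fun x => by
    rcases eq_or_ne x 0 with rfl | hx
    · simp
    · simp [hx]
  have h : ‖ε * (conj u / u) + conj v / v‖ ≤ 2 := by
    refine (norm_add_le _ _).trans ?_
    rw [norm_mul, hε, one_mul]; linarith [b1 u, b1 v]
  rw [norm_div, Complex.norm_real, Real.norm_eq_abs, abs_of_pos hN, div_pow,
    div_le_div_iff₀ (by positivity) (by positivity)]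
  calc ‖ε * (conj u / u) + conj v / v‖ ^ 2 * hl T ^ 6
      ≤ 2 ^ 2 * (hl T ^ 3) ^ 2 := by
        rw [show (hl T ^ 3) ^ 2 = hl T ^ 6 by ring]; gcongr
    _ ≤ 2 ^ 2 * (4 * nN u v) ^ 2 := by gcongr
    _ = _ := by ring

/-- The coefficient of `V` in `omV`. -/
def coefX (T Z u v : ℂ) : ℂ :=
  th T * (∑ i ∈ Finset.range 6, rh T Z ^ i) -
    piS T Z * ((conj u / u + conj v / v) / (nN u v : ℂ))

/-- The coefficient of `q` in `omV`. -/
def coefY (T Z : ℂ) : ℂ :=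
  rh T Z ^ 6 * (th Z * ∑ i ∈ Finset.range 5, rh Z T ^ i) -
    th T * ∑ i ∈ Finset.range 5, rh T Z ^ (i + 1)

lemma omV_eq (hc : CurveAt T u v) (hu : u ≠ 0) (hv : v ≠ 0) :
    omV T Z u v = (-rh T Z ^ 6) • gV T Z u v + coefX T Z u v • vV u v + coefY T Z • qV T Z u v +
      (-(2 * piS T Z) / (u * v)) • wW u v := by
  have hN : (nN u v : ℂ) ≠ 0 := by
    have := hc.nN_ge.1; exact_mod_cast (show nN u v ≠ 0 by linarith)
  have hNc : (nN u v : ℂ) = conj u * u + conj v * v := by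
    simp [nN, ← Complex.normSq_eq_norm_sq, Complex.normSq_eq_conj_mul_self]
  have h : th T * (T - Z) = 1 - rh T Z := by
    have := one_add_ne T
    rw [th_eq, rh_eq]; field_simp; ring
  have hdiff : v ^ 2 - u ^ 2 = 2 := by rw [hc.1, hc.2]; ring
  have hW : wW u v = ((nN u v : ℂ))⁻¹ • ![conj v, -conj u, 0] := rfl
  -- `(1/u, 1/v) = E V + 2/(uv) W`
  have e1 : 1 / u = (conj u / u + conj v / v) / (nN u v : ℂ) * u +
      2 / (u * v) * ((nN u v : ℂ)⁻¹ * conj v) := by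
    field_simp
    rw [hNc]
    linear_combination conj v * hdiff
  have e2 : 1 / v = (conj u / u + conj v / v) / (nN u v : ℂ) * v +
      2 / (u * v) * ((nN u v : ℂ)⁻¹ * (-conj u)) := by
    field_simp
    rw [hNc]
    linear_combination -conj u * hdiff
  have g6 := geom_sum_mul (rh T Z) 6
  have s6 : ∑ i ∈ Finset.range 6, rh T Z ^ i =
      1 + ∑ i ∈ Finset.range 5, rh T Z ^ (i + 1) := by
    rw [Finset.sum_range_succ']; ring
  have s1 : ∑ i ∈ Finset.range 5, rh T Z ^ (i + 1) =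
      rh T Z * ∑ i ∈ Finset.range 5, rh T Z ^ i := by
    rw [Finset.mul_sum]; exact Finset.sum_congr rfl fun i _ => pow_succ' _ _
  have g5 := geom_sum_mul (rh T Z) 5
  rw [hW]
  funext i
  fin_cases i <;> simp [omV, gV, qV, vV, coefX, coefY, s6]
  · linear_combination (-piS T Z) * e1
  · linear_combination (-piS T Z) * e2
  · rw [s1]
    linear_combination (-rh T Z) * g5 +
      (rh T Z * ∑ i ∈ Finset.range 5, rh T Z ^ i) * h

lemma coefY_bound (T Z : ℂ) : ‖coefY T Z‖ ^ 2 ≤ 25 / hl T ^ 2 := by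
  have hT := hl_pos T
  have hZ := hl_pos Z
  rcases eq_or_ne T Z with rfl | hne
  · have h1 : rh T T = 1 := by rw [rh_eq, div_self (one_add_ne T)]
    have : coefY T T = 0 := by simp [coefY, h1]
    rw [this]; simp; positivity
  set c2 : ℝ := ‖1 + conj Z * T‖ ^ 2 / (hl T * hl Z) with hc2
  have hc0 : 0 ≤ c2 := by positivity
  have hc1 : c2 ≤ 1 := by
    rw [hc2, div_le_one (by positivity)]
    nlinarith [norm_sq_sub_add Z T, sq_nonneg ‖T - Z‖]
  have hrr : rh Z T * rh T Z = (c2 : ℂ) := by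
    rw [hc2, rh_eq, rh_eq, Complex.ofReal_div, Complex.ofReal_mul, hl_cast, hl_cast,
      ← Complex.normSq_eq_norm_sq, Complex.normSq_eq_conj_mul_self]
    simp only [map_add, map_one, map_mul, Complex.conj_conj]
    field_simp
  have hd : (c2 : ℂ) - 1 = -(conj (T - Z) * (T - Z)) / ((hl T : ℂ) * (hl Z : ℂ)) := by
    rw [← hrr, rh_eq, rh_eq, hl_cast, hl_cast, map_sub, div_mul_div_comm,
      mul_comm (1 + conj T * T) (1 + conj Z * Z),
      div_sub_one (mul_ne_zero (one_add_ne Z) (one_add_ne T))]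
    congr 1
    ring
  have key : coefY T Z = -(rh T Z * conj (T - Z) * (∑ i ∈ Finset.range 5, (c2 : ℂ) ^ i)) /
      ((hl T : ℂ) * (hl Z : ℂ)) := by
    refine mul_right_cancel₀ (sub_ne_zero.2 hne) ?_
    have hz : th Z * (T - Z) = rh Z T - 1 := by
      have := one_add_ne Z
      rw [th_eq, rh_eq]; field_simp; ring
    have h : th T * (T - Z) = 1 - rh T Z := by
      have := one_add_ne T
      rw [th_eq, rh_eq]; field_simp; ring
    have g1 := geom_sum_mul (rh Z T) 5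
    have g2 := geom_sum_mul (rh T Z) 5
    have g3 := geom_sum_mul ((c2 : ℂ)) 5
    have s1 : ∑ i ∈ Finset.range 5, rh T Z ^ (i + 1) =
        rh T Z * ∑ i ∈ Finset.range 5, rh T Z ^ i := by
      rw [Finset.mul_sum]; exact Finset.sum_congr rfl fun i _ => pow_succ' _ _
    have e : coefY T Z * (T - Z) = rh T Z * ((c2 : ℂ) ^ 5 - 1) := by
      rw [coefY, s1, ← hrr, mul_pow]
      linear_combination (rh T Z ^ 6 * ∑ i ∈ Finset.range 5, rh Z T ^ i) * hz +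
        rh T Z ^ 6 * g1 - (rh T Z * ∑ i ∈ Finset.range 5, rh T Z ^ i) * h + rh T Z * g2
    rw [e, ← g3, hd]
    ring
  have hsum : ‖∑ i ∈ Finset.range 5, (c2 : ℂ) ^ i‖ ^ 2 ≤ 25 := by
    refine (norm_sq_sum_le (M := 1) fun i _ => ?_).trans_eq (by norm_num)
    rw [norm_pow, Complex.norm_real, Real.norm_eq_abs, abs_of_nonneg hc0]
    exact pow_le_one₀ (by positivity) (pow_le_one₀ hc0 hc1)
  rw [key, norm_div, norm_neg, norm_mul, norm_mul, Complex.norm_conj, norm_mul, Complex.norm_real,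
    Complex.norm_real, Real.norm_eq_abs, Real.norm_eq_abs, abs_of_pos hT, abs_of_pos hZ, div_pow,
    mul_pow, mul_pow, mul_pow, div_le_div_iff₀ (by positivity) (by positivity)]
  calc ‖rh T Z‖ ^ 2 * ‖T - Z‖ ^ 2 * ‖∑ i ∈ Finset.range 5, (c2 : ℂ) ^ i‖ ^ 2 * hl T ^ 2
      ≤ hl Z / hl T * (hl Z * hl T) * 25 * hl T ^ 2 := by
        gcongr
        · exact norm_sq_rh_le T Z
        · exact norm_sq_sub_le Z T
    _ = _ := by field_simp

lemma coefX_bound (hc : CurveAt T u v) :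
    ‖coefX T Z u v‖ ^ 2 * hl T ^ 7 ≤ 18432 * hl Z ^ 5 := by
  have hT := hl_pos T
  have hZ := hl_pos Z
  have hT1 := one_le_hl T
  have hZ1 := one_le_hl Z
  have two : ∀ a b : ℂ, ‖a + b‖ ^ 2 ≤ 2 * ‖a‖ ^ 2 + 2 * ‖b‖ ^ 2 := fun a b => by
    nlinarith [norm_add_le a b, norm_nonneg (a + b), sq_nonneg (‖a‖ - ‖b‖)]
  rcases le_or_gt ‖T‖ 1 with h | h
  · have hT2 : hl T ≤ 2 := by
      simp only [hl]; nlinarith [norm_nonneg T]
    have b1 : ‖∑ i ∈ Finset.range 6, rh T Z ^ i‖ ^ 2 ≤ 36 * hl Z ^ 5 := by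
      refine (norm_sq_sum_le (M := hl Z ^ 5) fun i hi => ?_).trans_eq (by norm_num)
      refine (pow_norm_rh_le T Z i).trans ((pow_le_pow_left₀ (by positivity)
        (div_le_self hZ.le hT1) i).trans (pow_le_pow_right₀ hZ1 (by omega)))
    have b2 : ‖th T‖ ^ 2 ≤ 1 := by
      rw [norm_sq_th, div_le_one (by positivity)]
      simp only [hl]; nlinarith [sq_nonneg ‖T‖]
    have b3 : ‖piS T Z‖ ^ 2 ≤ 36 * hl Z ^ 5 := by
      refine (norm_sq_sum_le (M := hl Z ^ 5) fun i hi => ?_).trans_eq (by norm_num)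
      rw [norm_mul, mul_pow, norm_pow, norm_pow]
      have h1 : (‖T‖ ^ i) ^ 2 ≤ 1 := pow_le_one₀ (by positivity) (pow_le_one₀ (norm_nonneg _) h)
      have h2 : (‖Z‖ ^ (5 - i)) ^ 2 ≤ hl Z ^ 5 := by
        rw [← pow_mul, mul_comm, pow_mul]
        exact (pow_le_pow_left₀ (sq_nonneg _) (le_add_of_nonneg_left zero_le_one) _).trans
          (pow_le_pow_right₀ hZ1 (by omega))
      calc _ ≤ 1 * hl Z ^ 5 := by gcongr
        _ = _ := one_mul _
    have b4 := hc.norm_sq_E_le 1 norm_one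
    rw [one_mul] at b4
    calc ‖coefX T Z u v‖ ^ 2 * hl T ^ 7
        ≤ (2 * ‖th T * ∑ i ∈ Finset.range 6, rh T Z ^ i‖ ^ 2 +
            2 * ‖piS T Z * ((conj u / u + conj v / v) / (nN u v : ℂ))‖ ^ 2) * hl T ^ 7 := by
          refine mul_le_mul_of_nonneg_right ?_ (by positivity)
          rw [coefX, sub_eq_add_neg]
          refine (two _ _).trans_eq ?_
          rw [norm_neg]
      _ ≤ (2 * (1 * (36 * hl Z ^ 5)) + 2 * (36 * hl Z ^ 5 * (64 / hl T ^ 6))) * hl T ^ 7 := by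
          simp only [norm_mul, mul_pow]
          gcongr
      _ = 72 * hl Z ^ 5 * hl T ^ 7 + 4608 * hl Z ^ 5 * hl T := by field_simp; ring
      _ ≤ 72 * hl Z ^ 5 * 2 ^ 7 + 4608 * hl Z ^ 5 * 2 := by gcongr
      _ = _ := by ring
  · have hT0 : T ≠ 0 := by rintro rfl; simp at h; linarith
    have hn1 : 1 ≤ ‖T‖ ^ 2 := one_le_pow₀ h.le
    have hinv : (1:ℝ) / ‖T‖ ^ 2 ≤ 2 / hl T := by
      rw [div_le_div_iff₀ (by positivity) hT]; simp only [hl]; linarith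
    have hq : ‖Z / T‖ ^ 2 ≤ 2 * (hl Z / hl T) ∧ ‖Z / T‖ ^ 2 ≤ hl Z := by
      rw [norm_div, div_pow]
      refine ⟨?_, ?_⟩
      · calc ‖Z‖ ^ 2 / ‖T‖ ^ 2 = ‖Z‖ ^ 2 * (1 / ‖T‖ ^ 2) := by ring
          _ ≤ hl Z * (2 / hl T) := by
              gcongr; exact le_add_of_nonneg_left zero_le_one
          _ = _ := by ring
      · exact (div_le_self (sq_nonneg _) hn1).trans (le_add_of_nonneg_left zero_le_one)
    set S1 := ∑ i ∈ Finset.range 6, (Z / T) ^ i * rh T Z ^ (5 - i) with hS1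
    set S2 := ∑ i ∈ Finset.range 6, (Z / T) ^ i with hS2
    set E' := ((-1 : ℂ) * (conj u / u) + conj v / v) / (nN u v : ℂ) with hE'
    have hXeq : coefX T Z u v = -S1 / (T * (hl T : ℂ)) + E' * (S2 / T) := by
      have hN : (nN u v : ℂ) ≠ 0 := by
        have := hc.nN_ge.1; exact_mod_cast (show nN u v ≠ 0 by linarith)
      have hNc : (nN u v : ℂ) = conj u * u + conj v * v := by
        simp [nN, ← Complex.normSq_eq_norm_sq, Complex.normSq_eq_conj_mul_self]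
      have hone : T ^ 6 * ((conj u / u + conj v / v) / (nN u v : ℂ)) = 1 - E' := by
        rw [hE']
        have e1 : T ^ 6 * (conj u / u) = conj u * u + conj u / u := by
          rcases eq_or_ne u 0 with rfl | hu
          · simp
          · field_simp; linear_combination (-conj u) * hc.1
        have e2 : T ^ 6 * (conj v / v) = conj v * v - conj v / v := by
          rcases eq_or_ne v 0 with rfl | hv
          · simp
          · field_simp; linear_combination (-conj v) * hc.2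
        rw [eq_sub_iff_add_eq, mul_div_assoc', ← add_div, div_eq_iff hN]
        linear_combination e1 + e2 - hNc
      have hPi : piS T Z / T ^ 6 = S2 / T := by
        simp only [piS, hS2, Finset.sum_range_succ, Finset.sum_range_zero]
        field_simp
        ring
      have hmain : th T * (∑ i ∈ Finset.range 6, rh T Z ^ i) - piS T Z / T ^ 6 =
          -S1 / (T * (hl T : ℂ)) := by
        have h1 : rh T Z = 1 - th T * (T - Z) := by
          have := one_add_ne T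
          rw [th_eq, rh_eq]; field_simp; ring
        have h2 : (1 : ℂ) / (hl T : ℂ) = 1 - th T * T := by
          have := one_add_ne T
          rw [th_eq, hl_cast]; field_simp; ring
        rw [show -S1 / (T * (hl T : ℂ)) = -S1 / T * (1 / (hl T : ℂ)) by ring, h2]
        simp only [piS, hS1, Finset.sum_range_succ, Finset.sum_range_zero, h1]
        field_simp
        ring
      have : piS T Z * ((conj u / u + conj v / v) / (nN u v : ℂ)) =
          piS T Z / T ^ 6 - E' * (piS T Z / T ^ 6) := by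
        calc piS T Z * ((conj u / u + conj v / v) / (nN u v : ℂ))
            = piS T Z / T ^ 6 * (T ^ 6 * ((conj u / u + conj v / v) / (nN u v : ℂ))) := by
              rw [← mul_assoc, div_mul_cancel₀ _ (pow_ne_zero 6 hT0)]
          _ = _ := by rw [hone]; ring
      rw [coefX, this]
      linear_combination hmain + E' * hPi
    have b1 : ‖S1‖ ^ 2 ≤ 1152 * (hl Z / hl T) ^ 5 := by
      refine (norm_sq_sum_le (M := 32 * (hl Z / hl T) ^ 5) fun i hi => ?_).trans_eq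
        (by norm_num; ring)
      rw [norm_mul, mul_pow, norm_pow, ← pow_mul, mul_comm i 2, pow_mul]
      calc (‖Z / T‖ ^ 2) ^ i * ‖rh T Z ^ (5 - i)‖ ^ 2
          ≤ (2 * (hl Z / hl T)) ^ i * (hl Z / hl T) ^ (5 - i) := by
            gcongr
            · exact hq.1
            · exact pow_norm_rh_le T Z _
        _ = 2 ^ i * (hl Z / hl T) ^ 5 := by
            rw [mul_pow, mul_assoc, ← pow_add, show i + (5 - i) = 5 by omega]
        _ ≤ 2 ^ 5 * (hl Z / hl T) ^ 5 :=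
            mul_le_mul_of_nonneg_right (pow_le_pow_right₀ one_le_two (by omega)) (by positivity)
        _ = _ := by norm_num
    have b2 : ‖S2‖ ^ 2 ≤ 36 * hl Z ^ 5 := by
      refine (norm_sq_sum_le (M := hl Z ^ 5) fun i hi => ?_).trans_eq (by norm_num)
      rw [norm_pow, ← pow_mul, mul_comm i 2, pow_mul]
      exact (pow_le_pow_left₀ (sq_nonneg _) hq.2 i).trans (pow_le_pow_right₀ hZ1 (by omega))
    have b3 : ‖E'‖ ^ 2 ≤ 64 / hl T ^ 6 := hc.norm_sq_E_le (-1) (by simp)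
    clear_value S1 S2 E'
    calc ‖coefX T Z u v‖ ^ 2 * hl T ^ 7
        ≤ (2 * (‖S1‖ ^ 2 * (1 / ‖T‖ ^ 2) / hl T ^ 2) +
            2 * (‖E'‖ ^ 2 * (‖S2‖ ^ 2 * (1 / ‖T‖ ^ 2)))) * hl T ^ 7 := by
          refine mul_le_mul_of_nonneg_right ?_ (by positivity)
          rw [hXeq]
          refine (two _ _).trans_eq ?_
          rw [norm_div, norm_neg, norm_mul, Complex.norm_real, Real.norm_eq_abs, abs_of_pos hT,
            norm_mul, norm_div]
          ring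
      _ ≤ (2 * (1152 * (hl Z / hl T) ^ 5 * (2 / hl T) / hl T ^ 2) +
            2 * (64 / hl T ^ 6 * (36 * hl Z ^ 5 * (2 / hl T)))) * hl T ^ 7 := by gcongr
      _ = 4608 * hl Z ^ 5 / hl T + 9216 * hl Z ^ 5 := by field_simp; ring
      _ ≤ 4608 * hl Z ^ 5 + 9216 * hl Z ^ 5 := by
          gcongr; exact div_le_self (by positivity) hT1
      _ ≤ _ := by linarith [pow_pos hZ 5]

lemma piS_bound (T Z : ℂ) : ‖piS T Z‖ ^ 2 ≤ 36 * (hl T ^ 5 * hl Z ^ 5) := by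
  refine (norm_sq_sum_le (M := hl T ^ 5 * hl Z ^ 5) fun i hi => ?_).trans_eq (by norm_num)
  rw [norm_mul, mul_pow, norm_pow, norm_pow, ← pow_mul, ← pow_mul, mul_comm i 2,
    mul_comm (5 - i) 2, pow_mul, pow_mul]
  have pw : ∀ (X : ℂ) (k : ℕ), k ≤ 5 → (‖X‖ ^ 2) ^ k ≤ hl X ^ 5 := fun X k hk =>
    (pow_le_pow_left₀ (sq_nonneg _) (le_add_of_nonneg_left zero_le_one) k).trans
      (pow_le_pow_right₀ (one_le_hl X) hk)
  exact mul_le_mul (pw T i (by omega)) (pw Z _ (by omega)) (by positivity)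
    (pow_nonneg (hl_pos T).le 5)

/-- The bound for the potential of the first step. -/
lemma omV_bound {K : Mat} (hK : K.PosSemidef) (hc : CurveAt T u v) (h1 : T ^ 12 ≠ 1) :
    hl T ^ 2 * quad K (omV T Z u v) ≤
      73728 * (hl T ^ 6 / ‖T ^ 12 - 1‖) * hl Z ^ 5 *
        (tA K T Z u v + tB K T u v + tW K T u v + tG K T Z u v) := by
  have hu : u ≠ 0 := fun h => h1 (by subst h; linear_combination -(T ^ 6 + 1) * hc.1)
  have hv : v ≠ 0 := fun h => h1 (by subst h; linear_combination -(T ^ 6 - 1) * hc.2)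
  have hT := hl_pos T
  have hZ := hl_pos Z
  have hQ : 0 < ‖T ^ 12 - 1‖ := norm_pos_iff.2 (sub_ne_zero.2 h1)
  set d := hl T ^ 6 / ‖T ^ 12 - 1‖ with hd
  have hd1 : 1 ≤ d := one_le_dens h1
  set q := quad K (qV T Z u v)
  set b := quad K (vV u v)
  set w := quad K (wW u v)
  set g := quad K (gV T Z u v)
  have hq : 0 ≤ q := quad_nonneg hK _
  have hb : 0 ≤ b := quad_nonneg hK _
  have hw : 0 ≤ w := quad_nonneg hK _
  have hg : 0 ≤ g := quad_nonneg hK _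
  have hsum : quad K (omV T Z u v) ≤ 4 * (‖rh T Z ^ 6‖ ^ 2 * g) +
      4 * (‖coefX T Z u v‖ ^ 2 * b) + 4 * (‖coefY T Z‖ ^ 2 * q) +
      4 * (‖-(2 * piS T Z) / (u * v)‖ ^ 2 * w) := by
    rw [omV_eq hc hu hv, add_assoc ((-rh T Z ^ 6) • gV T Z u v + coefX T Z u v • vV u v)]
    refine (quad_add_le hK _ _).trans ?_
    refine (add_le_add (mul_le_mul_of_nonneg_left (quad_add_le hK _ _) zero_le_two)
      (mul_le_mul_of_nonneg_left (quad_add_le hK _ _) zero_le_two)).trans_eq ?_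
    simp only [quad_smul, norm_neg]
    ring
  have t1 : hl T ^ 2 * (‖rh T Z ^ 6‖ ^ 2 * g) ≤ d * hl Z ^ 5 * tG K T Z u v := by
    calc hl T ^ 2 * (‖rh T Z ^ 6‖ ^ 2 * g) ≤ hl T ^ 2 * ((hl Z / hl T) ^ 6 * g) := by
          gcongr; exact pow_norm_rh_le T Z 6
      _ = 1 * (hl Z ^ 5 * tG K T Z u v) := by simp only [tG, g]; field_simp
      _ ≤ d * (hl Z ^ 5 * tG K T Z u v) := by
          gcongr; simp only [tG]; positivity
      _ = _ := by ring
  have t2 : hl T ^ 2 * (‖coefX T Z u v‖ ^ 2 * b) ≤ 18432 * d * hl Z ^ 5 * tB K T u v := by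
    have e : b = hl T ^ 5 * tB K T u v := by simp only [tB, b]; field_simp
    have hB : 0 ≤ tB K T u v := by simp only [tB]; positivity
    calc hl T ^ 2 * (‖coefX T Z u v‖ ^ 2 * b)
        = (‖coefX T Z u v‖ ^ 2 * hl T ^ 7) * tB K T u v := by rw [e]; ring
      _ ≤ 18432 * hl Z ^ 5 * tB K T u v :=
          mul_le_mul_of_nonneg_right (coefX_bound hc) hB
      _ ≤ 18432 * hl Z ^ 5 * tB K T u v * d := le_mul_of_one_le_right (by positivity) hd1
      _ = _ := by ring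
  have t3 : hl T ^ 2 * (‖coefY T Z‖ ^ 2 * q) ≤ 25 * d * hl Z ^ 5 * tA K T Z u v := by
    have e : q = hl Z ^ 5 * tA K T Z u v := by simp only [tA, q]; field_simp
    have hA : 0 ≤ tA K T Z u v := by simp only [tA]; positivity
    calc hl T ^ 2 * (‖coefY T Z‖ ^ 2 * q) ≤ hl T ^ 2 * (25 / hl T ^ 2 * q) := by
          gcongr; exact coefY_bound T Z
      _ = 25 * (hl Z ^ 5 * tA K T Z u v) := by rw [e]; field_simp
      _ ≤ 25 * (hl Z ^ 5 * tA K T Z u v) * d := le_mul_of_one_le_right (by positivity) hd1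
      _ = _ := by ring
  have t4 : hl T ^ 2 * (‖-(2 * piS T Z) / (u * v)‖ ^ 2 * w) ≤
      144 * d * hl Z ^ 5 * tW K T u v := by
    have en : ‖-(2 * piS T Z) / (u * v)‖ ^ 2 = 4 * ‖piS T Z‖ ^ 2 / ‖T ^ 12 - 1‖ := by
      rw [norm_div, norm_neg, norm_mul, norm_mul, div_pow, mul_pow, mul_pow, hc.norm_mul_sq]
      norm_num
    rw [en]
    calc hl T ^ 2 * (4 * ‖piS T Z‖ ^ 2 / ‖T ^ 12 - 1‖ * w)
        ≤ hl T ^ 2 * (4 * (36 * (hl T ^ 5 * hl Z ^ 5)) / ‖T ^ 12 - 1‖ * w) := by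
          gcongr; exact piS_bound T Z
      _ = _ := by simp only [hd, tW, w]; ring
  have hA : 0 ≤ tA K T Z u v := by simp only [tA]; positivity
  have hB : 0 ≤ tB K T u v := by simp only [tB]; positivity
  have hW : 0 ≤ tW K T u v := by simp only [tW]; positivity
  have hG : 0 ≤ tG K T Z u v := by simp only [tG]; positivity
  have hP : (0:ℝ) ≤ d * hl Z ^ 5 := by positivity
  have := mul_le_mul_of_nonneg_left hsum (sq_nonneg (hl T))
  nlinarith [mul_nonneg hP hA, mul_nonneg hP hB, mul_nonneg hP hW, mul_nonneg hP hG]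

end Curve

/-- The bound for the first weight. -/
lemma dens_le (T : ℂ) (h : T ^ 12 ≠ 1) :
    hl T ^ 4 / ‖T ^ 12 - 1‖ ≤ 10000000 * (1 / hl T ^ 2 +
      36 * ‖T ^ 11 + conj T‖ ^ 2 / (‖T ^ 12 - 1‖ * hl T ^ 8)) := by
  have hT := hl_pos T
  have hT1 := one_le_hl T
  have hQ : 0 < ‖T ^ 12 - 1‖ := norm_pos_iff.2 (sub_ne_zero.2 h)
  set Q := ‖T ^ 12 - 1‖ with hQd
  set A := ‖T ^ 11 + conj T‖
  have hA : 0 ≤ A := norm_nonneg _
  suffices hl T ^ 12 ≤ 10000000 * (Q * hl T ^ 6 + 36 * A ^ 2) by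
    have e : 10000000 * (1 / hl T ^ 2 + 36 * A ^ 2 / (Q * hl T ^ 8)) =
        10000000 * (Q * hl T ^ 6 + 36 * A ^ 2) / (Q * hl T ^ 8) := by field_simp
    rw [e, div_le_div_iff₀ hQ (by positivity)]
    calc hl T ^ 4 * (Q * hl T ^ 8) = hl T ^ 12 * Q := by ring
      _ ≤ _ := mul_le_mul_of_nonneg_right this hQ.le
  rcases le_or_gt (‖T‖ ^ 12) 2 with hs | hb
  · have hn2 : ‖T‖ ^ 2 ≤ 2 := by
      by_contra hh; push Not at hh
      nlinarith [pow_le_pow_left₀ zero_le_two hh.le 6]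
    have hl3 : hl T ≤ 3 := by simp only [hl]; linarith
    have hn : ‖T‖ ≤ 2 := by nlinarith [norm_nonneg T]
    have h1 : hl T ≤ Q + 2 * A := by
      have e : (hl T : ℂ) = T * (T ^ 11 + conj T) - (T ^ 12 - 1) := by rw [hl_cast]; ring
      have := norm_sub_le (T * (T ^ 11 + conj T)) (T ^ 12 - 1)
      rw [← e, Complex.norm_real, Real.norm_eq_abs, abs_of_pos hT, norm_mul] at this
      nlinarith
    have h12 : hl T ^ 12 ≤ 531441 := by
      calc hl T ^ 12 ≤ 3 ^ 12 := pow_le_pow_left₀ hT.le hl3 12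
        _ = _ := by norm_num
    rcases le_or_gt (1 / 2) Q with hq | hq
    · nlinarith [one_le_pow₀ (n := 6) hT1, sq_nonneg A]
    · have : 1 / 4 ≤ A := by linarith
      nlinarith [mul_nonneg hQ.le (pow_nonneg hT.le 6)]
  · have h6 : hl T ^ 6 ≤ 128 * Q := by
      have h2 : 1 ≤ ‖T‖ ^ 2 := by
        by_contra hh; push Not at hh
        nlinarith [pow_le_one₀ (n := 6) (sq_nonneg ‖T‖) hh.le]
      have h3 : hl T ≤ 2 * ‖T‖ ^ 2 := by simp only [hl]; linarith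
      have h4 : ‖T‖ ^ 12 - 1 ≤ Q := by
        have := norm_sub_norm_le (T ^ 12) 1
        rwa [norm_pow, norm_one] at this
      calc hl T ^ 6 ≤ (2 * ‖T‖ ^ 2) ^ 6 := pow_le_pow_left₀ hT.le h3 6
        _ = 64 * ‖T‖ ^ 12 := by ring
        _ ≤ _ := by linarith
    calc hl T ^ 12 = hl T ^ 6 * hl T ^ 6 := by ring
      _ ≤ 128 * Q * hl T ^ 6 := by gcongr
      _ ≤ _ := by nlinarith [sq_nonneg A, mul_nonneg hQ.le (pow_nonneg hT.le 6)]

/-- The weight outside a compact set. -/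
lemma dens_le_far (T : ℂ) (hb : 2 < ‖T‖ ^ 12) : hl T ^ 6 / ‖T ^ 12 - 1‖ ≤ 128 := by
  have h2 : 1 ≤ ‖T‖ ^ 2 := by
    by_contra hh; push Not at hh
    nlinarith [pow_le_one₀ (n := 6) (sq_nonneg ‖T‖) hh.le]
  have h3 : hl T ≤ 2 * ‖T‖ ^ 2 := by simp only [hl]; linarith
  have h4 : ‖T‖ ^ 12 - 1 ≤ ‖T ^ 12 - 1‖ := by
    have := norm_sub_norm_le (T ^ 12) 1
    rwa [norm_pow, norm_one] at this
  rw [div_le_iff₀ (by linarith)]
  calc hl T ^ 6 ≤ (2 * ‖T‖ ^ 2) ^ 6 := pow_le_pow_left₀ (hl_pos T).le h3 6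
    _ = 64 * ‖T‖ ^ 12 := by ring
    _ ≤ _ := by linarith

lemma norm_sq_T11_le (T : ℂ) : ‖T ^ 11 + conj T‖ ^ 2 ≤ 4 * hl T ^ 11 := by
  have h1 : ‖T‖ ^ 2 ≤ hl T := le_add_of_nonneg_left zero_le_one
  have h2 : hl T ≤ hl T ^ 11 := le_self_pow₀ (one_le_hl T) (by norm_num)
  calc ‖T ^ 11 + conj T‖ ^ 2 ≤ (‖T‖ ^ 11 + ‖T‖) ^ 2 := by
        gcongr; refine (norm_add_le _ _).trans ?_; rw [norm_pow, Complex.norm_conj]
    _ ≤ 2 * ((‖T‖ ^ 2) ^ 11) + 2 * ‖T‖ ^ 2 := by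
        nlinarith [sq_nonneg (‖T‖ ^ 11 - ‖T‖)]
    _ ≤ 2 * hl T ^ 11 + 2 * hl T ^ 11 := by
        linarith [pow_le_pow_left₀ (sq_nonneg ‖T‖) h1 11]
    _ = _ := by ring

end Vale.Agent.P296.An
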