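import Mathlib
import Vale.Agent.P296.Analysis.Bounds

/-!
Sheets over the punctured plane: definitions.
-/

open scoped ContDiff Topology
open Complex ComplexConjugate Set

noncomputable section

namespace Vale.Agent.P296.An

/-- Labels of the four sign lifts. -/
abbrev Sh : Type := Bool × Bool

/-- A sign. -/
def sgn (b : Bool) : ℂ := if b then 1 else -1

/-- A square root, not continuous. -/
def root0 (w : ℂ) : ℂ := w ^ ((2 : ℂ)⁻¹)

def shU (m : ℕ) (s : ℂ) (i : Sh) : ℂ := sgn i.1 * root0 (pp m s)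

def shV (m : ℕ) (s : ℂ) (i : Sh) : ℂ := sgn i.2 * root0 (qq m s)

/-- The branch points. -/
def Rm (m : ℕ) : Finset ℂ := Polynomial.nthRootsFinset (12 * m) (1 : ℂ)

/-- The upgraded weight. -/
def nu (m : ℕ) (s : ℂ) : ℝ := om m s * (hl (s ^ m) ^ 6 / ‖(s ^ m) ^ 12 - 1‖)

/-- Sum over the sheets. -/
def shSum (m : ℕ) (F : ℂ → ℂ → ℂ → ℝ) (s : ℂ) : ℝ := ∑ i : Sh, F s (shU m s i) (shV m s i)

/-- A holomorphic branch of the sheets away from the branch points. -/
structure Br (m : ℕ) (W : Set ℂ) (u v : ℂ → ℂ) : Prop where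
  isOpen : IsOpen W
  diffU : DifferentiableOn ℂ u W
  diffV : DifferentiableOn ℂ v W
  curve : ∀ x ∈ W, OnCurve m x (u x) (v x)
  notR : ∀ x ∈ W, x ^ (12 * m) ≠ 1

end Vale.Agent.P296.An
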