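import Mathlib
import Vale.Agent.P296.Analysis.Calc

/-!
Cut-off functions on the plane minus finitely many points with small Dirichlet energy.
-/

open scoped ContDiff Topology
open Complex ComplexConjugate MeasureTheory Set Filter

noncomputable section

namespace Vale.Agent.P296.An

lemma diffAt_normSq (s r : ℂ) : DifferentiableAt ℝ (fun x => normSq (x - r)) s := by
  simp only [normSq_eq_norm_sq]
  exact (differentiableAt_id.sub_const r).norm_sq ℝ

lemma contDiff_normSq_sub (r : ℂ) {n : WithTop ℕ∞} : ContDiff ℝ n (fun x => normSq (x - r)) := by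
  simp only [normSq_eq_norm_sq]
  exact (contDiff_id.sub contDiff_const).norm_sq ℝ

lemma del_normSq (s r : ℂ) :
    del (fun x => ((normSq (x - r) : ℝ) : ℂ)) s = conj (s - r) := by
  have h : DifferentiableAt ℂ (fun x => x - r) s := by fun_prop
  simp only [normSq_eq_conj_mul_self]
  rw [del_mul (diffAt_conj (diffAt_of_complex h)) (diffAt_of_complex h), del_conj_holo h,
    del_holo h]
  simp

lemma delBar_normSq (s r : ℂ) :
    delBar (fun x => ((normSq (x - r) : ℝ) : ℂ)) s = s - r := by
  have h : DifferentiableAt ℂ (fun x => x - r) s := by fun_prop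
  simp only [normSq_eq_conj_mul_self]
  rw [delBar_mul (diffAt_conj (diffAt_of_complex h)) (diffAt_of_complex h), delBar_conj_holo h,
    delBar_holo h]
  simp

/-- An exhaustion of the complement of `R`. -/
def expo (R : Finset ℂ) (s : ℂ) : ℝ :=
  ((R.card : ℝ) + 1) * Real.log (1 + normSq (s - 0)) - ∑ r ∈ R, Real.log (normSq (s - r))

variable {R : Finset ℂ} {s : ℂ}

lemma normSq_sub_pos (hs : s ∉ R) {r : ℂ} (hr : r ∈ R) : 0 < normSq (s - r) :=
  normSq_pos.2 (sub_ne_zero.2 fun h => hs (h ▸ hr))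

lemma one_add_normSq_pos (s : ℂ) : 0 < 1 + normSq (s - 0) := by
  have := normSq_nonneg (s - 0); linarith

lemma contDiffAt_expo (hs : s ∉ R) {n : WithTop ℕ∞} : ContDiffAt ℝ n (expo R) s := by
  unfold expo
  refine ContDiffAt.sub (contDiffAt_const.mul ?_) (ContDiffAt.sum fun r hr => ?_)
  · exact ((contDiff_const.add (contDiff_normSq_sub 0)).contDiffAt).log (one_add_normSq_pos s).ne'
  · exact (contDiff_normSq_sub r).contDiffAt.log (normSq_sub_pos hs hr).ne'

lemma del_log_normSq (s r : ℂ) (h : 0 < normSq (s - r)) :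
    del (fun x => ((Real.log (normSq (x - r)) : ℝ) : ℂ)) s = (s - r)⁻¹ ∧
    delBar (fun x => ((Real.log (normSq (x - r)) : ℝ) : ℂ)) s = (conj (s - r))⁻¹ := by
  have hne : s - r ≠ 0 := normSq_pos.1 h
  have hne' : conj (s - r) ≠ 0 := (map_ne_zero (starRingEnd ℂ)).2 hne
  have hd := Real.differentiableAt_log h.ne'
  rw [del_ofReal_comp (g := fun x => normSq (x - r)) hd (diffAt_normSq s r),
    delBar_ofReal_comp (g := fun x => normSq (x - r)) hd (diffAt_normSq s r),
    del_normSq, delBar_normSq, Real.deriv_log]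
  push_cast [normSq_eq_conj_mul_self]
  constructor <;> field_simp

lemma del_log_one_add (s : ℂ) :
    del (fun x => ((Real.log (1 + normSq (x - 0)) : ℝ) : ℂ)) s =
        conj s / (1 + (normSq s : ℂ)) ∧
    delBar (fun x => ((Real.log (1 + normSq (x - 0)) : ℝ) : ℂ)) s =
        s / (1 + (normSq s : ℂ)) := by
  have h : (normSq (s - 0) + 1) ≠ 0 := by have := one_add_normSq_pos s; linarith
  have hd : DifferentiableAt ℝ (fun t => Real.log (1 + t)) (normSq (s - 0)) :=
    (differentiableAt_id.const_add 1).log (by simpa [add_comm] using h)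
  have e : deriv (fun t => Real.log (1 + t)) (normSq (s - 0)) = (1 + normSq (s - 0))⁻¹ := by
    have := ((hasDerivAt_id (normSq (s - 0))).const_add 1).log (by simpa [add_comm] using h)
    simpa using this.deriv
  rw [del_ofReal_comp (Φ := fun t => Real.log (1 + t)) (g := fun x => normSq (x - 0)) hd
      (diffAt_normSq s 0),
    delBar_ofReal_comp (Φ := fun t => Real.log (1 + t)) (g := fun x => normSq (x - 0)) hd
      (diffAt_normSq s 0),
    del_normSq, delBar_normSq, e]
  simp [div_eq_inv_mul]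

lemma del_expo (hs : s ∉ R) :
    del (fun x => ((expo R x : ℝ) : ℂ)) s =
      ((R.card : ℂ) + 1) * (conj s / (1 + (normSq s : ℂ))) - ∑ r ∈ R, (s - r)⁻¹ ∧
    delBar (fun x => ((expo R x : ℝ) : ℂ)) s =
      ((R.card : ℂ) + 1) * (s / (1 + (normSq s : ℂ))) - ∑ r ∈ R, (conj (s - r))⁻¹ := by
  have d1 : DifferentiableAt ℝ (fun x => ((Real.log (1 + normSq (x - 0)) : ℝ) : ℂ)) s :=
    Complex.ofRealCLM.differentiableAt.comp s
      (((diffAt_normSq s 0).const_add 1).log (one_add_normSq_pos s).ne')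
  have d2 : ∀ r ∈ R, DifferentiableAt ℝ (fun x => ((Real.log (normSq (x - r)) : ℝ) : ℂ)) s :=
    fun r hr => Complex.ofRealCLM.differentiableAt.comp s
      ((diffAt_normSq s r).log (normSq_sub_pos hs hr).ne')
  have e : (fun x => ((expo R x : ℝ) : ℂ)) = fun x =>
      ((R.card : ℂ) + 1) * ((Real.log (1 + normSq (x - 0)) : ℝ) : ℂ) -
        ∑ r ∈ R, ((Real.log (normSq (x - r)) : ℝ) : ℂ) := by
    funext x; simp [expo]
  rw [e, del_sub ((differentiableAt_const _).fun_mul d1) (DifferentiableAt.fun_sum d2),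
    delBar_sub ((differentiableAt_const _).fun_mul d1) (DifferentiableAt.fun_sum d2),
    del_const_mul d1, delBar_const_mul d1, del_sum _ d2, delBar_sum _ d2,
    (del_log_one_add s).1, (del_log_one_add s).2]
  exact ⟨by rw [Finset.sum_congr rfl fun r hr => (del_log_normSq s r (normSq_sub_pos hs hr)).1],
    by rw [Finset.sum_congr rfl fun r hr => (del_log_normSq s r (normSq_sub_pos hs hr)).2]⟩

lemma del_delBar_expo (hs : s ∉ R) :
    del (delBar (fun x => ((expo R x : ℝ) : ℂ))) s =
      ((R.card : ℂ) + 1) / (1 + (normSq s : ℂ)) ^ 2 := by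
  have hev : delBar (fun x => ((expo R x : ℝ) : ℂ)) =ᶠ[𝓝 s]
      fun x => ((R.card : ℂ) + 1) * (x / (1 + (normSq x : ℂ))) - ∑ r ∈ R, (conj (x - r))⁻¹ := by
    filter_upwards [R.finite_toSet.isClosed.isOpen_compl.mem_nhds (by simpa using hs)] with x hx
    exact (del_expo (by simpa using hx)).2
  rw [del_congr hev]
  have hN : ∀ x : ℂ, (1 + (normSq x : ℂ)) ≠ 0 := by
    intro x h
    have := congrArg Complex.re h
    simp at this; linarith [normSq_nonneg x]
  have hid : DifferentiableAt ℝ (fun x : ℂ => x) s := differentiableAt_id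
  have hn : DifferentiableAt ℝ (fun x => (normSq x : ℂ)) s := by
    have h := Complex.ofRealCLM.differentiableAt.comp s (diffAt_normSq s 0)
    simp only [sub_zero, Function.comp_def] at h
    exact h
  have hden : DifferentiableAt ℝ (fun x => 1 + (normSq x : ℂ)) s := hn.const_add 1
  have hq : DifferentiableAt ℝ (fun x => x / (1 + (normSq x : ℂ))) s :=
    hid.fun_mul (hden.fun_inv (hN s))
  have hr : ∀ r ∈ R, DifferentiableAt ℝ (fun x => (conj (x - r))⁻¹) s := fun r hr =>
    (diffAt_conj (hid.fun_sub (differentiableAt_const r))).fun_inv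
      (by simpa [sub_eq_zero, (starRingEnd ℂ).injective.eq_iff] using fun h : s = r => hs (by rw [h]; exact hr))
  have hdq : del (fun x => x / (1 + (normSq x : ℂ))) s = 1 / (1 + (normSq s : ℂ)) ^ 2 := by
    have key : del (fun x => (x / (1 + (normSq x : ℂ))) * (1 + (normSq x : ℂ))) s = 1 := by
      have : (fun x : ℂ => (x / (1 + (normSq x : ℂ))) * (1 + (normSq x : ℂ))) = id := by
        funext x; exact div_mul_cancel₀ x (hN x)
      rw [this, del_holo differentiableAt_id]; simp
    rw [del_mul hq hden, del_add (differentiableAt_const 1) hn, del_const,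
      show del (fun x => (normSq x : ℂ)) s = conj s by simpa using del_normSq s 0] at key
    have hs' := hN s
    rw [eq_div_iff (pow_ne_zero 2 hs')]
    have h2 : (normSq s : ℂ) = conj s * s := normSq_eq_conj_mul_self
    field_simp at key
    linear_combination key + h2
  have hdr : ∀ r ∈ R, del (fun x => (conj (x - r))⁻¹) s = 0 := by
    intro r hr
    have h : DifferentiableAt ℂ (fun x => (x - r)⁻¹) s :=
      (differentiableAt_id.sub_const r).fun_inv (by simpa [sub_eq_zero, (starRingEnd ℂ).injective.eq_iff] using fun h : s = r => hs (by rw [h]; exact hr))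
    simpa [map_inv₀] using del_conj_holo h
  rw [del_sub ((differentiableAt_const _).fun_mul hq) (DifferentiableAt.fun_sum hr),
    del_const_mul hq, del_sum _ hr, hdq, Finset.sum_eq_zero hdr]
  ring

/-- The sublevel sets of `expo`. -/
def sublevel (R : Finset ℂ) (c : ℝ) : Set ℂ :=
  {s | (1 + normSq (s - 0)) ^ (R.card + 1) ≤ Real.exp c * ∏ r ∈ R, normSq (s - r)}

lemma mem_sublevel_of_expo {c : ℝ} (hs : s ∉ R) (h : expo R s ≤ c) : s ∈ sublevel R c := by
  have h1 := Real.exp_le_exp.2 h
  rw [expo, Real.exp_sub, ← Nat.cast_add_one, Real.exp_nat_mul,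
    Real.exp_log (one_add_normSq_pos s), Real.exp_sum,
    Finset.prod_congr rfl fun r hr => Real.exp_log (normSq_sub_pos hs hr),
    div_le_iff₀ (Finset.prod_pos fun r hr => normSq_sub_pos hs hr)] at h1
  exact h1

lemma sublevel_subset {c : ℝ} : sublevel R c ⊆ (↑R : Set ℂ)ᶜ := by
  intro s hs hsR
  simp only [sublevel, Set.mem_ofPred_eq] at hs
  rw [Finset.prod_eq_zero (f := fun r => normSq (s - r)) (Finset.mem_coe.1 hsR) (by simp),
    mul_zero] at hs
  linarith [pow_pos (one_add_normSq_pos s) (R.card + 1)]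

lemma isClosed_sublevel {c : ℝ} : IsClosed (sublevel R c) :=
  isClosed_le ((continuous_const.add (continuous_normSq.comp (continuous_id.sub
    continuous_const))).pow _) (continuous_const.mul
    (continuous_finsetProd _ fun _ _ => continuous_normSq.comp (continuous_id.sub continuous_const)))

lemma normSq_sub_le (s r : ℂ) :
    normSq (s - r) ≤ (1 + normSq (s - 0)) * (1 + normSq r) := by
  simp only [sub_zero, normSq_eq_norm_sq]
  have h := norm_sub_le s r
  nlinarith [mul_le_mul h h (norm_nonneg _) (by positivity), sq_nonneg (‖s‖ * ‖r‖ - 1),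
    norm_nonneg s, norm_nonneg r]

/-- A constant attached to `R`. -/
def expoConst (R : Finset ℂ) : ℝ := ∏ r ∈ R, (1 + normSq r)

lemma expoConst_pos : 0 < expoConst R :=
  Finset.prod_pos fun r _ => by linarith [normSq_nonneg r]

lemma sublevel_bounds {c : ℝ} (hs : s ∈ sublevel R c) :
    1 + normSq (s - 0) ≤ Real.exp c * expoConst R ∧
    ∀ r ∈ R, 1 ≤ Real.exp c * expoConst R * normSq (s - r) := by
  set L := 1 + normSq (s - 0) with hL
  have hL1 : 1 ≤ L := by linarith [normSq_nonneg (s - 0)]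
  have he := Real.exp_pos c
  constructor
  · have h2 : ∏ r ∈ R, normSq (s - r) ≤ L ^ R.card * expoConst R := by
      rw [← Finset.prod_const, expoConst, ← Finset.prod_mul_distrib]
      exact Finset.prod_le_prod (fun r _ => normSq_nonneg _) fun r _ => normSq_sub_le s r
    have h3 : L ^ (R.card + 1) ≤ Real.exp c * (L ^ R.card * expoConst R) :=
      hs.trans (mul_le_mul_of_nonneg_left h2 he.le)
    rw [pow_succ'] at h3
    have hp : 0 < L ^ R.card := by positivity
    nlinarith
  · intro r hr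
    have h2 : ∏ x ∈ R.erase r, normSq (s - x) ≤
        L ^ R.card * ∏ x ∈ R.erase r, (1 + normSq x) := by
      refine (Finset.prod_le_prod (fun x _ => normSq_nonneg _) fun x _ =>
        normSq_sub_le s x).trans ?_
      rw [Finset.prod_mul_distrib, Finset.prod_const]
      refine mul_le_mul_of_nonneg_right (pow_le_pow_right₀ hL1 (Finset.card_erase_le)) ?_
      exact Finset.prod_nonneg fun x _ => by linarith [normSq_nonneg x]
    have h3 : ∏ x ∈ R.erase r, (1 + normSq x) ≤ expoConst R :=
      Finset.prod_le_prod_of_subset_of_one_le (Finset.erase_subset _ _)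
        (fun x _ => by linarith [normSq_nonneg x]) fun x _ _ => by linarith [normSq_nonneg x]
    have h4 : L ^ (R.card + 1) ≤ Real.exp c * (normSq (s - r) * (L ^ R.card * expoConst R)) := by
      refine hs.trans (mul_le_mul_of_nonneg_left ?_ he.le)
      rw [← Finset.mul_prod_erase R _ hr]
      refine mul_le_mul_of_nonneg_left (h2.trans ?_) (normSq_nonneg _)
      exact mul_le_mul_of_nonneg_left h3 (by positivity)
    have hp : 0 < L ^ R.card := by positivity
    rw [pow_succ'] at h4
    nlinarith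

lemma isCompact_sublevel {c : ℝ} : IsCompact (sublevel R c) := by
  refine Metric.isCompact_of_isClosed_isBounded isClosed_sublevel ?_
  refine (Metric.isBounded_closedBall (x := (0:ℂ)) (r := Real.exp c * expoConst R + 1)).subset ?_
  intro s hs
  have h := (sublevel_bounds hs).1
  simp only [sub_zero, normSq_eq_norm_sq] at h
  simp only [Metric.mem_closedBall, dist_zero_right]
  nlinarith [sq_nonneg (‖s‖ - 1), norm_nonneg s]

/-- Truncation profile. -/
def prof (t : ℝ) : ℝ := Real.smoothTransition (2 - t)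

lemma prof_smooth : ContDiff ℝ ∞ prof :=
  Real.smoothTransition.contDiff.comp (contDiff_const.sub contDiff_id)

lemma prof_bounds : ∃ M : ℝ, 0 ≤ M ∧ ∀ t, |deriv prof t| ≤ M ∧ |deriv (deriv prof) t| ≤ M := by
  have h0 : ∀ t, t < 1 ∨ 2 < t → deriv prof t = 0 := by
    intro t ht
    rcases ht with ht | ht
    · have : prof =ᶠ[𝓝 t] fun _ => (1:ℝ) := by
        filter_upwards [eventually_lt_nhds ht] with x hx
        exact Real.smoothTransition.one_of_one_le (by linarith)
      rw [this.deriv_eq]; simp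
    · have : prof =ᶠ[𝓝 t] fun _ => (0:ℝ) := by
        filter_upwards [eventually_gt_nhds ht] with x hx
        exact Real.smoothTransition.zero_of_nonpos (by linarith)
      rw [this.deriv_eq]; simp
  have hc : HasCompactSupport (deriv prof) := by
    refine HasCompactSupport.intro isCompact_Icc (K := Icc (1:ℝ) 2) fun t ht => h0 t ?_
    simp only [mem_Icc, not_and_or, not_le] at ht
    exact ht
  have hd : ContDiff ℝ ∞ (deriv prof) := (contDiff_infty_iff_deriv.1 prof_smooth).2
  obtain ⟨M1, h1⟩ := hc.exists_bound_of_continuous hd.continuous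
  obtain ⟨M2, h2⟩ := hc.deriv.exists_bound_of_continuous ((contDiff_infty_iff_deriv.1 hd).2).continuous
  exact ⟨max (max M1 M2) 0, le_max_right _ _, fun t =>
    ⟨(h1 t).trans (le_trans (le_max_left _ _) (le_max_left _ _)),
      (h2 t).trans (le_trans (le_max_right _ _) (le_max_left _ _))⟩⟩

/-- The cut-off at height `L`. -/
def cut (R : Finset ℂ) (L : ℝ) (s : ℂ) : ℝ :=
  Set.indicator (↑R : Set ℂ)ᶜ (fun s => prof (expo R s / L)) s

lemma cut_eventually (hs : s ∉ R) (L : ℝ) :
    cut R L =ᶠ[𝓝 s] fun x => prof (expo R x / L) := by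
  filter_upwards [R.finite_toSet.isClosed.isOpen_compl.mem_nhds (by simpa using hs)] with x hx
  exact Set.indicator_of_mem hx _

lemma cut_support {L : ℝ} (hL : 0 < L) : Function.support (cut R L) ⊆ sublevel R (2 * L) := by
  intro s hs
  simp only [Function.mem_support, cut, ne_eq, Set.indicator_apply_eq_zero, Classical.not_imp,
    Set.mem_compl_iff, Finset.mem_coe] at hs
  refine mem_sublevel_of_expo hs.1 ?_
  by_contra h
  push Not at h
  exact hs.2 (Real.smoothTransition.zero_of_nonpos (by rw [sub_nonpos, le_div_iff₀ hL]; linarith))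

lemma cut_tsupport {L : ℝ} (hL : 0 < L) : tsupport (cut R L) ⊆ sublevel R (2 * L) :=
  closure_minimal (cut_support hL) isClosed_sublevel

lemma cut_smooth {L : ℝ} (hL : 0 < L) : ContDiff ℝ ∞ (cut R L) := by
  rw [contDiff_iff_contDiffAt]
  intro x
  by_cases hx : x ∈ R
  · have : cut R L =ᶠ[𝓝 x] fun _ => (0 : ℝ) :=
      notMem_tsupport_iff_eventuallyEq.1 fun h => sublevel_subset (cut_tsupport hL h) (by simpa using hx)
    exact contDiffAt_const.congr_of_eventuallyEq this
  · exact (prof_smooth.contDiffAt.comp x ((contDiffAt_expo hx).div_const L)).congr_of_eventuallyEq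
      (cut_eventually hx L)

lemma cut_hasCompactSupport {L : ℝ} (hL : 0 < L) : HasCompactSupport (cut R L) :=
  isCompact_sublevel.of_isClosed_subset (isClosed_tsupport _) (cut_tsupport hL)

lemma cut_del {L : ℝ} (hs : s ∉ R) :
    del (fun x => ((cut R L x : ℝ) : ℂ)) s =
      ((deriv prof (expo R s / L) / L : ℝ) : ℂ) * del (fun x => ((expo R x : ℝ) : ℂ)) s ∧
    delBar (fun x => ((cut R L x : ℝ) : ℂ)) s =
      ((deriv prof (expo R s / L) / L : ℝ) : ℂ) * delBar (fun x => ((expo R x : ℝ) : ℂ)) s := by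
  have hg : DifferentiableAt ℝ (expo R) s := (contDiffAt_expo hs (n := 1)).differentiableAt one_ne_zero
  have hev : (fun x => ((cut R L x : ℝ) : ℂ)) =ᶠ[𝓝 s] fun x => ((prof (expo R x / L) : ℝ) : ℂ) :=
    (cut_eventually hs L).fun_comp (fun t : ℝ => (t : ℂ))
  have hp : DifferentiableAt ℝ prof (expo R s / L) := prof_smooth.differentiable (by simp) _
  have hd : deriv (fun t => prof (t / L)) (expo R s) = deriv prof (expo R s / L) / L := by
    have h := HasDerivAt.comp (h₂ := prof) (expo R s) hp.hasDerivAt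
      ((hasDerivAt_id (expo R s)).div_const L)
    simpa [Function.comp_def, div_eq_mul_inv] using h.deriv
  have hd' : DifferentiableAt ℝ (fun t => prof (t / L)) (expo R s) :=
    DifferentiableAt.comp (g := prof) (expo R s) hp (differentiableAt_id.div_const L)
  rw [del_congr hev, delBar_congr hev, del_ofReal_comp (Φ := fun t => prof (t / L)) hd' hg,
    delBar_ofReal_comp (Φ := fun t => prof (t / L)) hd' hg, hd]
  exact ⟨rfl, rfl⟩

lemma cut_del_delBar {L : ℝ} (hs : s ∉ R) :
    del (delBar (fun x => ((cut R L x : ℝ) : ℂ))) s =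
      ((deriv (deriv prof) (expo R s / L) / L / L : ℝ) : ℂ) *
          (del (fun x => ((expo R x : ℝ) : ℂ)) s * delBar (fun x => ((expo R x : ℝ) : ℂ)) s) +
        ((deriv prof (expo R s / L) / L : ℝ) : ℂ) *
          (((R.card : ℂ) + 1) / (1 + (normSq s : ℂ)) ^ 2) := by
  have hg : DifferentiableAt ℝ (expo R) s := (contDiffAt_expo hs (n := 1)).differentiableAt one_ne_zero
  have hev : delBar (fun x => ((cut R L x : ℝ) : ℂ)) =ᶠ[𝓝 s] fun x =>
      ((deriv prof (expo R x / L) / L : ℝ) : ℂ) * delBar (fun y => ((expo R y : ℝ) : ℂ)) x := by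
    filter_upwards [R.finite_toSet.isClosed.isOpen_compl.mem_nhds (by simpa using hs)] with x hx
    exact (cut_del (by simpa using hx)).2
  have hp : DifferentiableAt ℝ (deriv prof) (expo R s / L) :=
    (contDiff_infty_iff_deriv.1 prof_smooth).2.differentiable (by simp) _
  have hd' : DifferentiableAt ℝ (fun t => deriv prof (t / L) / L) (expo R s) :=
    (DifferentiableAt.comp (expo R s) hp (differentiableAt_id.div_const L)).div_const L
  have hd : deriv (fun t => deriv prof (t / L) / L) (expo R s) =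
      deriv (deriv prof) (expo R s / L) / L / L := by
    have h := (HasDerivAt.comp (h₂ := deriv prof) (expo R s) hp.hasDerivAt
      ((hasDerivAt_id (expo R s)).div_const L)).div_const L
    simpa [Function.comp_def, div_eq_mul_inv] using h.deriv
  have h1 : DifferentiableAt ℝ (fun x => ((deriv prof (expo R x / L) / L : ℝ) : ℂ)) s :=
    Complex.ofRealCLM.differentiableAt.comp s
      (DifferentiableAt.comp (g := fun t => deriv prof (t / L) / L) s hd' hg)
  have h2 : DifferentiableAt ℝ (delBar (fun y => ((expo R y : ℝ) : ℂ))) s := by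
    have hf : ContDiffOn ℝ 2 (fun y => ((expo R y : ℝ) : ℂ)) (↑R : Set ℂ)ᶜ := fun y hy =>
      (Complex.ofRealCLM.contDiff.contDiffAt.comp y
        (contDiffAt_expo (by simpa using hy))).contDiffWithinAt
    exact diffAt_of_contDiffOn (contDiffOn_delBar (m := 1) hf R.finite_toSet.isClosed.isOpen_compl
      (by norm_num)) R.finite_toSet.isClosed.isOpen_compl one_ne_zero (by simpa using hs)
  rw [del_congr hev, del_mul h1 h2, del_delBar_expo hs,
    del_ofReal_comp (Φ := fun t => deriv prof (t / L) / L) hd' hg, hd]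
  ring

/-- `1/‖x - c‖²` on an annulus. -/
def ann (c : ℂ) (a b : ℝ) (x : ℂ) : ℝ := (Icc a b).indicator (fun y => 1 / y ^ 2) ‖x - c‖

lemma ann_nonneg (c : ℂ) (a b : ℝ) (x : ℂ) : 0 ≤ ann c a b x :=
  Set.indicator_nonneg (fun y _ => by positivity) _

lemma ann_integral {a b : ℝ} (ha : 0 < a) (hab : a ≤ b) (c : ℂ) :
    Integrable (ann c a b) ∧
    ∫ x, ann c a b x ≤ 2 * volume.real (Metric.ball (0:ℂ) 1) * Real.log (b / a) := by
  set f : ℝ → ℝ := (Icc a b).indicator (fun y => 1 / y ^ 2) with hf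
  have hfun : (fun y => y ^ (Module.finrank ℝ ℂ - 1) • f y) =
      (Icc a b).indicator (fun y => y⁻¹) := by
    funext y
    simp only [Complex.finrank_real_complex, hf, smul_eq_mul, Set.indicator_apply]
    split_ifs with hy
    · have : y ≠ 0 := (lt_of_lt_of_le ha hy.1).ne'
      rw [show (2:ℕ) - 1 = 1 from rfl, pow_one]
      field_simp
    · simp
  have hint : IntegrableOn (fun y : ℝ => y⁻¹) (Icc a b) :=
    (continuousOn_inv₀.mono fun y hy => (lt_of_lt_of_le ha hy.1).ne').integrableOn_Icc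
  have h0 : Integrable (fun x : ℂ => f ‖x‖) := by
    rw [integrable_fun_norm_addHaar, hfun]
    exact (hint.integrable_indicator measurableSet_Icc).integrableOn
  have e : ann c a b = fun x => f ‖x - c‖ := rfl
  rw [e]
  refine ⟨h0.comp_sub_right c, ?_⟩
  rw [integral_sub_right_eq_self (fun x : ℂ => f ‖x‖) c, integral_fun_norm_addHaar, hfun,
    Complex.finrank_real_complex, setIntegral_indicator measurableSet_Icc,
    Set.inter_eq_self_of_subset_right
      (show Icc a b ⊆ Ioi (0:ℝ) from fun y hy => lt_of_lt_of_le ha hy.1),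
    integral_Icc_eq_integral_Ioc, ← intervalIntegral.integral_of_le hab,
    integral_inv_of_pos ha (ha.trans_le hab)]
  simp [mul_assoc]

lemma del_expo_sq_le {x : ℂ} {b : ℝ} (hxR : x ∉ R) (hb0 : ‖x‖ ≤ b)
    (hb : ∀ r ∈ R, 1 / b ≤ ‖x - r‖ ∧ ‖x - r‖ ≤ b) :
    ‖del (fun y => ((expo R y : ℝ) : ℂ)) x‖ ^ 2 ≤
      ((R.card : ℝ) + 1) * (((R.card : ℝ) + 1) ^ 2 *
        ((Metric.closedBall (0:ℂ) 1).indicator (fun _ => (1:ℝ)) x + ann 0 1 b x) +
      ∑ r ∈ R, ann r (1 / b) b x) := by
  set k : ℝ := (R.card : ℝ) + 1 with hk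
  have hk0 : 0 ≤ k := by positivity
  rw [(del_expo hxR).1]
  set S := ∑ r ∈ R, (x - r)⁻¹
  have hS : ‖S‖ ^ 2 ≤ (R.card : ℝ) * ∑ r ∈ R, ann r (1 / b) b x := by
    refine (pow_le_pow_left₀ (norm_nonneg _) (norm_sum_le _ _) 2).trans ?_
    refine (sq_sum_le_card_mul_sum_sq).trans ?_
    refine mul_le_mul_of_nonneg_left (Finset.sum_le_sum fun r hr => le_of_eq ?_) (by positivity)
    rw [ann, Set.indicator_of_mem (by exact ⟨(hb r hr).1, (hb r hr).2⟩), norm_inv, inv_pow,
      one_div]
  have hn2 : ‖conj x / (1 + (normSq x : ℂ))‖ ^ 2 ≤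
      (Metric.closedBall (0:ℂ) 1).indicator (fun _ => (1:ℝ)) x + ann 0 1 b x := by
    have e : ‖(1:ℂ) + (normSq x : ℂ)‖ = 1 + normSq x := by
      rw [show (1:ℂ) + (normSq x : ℂ) = ((1 + normSq x : ℝ) : ℂ) by simp, Complex.norm_real,
        Real.norm_eq_abs, abs_of_nonneg (by linarith [normSq_nonneg x])]
    rw [norm_div, Complex.norm_conj, e, normSq_eq_norm_sq]
    have hn := norm_nonneg x
    rcases le_or_gt ‖x‖ 1 with h | h
    · rw [Set.indicator_of_mem (by simpa using h)]
      refine le_trans ?_ (le_add_of_nonneg_right (ann_nonneg _ _ _ _))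
      rw [div_pow, div_le_one (by positivity)]; nlinarith
    · rw [Set.indicator_of_notMem (by simpa using h), zero_add, ann,
        Set.indicator_of_mem (by simpa using ⟨h.le, hb0⟩), sub_zero, div_pow,
        div_le_div_iff₀ (by positivity) (by positivity)]
      nlinarith
  have e1 : ‖((R.card : ℂ) + 1) * (conj x / (1 + (normSq x : ℂ)))‖ =
      k * ‖conj x / (1 + (normSq x : ℂ))‖ := by
    rw [norm_mul, show ((R.card : ℂ) + 1) = ((k : ℝ) : ℂ) by simp [hk], Complex.norm_real,
      Real.norm_eq_abs, abs_of_nonneg hk0]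
  have h3 : 0 ≤ ∑ r ∈ R, ann r (1 / b) b x :=
    Finset.sum_nonneg fun r _ => ann_nonneg _ _ _ _
  have h := norm_sub_le (((R.card : ℂ) + 1) * (conj x / (1 + (normSq x : ℂ)))) S
  rw [e1] at h
  set u := ‖conj x / (1 + (normSq x : ℂ))‖
  have hu : 0 ≤ u := norm_nonneg _
  rcases Nat.eq_zero_or_pos R.card with hc | hc
  · have hS0 : ‖S‖ = 0 := by
      have : ‖S‖ ^ 2 ≤ 0 := by simpa [hc] using hS
      exact pow_eq_zero_iff two_ne_zero |>.1 (le_antisymm this (sq_nonneg _))
    rw [hS0, add_zero] at h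
    have hk1 : k = 1 := by simp [hk, hc]
    simp only [hk1] at h ⊢
    nlinarith [pow_le_pow_left₀ (norm_nonneg _) h 2]
  · have hc1 : (1:ℝ) ≤ R.card := by exact_mod_cast hc
    have hk2 : 2 ≤ k := by simp only [hk]; linarith
    have hS' : ‖S‖ ^ 2 * 2 ≤ 2 * ((R.card : ℝ) * ∑ r ∈ R, ann r (1 / b) b x) := by
      linarith
    have h2 := pow_le_pow_left₀ (norm_nonneg _) h 2
    -- `(a + b)² ≤ k (a² + b²/(k-1))`
    have hsplit : (k * u + ‖S‖) ^ 2 ≤
        k * (k ^ 2 * u ^ 2) + k * (‖S‖ ^ 2 / (R.card : ℝ)) := by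
      have e : k = (R.card : ℝ) + 1 := hk
      rw [e]
      set c : ℝ := (R.card : ℝ)
      set a := (c + 1) * u with ha
      have : 0 ≤ (c * a - ‖S‖) ^ 2 / c := by positivity
      have eq : (c + 1) * ((c + 1) ^ 2 * u ^ 2) + (c + 1) * (‖S‖ ^ 2 / c) - (a + ‖S‖) ^ 2 =
          (c * a - ‖S‖) ^ 2 / c := by
        rw [ha]; field_simp; ring
      linarith
    refine h2.trans (hsplit.trans ?_)
    rw [mul_add]
    gcongr
    rw [div_le_iff₀ (by linarith)]
    linarith [hS]

lemma integrable_inv_one_add_normSq_sq :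
    Integrable (fun s : ℂ => 1 / (1 + normSq s) ^ 2) := by
  have h := (integrable_one_add_norm (E := ℂ) (μ := volume) (r := 4)
    (by rw [Complex.finrank_real_complex]; norm_num)).const_mul 4
  refine h.mono' (by
    have : Continuous fun s : ℂ => 1 / (1 + normSq s) ^ 2 :=
      continuous_const.div ((continuous_const.add continuous_normSq).pow 2)
        fun x => (by have := normSq_nonneg x; positivity)
    exact this.aestronglyMeasurable) (Eventually.of_forall fun s => ?_)
  have hn := norm_nonneg s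
  rw [Real.norm_eq_abs, abs_of_nonneg (by have := normSq_nonneg s; positivity),
    Real.rpow_neg (by linarith), show (1 + ‖s‖) ^ (4:ℝ) = (1 + ‖s‖) ^ 4 by norm_cast,
    normSq_eq_norm_sq, ← div_eq_mul_inv, div_le_div_iff₀ (by positivity) (by positivity)]
  nlinarith [sq_nonneg (‖s‖ - 1), pow_le_pow_left₀ (by positivity)
    (show (1 + ‖s‖) ^ 2 ≤ 2 * (1 + ‖s‖ ^ 2) by nlinarith [sq_nonneg (‖s‖ - 1)]) 2]

lemma cut_bound {M P L : ℝ} (hM : ∀ t, |deriv prof t| ≤ M ∧ |deriv (deriv prof) t| ≤ M)
    (hM0 : 0 ≤ M) (hL : 0 < L) (x : ℂ) (hPd0 : 0 ≤ P)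
    (hP : x ∉ R → x ∈ sublevel R (2 * L) → ‖del (fun y => ((expo R y : ℝ) : ℂ)) x‖ ^ 2 ≤ P) :
    ‖del (fun y => ((cut R L y : ℝ) : ℂ)) x‖ ^ 2 ≤ M ^ 2 / L ^ 2 * P ∧
      ‖del (delBar (fun y => ((cut R L y : ℝ) : ℂ))) x‖ ≤
        M / L ^ 2 * P + M * ((R.card : ℝ) + 1) / L * (1 / (1 + normSq x) ^ 2) := by
  set k : ℝ := (R.card : ℝ) + 1 with hk
  have hk0 : 0 ≤ k := by positivity
  have hQ0 : 0 ≤ M * k / L * (1 / (1 + normSq x) ^ 2) := by
    have := normSq_nonneg x; positivity
  by_cases hx : x ∈ tsupport (cut R L)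
  · have hxs := cut_tsupport hL hx
    have hxR : x ∉ R := fun h => sublevel_subset hxs (Finset.mem_coe.2 h)
    set D := del (fun y => ((expo R y : ℝ) : ℂ)) x with hD
    have hDb : ‖delBar (fun y => ((expo R y : ℝ) : ℂ)) x‖ = ‖D‖ := by
      rw [← norm_delBar_ofReal ((contDiffAt_expo hxR (n := 1)).differentiableAt one_ne_zero),
        Complex.norm_conj]
    have hD2 : ‖D‖ ^ 2 ≤ P := hP hxR hxs
    obtain ⟨hm1, hm2⟩ := hM (expo R x / L)
    constructor
    · rw [(cut_del hxR).1, norm_mul, Complex.norm_real, Real.norm_eq_abs, mul_pow, sq_abs,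
        div_pow, ← hD]
      refine mul_le_mul (div_le_div_of_nonneg_right ?_ (by positivity)) hD2 (sq_nonneg _)
        (by positivity)
      exact sq_le_sq' (abs_le.1 hm1).1 (abs_le.1 hm1).2
    · rw [cut_del_delBar hxR]
      refine (norm_add_le _ _).trans (add_le_add ?_ ?_)
      · rw [norm_mul, norm_mul, hDb, ← hD, Complex.norm_real, Real.norm_eq_abs, abs_div, abs_div,
          abs_of_pos hL, div_div, ← sq, ← sq]
        exact mul_le_mul (div_le_div_of_nonneg_right hm2 (by positivity)) hD2 (sq_nonneg _)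
          (by positivity)
      · rw [norm_mul, Complex.norm_real, Real.norm_eq_abs, abs_div, abs_of_pos hL, norm_div,
          norm_pow, show ((R.card : ℂ) + 1) = ((k : ℝ) : ℂ) by simp [hk],
          show (1:ℂ) + (normSq x : ℂ) = ((1 + normSq x : ℝ) : ℂ) by simp, Complex.norm_real,
          Complex.norm_real, Real.norm_eq_abs, Real.norm_eq_abs, abs_of_nonneg hk0,
          abs_of_nonneg (show (0:ℝ) ≤ 1 + normSq x by linarith [normSq_nonneg x])]
        have : 0 ≤ k / (1 + normSq x) ^ 2 := by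
          have := normSq_nonneg x; positivity
        calc |deriv prof (expo R x / L)| / L * (k / (1 + normSq x) ^ 2)
            ≤ M / L * (k / (1 + normSq x) ^ 2) := by gcongr
          _ = _ := by ring
  · have hz : (fun y => ((cut R L y : ℝ) : ℂ)) =ᶠ[𝓝 x] fun _ => (0:ℂ) :=
      (notMem_tsupport_iff_eventuallyEq.1 hx).mono fun y hy => by simp [hy]
    have hz2 : delBar (fun y => ((cut R L y : ℝ) : ℂ)) =ᶠ[𝓝 x] fun _ => (0:ℂ) :=
      hz.eventuallyEq_nhds.mono fun y hy => by rw [delBar_congr hy, delBar_const]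
    rw [del_congr hz, del_congr hz2, del_const, norm_zero]
    refine ⟨?_, ?_⟩
    · rw [zero_pow two_ne_zero]; positivity
    · exact add_nonneg (by positivity) hQ0

theorem exists_cutoff (R : Finset ℂ) :
    ∃ χ : ℕ → ℂ → ℝ, (∀ n, ContDiff ℝ ∞ (χ n)) ∧ (∀ n, HasCompactSupport (χ n)) ∧
      (∀ n, tsupport (χ n) ⊆ (↑R : Set ℂ)ᶜ) ∧ (∀ n x, 0 ≤ χ n x ∧ χ n x ≤ 1) ∧
      (∀ x, x ∉ R → Tendsto (fun n => χ n x) atTop (𝓝 1)) ∧
      Tendsto (fun n => ∫ x, ‖del (fun y => ((χ n y : ℝ) : ℂ)) x‖ ^ 2) atTop (𝓝 0) ∧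
      Tendsto (fun n => ∫ x, ‖del (delBar (fun y => ((χ n y : ℝ) : ℂ))) x‖) atTop (𝓝 0) := by
  set lev : ℕ → ℝ := fun n => (n:ℝ) + 1 with hlev
  have hpos : ∀ n, 0 < lev n := fun n => by simp only [hlev]; positivity
  refine ⟨fun n => cut R (lev n), fun n => cut_smooth (hpos n),
    fun n => cut_hasCompactSupport (hpos n),
    fun n => (cut_tsupport (hpos n)).trans sublevel_subset, ?_, ?_, ?_⟩
  · intro n x
    simp only [cut, Set.indicator_apply]
    split_ifs
    · exact ⟨Real.smoothTransition.nonneg _, Real.smoothTransition.le_one _⟩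
    · simp
  · intro x hx
    refine tendsto_const_nhds.congr' ?_
    filter_upwards [eventually_ge_atTop (Nat.ceil |expo R x|)] with n hn
    rw [cut, Set.indicator_of_mem (by simpa using hx)]
    refine (Real.smoothTransition.one_of_one_le ?_).symm
    have h1 : |expo R x| ≤ (n:ℝ) := (Nat.le_ceil _).trans (by exact_mod_cast hn)
    have : expo R x / lev n ≤ 1 := by
      rw [div_le_one (hpos n)]; simp only [hlev]; linarith [le_abs_self (expo R x)]
    linarith
  obtain ⟨M, hM0, hM⟩ := prof_bounds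
  set k : ℝ := (R.card : ℝ) + 1 with hk
  have hk0 : 0 ≤ k := by positivity
  set V : ℝ := volume.real (Metric.ball (0:ℂ) 1) with hV
  set W : ℝ := volume.real (Metric.closedBall (0:ℂ) 1) with hW
  set J : ℝ := ∫ s : ℂ, 1 / (1 + normSq s) ^ 2 with hJ
  have hV0 : 0 ≤ V := measureReal_nonneg
  -- radii for the annuli at height `n`
  set ρ : ℕ → ℝ := fun n => Real.exp (2 * lev n) * (expoConst R + 1) *
    (∑ r ∈ R, ‖r‖ + 2) with hρ
  have hρ1 : ∀ n, 1 ≤ ρ n := by
    intro n
    have h1 : 1 ≤ Real.exp (2 * lev n) := Real.one_le_exp (by linarith [hpos n])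
    have h2 := expoConst_pos (R := R)
    have h3 : 0 ≤ ∑ r ∈ R, ‖r‖ := Finset.sum_nonneg fun r _ => norm_nonneg r
    simp only [hρ]
    calc (1:ℝ) = 1 * 1 * 1 := by norm_num
      _ ≤ _ := by gcongr <;> linarith
  have hmem : ∀ n x, x ∈ sublevel R (2 * lev n) →
      ‖x‖ ≤ ρ n ∧ ∀ r ∈ R, 1 / ρ n ≤ ‖x - r‖ ∧ ‖x - r‖ ≤ ρ n := by
    intro n x hx
    have h1 : 1 ≤ Real.exp (2 * lev n) := Real.one_le_exp (by linarith [hpos n])
    have h2 := expoConst_pos (R := R)
    have h3 : 0 ≤ ∑ r ∈ R, ‖r‖ := Finset.sum_nonneg fun r _ => norm_nonneg r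
    obtain ⟨hb, hb'⟩ := sublevel_bounds hx
    simp only [sub_zero, normSq_eq_norm_sq] at hb
    set E := Real.exp (2 * lev n) * expoConst R with hE
    set F := Real.exp (2 * lev n) * (expoConst R + 1) with hF
    have hF1 : 1 ≤ F := one_le_mul_of_one_le_of_one_le h1 (by linarith)
    have hEF : E ≤ F := by simp only [hE, hF]; gcongr; linarith
    have hx1 : ‖x‖ ≤ F := by nlinarith [sq_nonneg (‖x‖ - 1), norm_nonneg x]
    have hρF : ρ n = F * (∑ r ∈ R, ‖r‖ + 2) := rfl
    refine ⟨by rw [hρF]; nlinarith, fun r hr => ⟨?_, ?_⟩⟩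
    · have h4 := hb' r hr
      rw [normSq_eq_norm_sq] at h4
      have hn := norm_nonneg (x - r)
      rw [div_le_iff₀ (by linarith [hρ1 n]), hρF]
      by_contra hlt
      push Not at hlt
      have h5 : F * ‖x - r‖ < 1 / 2 := by nlinarith
      have h6 : E * ‖x - r‖ ^ 2 ≤ (F * ‖x - r‖) * (F * ‖x - r‖) := by
        nlinarith [mul_le_mul_of_nonneg_right hEF (sq_nonneg ‖x - r‖),
          mul_le_mul_of_nonneg_right (le_mul_of_one_le_left (by linarith : (0:ℝ) ≤ F) hF1)
            (sq_nonneg ‖x - r‖)]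
      nlinarith
    · have h4 : ‖r‖ ≤ ∑ r ∈ R, ‖r‖ :=
        Finset.single_le_sum (fun i _ => norm_nonneg i) hr
      rw [hρF]
      nlinarith [norm_sub_le x r]
  -- the dominating functions
  let Pd : ℕ → ℂ → ℝ := fun n x =>
    k * (k ^ 2 * ((Metric.closedBall (0:ℂ) 1).indicator (fun _ => (1:ℝ)) x + ann 0 1 (ρ n) x) +
      ∑ r ∈ R, ann r (1 / ρ n) (ρ n) x)
  have hρ' : ∀ n, 0 < 1 / ρ n ∧ 1 / ρ n ≤ ρ n := fun n => by
    have := hρ1 n
    exact ⟨by positivity, ((div_le_one (by linarith)).2 this).trans this⟩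
  have hball : Integrable ((Metric.closedBall (0:ℂ) 1).indicator (fun _ => (1:ℝ))) :=
    (integrableOn_const (by exact measure_closedBall_lt_top.ne)).integrable_indicator
      measurableSet_closedBall
  have hPdi : ∀ n, Integrable (Pd n) := fun n =>
    (((hball.add (ann_integral one_pos (hρ1 n) 0).1).const_mul (k ^ 2)).add
      (integrable_finsetSum _ fun r _ => (ann_integral (hρ' n).1 (hρ' n).2 r).1)).const_mul k
  have hPdint : ∀ n, ∫ x, Pd n x ≤
      k * (k ^ 2 * (W + 2 * V * Real.log (ρ n)) + k * (4 * V * Real.log (ρ n))) := by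
    intro n
    have i0 := (ann_integral one_pos (hρ1 n) 0)
    simp only [Pd]
    have ia : Integrable fun x => k ^ 2 *
        ((Metric.closedBall (0:ℂ) 1).indicator (fun _ => (1:ℝ)) x + ann 0 1 (ρ n) x) :=
      (hball.add i0.1).const_mul _
    have ib : Integrable fun x => ∑ r ∈ R, ann r (1 / ρ n) (ρ n) x :=
      integrable_finsetSum _ fun r _ => (ann_integral (hρ' n).1 (hρ' n).2 r).1
    rw [integral_const_mul, integral_add ia ib, integral_const_mul,
      integral_add hball i0.1, integral_indicator_const _ measurableSet_closedBall,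
      integral_finsetSum _ fun r _ => (ann_integral (hρ' n).1 (hρ' n).2 r).1]
    have hlog := Real.log_nonneg (hρ1 n)
    refine mul_le_mul_of_nonneg_left (add_le_add ?_ ?_) hk0
    · refine mul_le_mul_of_nonneg_left (add_le_add (by simp [hW]) ?_) (sq_nonneg k)
      refine i0.2.trans (le_of_eq ?_)
      rw [div_one]
    · calc ∑ r ∈ R, ∫ x, ann r (1 / ρ n) (ρ n) x
          ≤ ∑ r ∈ R, 4 * V * Real.log (ρ n) := by
            refine Finset.sum_le_sum fun r _ => ((ann_integral (hρ' n).1 (hρ' n).2 r).2).trans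
              (le_of_eq ?_)
            rw [Real.log_div (by linarith [hρ1 n]) (hρ' n).1.ne', one_div, Real.log_inv]
            ring
        _ ≤ k * (4 * V * Real.log (ρ n)) := by
            rw [Finset.sum_const, nsmul_eq_mul]
            exact mul_le_mul_of_nonneg_right (by simp [hk]) (by positivity)
  have hbound : ∀ n x,
      ‖del (fun y => ((cut R (lev n) y : ℝ) : ℂ)) x‖ ^ 2 ≤ M ^ 2 / lev n ^ 2 * Pd n x ∧
      ‖del (delBar (fun y => ((cut R (lev n) y : ℝ) : ℂ))) x‖ ≤
        M / lev n ^ 2 * Pd n x + M * k / lev n * (1 / (1 + normSq x) ^ 2) := by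
    intro n x
    refine cut_bound hM hM0 (hpos n) x ?_ fun hxR hxs =>
      del_expo_sq_le hxR (hmem n x hxs).1 (hmem n x hxs).2
    have h1 : 0 ≤ (Metric.closedBall (0:ℂ) 1).indicator (fun _ => (1:ℝ)) x :=
      Set.indicator_nonneg (fun _ _ => zero_le_one) x
    have h2 := ann_nonneg 0 1 (ρ n) x
    have h3 : 0 ≤ ∑ r ∈ R, ann r (1 / ρ n) (ρ n) x :=
      Finset.sum_nonneg fun r _ => ann_nonneg _ _ _ _
    positivity
  have hlog : ∀ n, Real.log (ρ n) ≤
      2 * lev n + |Real.log ((expoConst R + 1) * (∑ r ∈ R, ‖r‖ + 2))| := by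
    intro n
    have h2 := expoConst_pos (R := R)
    have h3 : 0 ≤ ∑ r ∈ R, ‖r‖ := Finset.sum_nonneg fun r _ => norm_nonneg r
    simp only [hρ, mul_assoc]
    rw [Real.log_mul (Real.exp_pos _).ne' (by positivity), Real.log_exp]
    gcongr
    exact le_abs_self _
  set c0 : ℝ := |Real.log ((expoConst R + 1) * (∑ r ∈ R, ‖r‖ + 2))|
  set C : ℝ := k * (k ^ 2 * (|W| + 2 * V * (2 + c0)) + k * (4 * V * (2 + c0))) with hC
  have hPdC : ∀ n, ∫ x, Pd n x ≤ C * lev n := by
    intro n
    refine (hPdint n).trans ?_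
    have hl1 : 1 ≤ lev n := by simp [hlev]
    have h1 : Real.log (ρ n) ≤ (2 + c0) * lev n :=
      (hlog n).trans (by nlinarith [abs_nonneg (Real.log ((expoConst R + 1) * (∑ r ∈ R, ‖r‖ + 2)))])
    have h2 : W ≤ |W| * lev n := (le_abs_self W).trans (le_mul_of_one_le_right (abs_nonneg _) hl1)
    rw [hC]
    calc k * (k ^ 2 * (W + 2 * V * Real.log (ρ n)) + k * (4 * V * Real.log (ρ n)))
        ≤ k * (k ^ 2 * (|W| * lev n + 2 * V * ((2 + c0) * lev n)) +
            k * (4 * V * ((2 + c0) * lev n))) := by gcongr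
      _ = _ := by ring
  have hlim : Tendsto (fun n => (lev n)⁻¹) atTop (𝓝 0) := by
    refine (tendsto_one_div_add_atTop_nhds_zero_nat).congr fun n => ?_
    simp [hlev]
  constructor
  · refine squeeze_zero (fun n => integral_nonneg fun x => sq_nonneg _) (fun n => ?_)
      (by simpa using (tendsto_const_nhds (x := M ^ 2 * C)).mul hlim)
    calc ∫ x, ‖del (fun y => ((cut R (lev n) y : ℝ) : ℂ)) x‖ ^ 2
        ≤ ∫ x, M ^ 2 / lev n ^ 2 * Pd n x :=
          integral_mono_of_nonneg (Eventually.of_forall fun x => sq_nonneg _)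
            ((hPdi n).const_mul _) (Eventually.of_forall fun x => (hbound n x).1)
      _ ≤ M ^ 2 / lev n ^ 2 * (C * lev n) := by
          rw [integral_const_mul]
          exact mul_le_mul_of_nonneg_left (hPdC n) (by positivity)
      _ = _ := by have := (hpos n).ne'; field_simp
  · refine squeeze_zero (fun n => integral_nonneg fun x => norm_nonneg _) (fun n => ?_)
      (by simpa using (tendsto_const_nhds (x := M * C + M * k * J)).mul hlim)
    calc ∫ x, ‖del (delBar (fun y => ((cut R (lev n) y : ℝ) : ℂ))) x‖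
        ≤ ∫ x, (M / lev n ^ 2 * Pd n x + M * k / lev n * (1 / (1 + normSq x) ^ 2)) :=
          integral_mono_of_nonneg (Eventually.of_forall fun x => norm_nonneg _)
            (((hPdi n).const_mul _).add (integrable_inv_one_add_normSq_sq.const_mul _))
            (Eventually.of_forall fun x => (hbound n x).2)
      _ ≤ M / lev n ^ 2 * (C * lev n) + M * k / lev n * J := by
          rw [integral_add ((hPdi n).const_mul _) (integrable_inv_one_add_normSq_sq.const_mul _),
            integral_const_mul (M / lev n ^ 2), integral_const_mul (M * k / lev n)]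
          exact add_le_add (mul_le_mul_of_nonneg_left (hPdC n) (by positivity)) le_rfl
      _ = _ := by have := (hpos n).ne'; field_simp

end Vale.Agent.P296.An
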