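import Mathlib
import Vale.Agent.P296.Analysis.Bounds

/-!
The `∂̄`-derivatives of the sections and potentials used in the integral inequalities.
-/

open scoped ContDiff Topology ComplexOrder
open Complex ComplexConjugate Matrix Filter

noncomputable section

namespace Vale.Agent.P296.An

lemma one_add_ne' (X : ℂ) : (1 : ℂ) + X * conj X ≠ 0 := by
  rw [mul_comm]; exact one_add_ne X

lemma potU_alg (T S d e p q L : ℂ) (hp : p ^ 2 = T ^ 12 - 1) (hq : q ^ 2 = S ^ 12 - 1)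
    (hL : L = 1 + S * T) (hp0 : p ≠ 0) (hq0 : q ≠ 0) (hL0 : L ≠ 0) :
    ((6 * d * e) * q + 6 * d * (T ^ 11 + S) * (6 * S ^ 11 * e / q)) / (p * L ^ 7) -
      6 * d * (T ^ 11 + S) * q * (p * (7 * L ^ 6 * (e * T))) / (p * L ^ 7) ^ 2 =
    36 * (e * d) * ((S ^ 11 + T) * (T ^ 11 + S)) / ((q * p) * L ^ 8) -
      6 * ((e * d) * (q * p) / L ^ 8) := by
  have hdiff : L * (q ^ 2 + 6 * (T ^ 11 + S) * S ^ 11) - 7 * (T ^ 11 + S) * T * q ^ 2 -
      6 * ((S ^ 11 + T) * (T ^ 11 + S)) + q ^ 2 * p ^ 2 = 0 := by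
    rw [hp, hq, hL]; ring
  have key : ((6 * d * e) * q + 6 * d * (T ^ 11 + S) * (6 * S ^ 11 * e / q)) / (p * L ^ 7) -
      6 * d * (T ^ 11 + S) * q * (p * (7 * L ^ 6 * (e * T))) / (p * L ^ 7) ^ 2 =
    (36 * (e * d) * ((S ^ 11 + T) * (T ^ 11 + S)) / ((q * p) * L ^ 8) -
      6 * ((e * d) * (q * p) / L ^ 8)) + 6 * e * d / (q * p * L ^ 8) *
    (L * (q ^ 2 + 6 * (T ^ 11 + S) * S ^ 11) - 7 * (T ^ 11 + S) * T * q ^ 2 -
      6 * ((S ^ 11 + T) * (T ^ 11 + S)) + q ^ 2 * p ^ 2) := by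
    field_simp; ring
  rw [key, hdiff, mul_zero, add_zero]

/-- A real differentiable function with prescribed `∂̄`. -/
structure HasDB (f : ℂ → ℂ) (x d : ℂ) : Prop where
  diff : DifferentiableAt ℝ f x
  eq : delBar f x = d

variable {f g : ℂ → ℂ} {x a b c : ℂ}

lemma HasDB.cast {d d' : ℂ} (h : HasDB f x d) (e : d = d') : HasDB f x d' := e ▸ h

lemma HasDB.const (c : ℂ) : HasDB (fun _ => c) x 0 := ⟨differentiableAt_const c, delBar_const c⟩

lemma HasDB.holo (h : DifferentiableAt ℂ f x) : HasDB f x 0 :=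
  ⟨diffAt_of_complex h, delBar_holo h⟩

lemma HasDB.conjHolo (h : DifferentiableAt ℂ f x) :
    HasDB (fun y => conj (f y)) x (conj (deriv f x)) :=
  ⟨diffAt_conj (diffAt_of_complex h), delBar_conj_holo h⟩

lemma HasDB.add (hf : HasDB f x a) (hg : HasDB g x b) : HasDB (fun y => f y + g y) x (a + b) :=
  ⟨hf.diff.fun_add hg.diff, by rw [delBar_add hf.diff hg.diff, hf.eq, hg.eq]⟩

lemma HasDB.sub (hf : HasDB f x a) (hg : HasDB g x b) : HasDB (fun y => f y - g y) x (a - b) :=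
  ⟨hf.diff.fun_sub hg.diff, by rw [delBar_sub hf.diff hg.diff, hf.eq, hg.eq]⟩

lemma HasDB.neg (hf : HasDB f x a) : HasDB (fun y => -f y) x (-a) :=
  ⟨hf.diff.fun_neg, by rw [delBar_neg, hf.eq]⟩

lemma HasDB.mul (hf : HasDB f x a) (hg : HasDB g x b) :
    HasDB (fun y => f y * g y) x (a * g x + f x * b) :=
  ⟨hf.diff.fun_mul hg.diff, by rw [delBar_mul hf.diff hg.diff, hf.eq, hg.eq]⟩

lemma HasDB.inv (hf : HasDB f x a) (h0 : f x ≠ 0) :
    HasDB (fun y => (f y)⁻¹) x (-a / f x ^ 2) := by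
  have hd : DifferentiableAt ℝ (fun y => (f y)⁻¹) x := hf.diff.fun_inv h0
  refine ⟨hd, ?_⟩
  have hev : (fun y => f y * (f y)⁻¹) =ᶠ[𝓝 x] fun _ => (1 : ℂ) := by
    filter_upwards [hf.diff.continuousAt.eventually_ne h0] with y hy
    exact mul_inv_cancel₀ hy
  have h := delBar_congr hev
  rw [delBar_mul hf.diff hd, delBar_const, hf.eq] at h
  field_simp at h ⊢
  linear_combination h

lemma HasDB.div (hf : HasDB f x a) (hg : HasDB g x b) (h0 : g x ≠ 0) :
    HasDB (fun y => f y / g y) x (a / g x - f x * b / g x ^ 2) := by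
  simp only [div_eq_mul_inv]
  exact (hf.mul (hg.inv h0)).cast (by ring)

lemma HasDB.pow (hf : HasDB f x a) : ∀ n : ℕ,
    HasDB (fun y => f y ^ n) x ((n : ℂ) * f x ^ (n - 1) * a) := by
  intro n
  induction n with
  | zero =>
    simp only [pow_zero]
    exact (HasDB.const 1).cast (by simp)
  | succ k ih =>
    simp only [pow_succ]
    refine (ih.mul hf).cast ?_
    rcases k with _ | k
    · simp
    · push_cast; ring_nf

/-- A vector valued function with prescribed `∂̄`. -/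
def HasVDB (φ : ℂ → Vec) (x : ℂ) (d : Vec) : Prop := ∀ i, HasDB (fun y => φ y i) x (d i)

lemma HasVDB.eq {φ : ℂ → Vec} {d : Vec} (h : HasVDB φ x d) : vdelBar φ x = d :=
  funext fun i => (h i).eq

lemma HasVDB.smul {φ : ℂ → Vec} {d : Vec} (hf : HasDB f x a) (h : HasVDB φ x d) :
    HasVDB (fun y => f y • φ y) x (a • φ x + f x • d) := fun i => by
  simpa using hf.mul (h i)

lemma HasVDB.const (v : Vec) : HasVDB (fun _ => v) x 0 := fun _ => HasDB.const _

lemma HasVDB.add {φ ψ : ℂ → Vec} {d e : Vec} (h : HasVDB φ x d) (h' : HasVDB ψ x e) :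
    HasVDB (fun y => φ y + ψ y) x (d + e) := fun i => by
  simpa using (h i).add (h' i)

lemma HasVDB.cast {φ : ℂ → Vec} {d e : Vec} (h : HasVDB φ x d) (he : d = e) : HasVDB φ x e :=
  he ▸ h

section Holo

variable (hf : DifferentiableAt ℂ f x)
include hf

lemma hasDB_hl : HasDB (fun y => (hl (f y) : ℂ)) x (conj (deriv f x) * f x) := by
  simp only [hl_cast]
  exact ((HasDB.const 1).add ((HasDB.conjHolo hf).mul (HasDB.holo hf))).cast (by simp)

lemma hasDB_th : HasDB (fun y => th (f y)) x (conj (deriv f x) / (hl (f x) : ℂ) ^ 2) := by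
  simp only [th_eq, ← hl_cast]
  have h0 : (hl (f x) : ℂ) ≠ 0 := by exact_mod_cast (hl_pos _).ne'
  refine ((HasDB.conjHolo hf).div (hasDB_hl hf) h0).cast ?_
  field_simp
  rw [hl_cast]; ring

lemma hasDB_rh (c : ℂ) :
    HasDB (fun y => rh (f y) c) x ((c - f x) * conj (deriv f x) / (hl (f x) : ℂ) ^ 2) := by
  simp only [rh_eq, ← hl_cast]
  have h0 : (hl (f x) : ℂ) ≠ 0 := by exact_mod_cast (hl_pos _).ne'
  refine (((HasDB.const 1).add ((HasDB.conjHolo hf).mul (HasDB.const c))).div (hasDB_hl hf)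
    h0).cast ?_
  field_simp
  rw [hl_cast]; ring

end Holo

/-- `d(s^m)/ds`. -/
def dP (m : ℕ) (s : ℂ) : ℂ := (m : ℂ) * s ^ (m - 1)

lemma deriv_powm (m : ℕ) (s : ℂ) : deriv (fun y : ℂ => y ^ m) s = dP m s := by
  simp [dP]

lemma diff_powm (m : ℕ) (s : ℂ) : DifferentiableAt ℂ (fun y : ℂ => y ^ m) s := by fun_prop

lemma om_eq (m : ℕ) (s : ℂ) : om m s = ‖dP m s‖ ^ 2 / hl (s ^ m) ^ 2 := by
  simp [om, dP, hl, norm_pow, ← pow_mul, mul_comm m 2]

lemma om_nonneg (m : ℕ) (s : ℂ) : 0 ≤ om m s := by unfold om; positivity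

lemma om_cast (m : ℕ) (s : ℂ) :
    (om m s : ℂ) = conj (dP m s) * dP m s / (hl (s ^ m) : ℂ) ^ 2 := by
  rw [om_eq]; push_cast
  rw [← Complex.conj_mul' (dP m s)]

section Curve

variable {m : ℕ} {s : ℂ} {u v : ℂ → ℂ} (hu : DifferentiableAt ℂ u s)
  (hv : DifferentiableAt ℂ v s) (hu0 : u s ≠ 0) (hv0 : v s ≠ 0)
include hu hv

lemma hasVDB_qV (z : ℂ) : HasVDB (fun y => qV (y ^ m) z (u y) (v y)) s 0 := by
  intro i
  fin_cases i <;> simp [qV] <;> refine HasDB.holo ?_ <;> fun_prop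

include hu0 hv0

lemma hasVDB_omV (z : ℂ) : HasVDB (fun y => dP m y • omV (y ^ m) z (u y) (v y)) s
    ((om m s : ℂ) • qV (s ^ m) z (u s) (v s)) := by
  have hT := diff_powm m s
  have hd : HasDB (dP m) s 0 := HasDB.holo (by unfold dP; fun_prop)
  have hp : DifferentiableAt ℂ (fun y => piS (y ^ m) z) s := by unfold piS; fun_prop
  have h1 := ((hasDB_th hT).mul (HasDB.holo hu)).sub ((HasDB.holo hp).div (HasDB.holo hu) hu0)
  have h2 := ((hasDB_th hT).mul (HasDB.holo hv)).sub ((HasDB.holo hp).div (HasDB.holo hv) hv0)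
  have h3 := (hasDB_rh hT z).neg
  intro i
  fin_cases i <;> simp [omV, qV, -mul_neg]
  · refine (hd.mul h1).cast ?_
    rw [deriv_powm, om_cast]; ring
  · refine (hd.mul h2).cast ?_
    rw [deriv_powm, om_cast]; ring
  · refine (hd.mul h3).cast ?_
    rw [deriv_powm, om_cast]; ring

omit hu0 hv0

/-- `∂̄ W`. -/
def dW (m : ℕ) (s : ℂ) (u v : ℂ) : Vec :=
  (conj (-6 * (s ^ m) ^ 5 * dP m s / (u * v)) / (nN u v : ℂ) ^ 2) • vV u v

lemma hasVDB_wW (hc : CurveAt (s ^ m) (u s) (v s)) (hu0 : u s ≠ 0) (hv0 : v s ≠ 0)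
    (du : deriv u s = 3 * (s ^ m) ^ 5 * dP m s / u s)
    (dv : deriv v s = 3 * (s ^ m) ^ 5 * dP m s / v s) :
    HasVDB (fun y => wW (u y) (v y)) s (dW m s (u s) (v s)) := by
  have hNc : ∀ a b : ℂ, (((‖a‖ ^ 2 + ‖b‖ ^ 2 : ℝ)) : ℂ) = conj a * a + conj b * b := fun a b => by
    simp [← Complex.normSq_eq_norm_sq, Complex.normSq_eq_conj_mul_self]
  have hN : conj (u s) * u s + conj (v s) * v s ≠ 0 := by
    rw [← hNc]
    exact_mod_cast (show ‖u s‖ ^ 2 + ‖v s‖ ^ 2 ≠ 0 by positivity)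
  have hdb := ((HasDB.conjHolo hu).mul (HasDB.holo hu)).add
    ((HasDB.conjHolo hv).mul (HasDB.holo hv))
  have hinv := hdb.inv hN
  have hdiff : (v s) ^ 2 - (u s) ^ 2 = 2 := by rw [hc.1, hc.2]; ring
  have hk : conj (-6 * (s ^ m) ^ 5 * dP m s / (u s * v s)) =
      conj (u s * deriv v s - v s * deriv u s) := by
    congr 1
    rw [du, dv]
    field_simp
    linear_combination (3 * (s ^ m) ^ 5 * dP m s) * hdiff
  intro i
  fin_cases i <;> simp only [wW, dW, vV, nN, hNc, hk]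
  · refine (hinv.mul (HasDB.conjHolo hv)).cast ?_
    simp only [map_sub, map_mul]
    simp
    field_simp
    ring
  · refine (hinv.mul (HasDB.conjHolo hu).neg).cast ?_
    simp only [map_sub, map_mul]
    simp
    field_simp
    ring
  · simpa using HasDB.const (0 : ℂ) (x := s)

/-- The factor of the potential in the weight upgrade. -/
def potU (m : ℕ) (s u v : ℂ) : ℂ :=
  6 * dP m s * ((s ^ m) ^ 11 + conj (s ^ m)) * conj (u * v) / ((u * v) * (hl (s ^ m) : ℂ) ^ 7)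

/-- `|∂ψ|²/ψ`. -/
def gU (m : ℕ) (s : ℂ) : ℝ :=
  36 * ‖dP m s‖ ^ 2 * ‖(s ^ m) ^ 11 + conj (s ^ m)‖ ^ 2 /
    (‖(s ^ m) ^ 12 - 1‖ * hl (s ^ m) ^ 8)

/-- `ψ` times the density. -/
def mU (m : ℕ) (s : ℂ) : ℝ :=
  ‖dP m s‖ ^ 2 * ‖(s ^ m) ^ 12 - 1‖ / hl (s ^ m) ^ 8

lemma hasDB_potU (hc : CurveAt (s ^ m) (u s) (v s)) (hu0 : u s ≠ 0) (hv0 : v s ≠ 0)
    (du : deriv u s = 3 * (s ^ m) ^ 5 * dP m s / u s)
    (dv : deriv v s = 3 * (s ^ m) ^ 5 * dP m s / v s) :
    HasDB (fun y => potU m y (u y) (v y)) s ((gU m s - 6 * mU m s : ℝ) : ℂ) := by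
  set T := s ^ m with hT
  set d := dP m s with hd
  have hT' := diff_powm m s
  have hl0 : (hl T : ℂ) ≠ 0 := by exact_mod_cast (hl_pos T).ne'
  have huv : DifferentiableAt ℂ (fun y => u y * v y) s := hu.fun_mul hv
  have duv : deriv (fun y => u y * v y) s = 6 * T ^ 11 * d / (u s * v s) := by
    rw [deriv_fun_mul hu hv, du, dv]
    field_simp
    rw [hc.1, hc.2]; ring
  have h1 : HasDB (fun y => 6 * dP m y) s 0 := HasDB.holo (by unfold dP; fun_prop)
  have h11 : DifferentiableAt ℂ (fun y : ℂ => (y ^ m) ^ 11) s := by fun_prop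
  have h2 := (HasDB.holo h11).add (HasDB.conjHolo hT')
  have h3 := ((h1.mul h2).mul (HasDB.conjHolo huv)).div
    ((HasDB.holo huv).mul ((hasDB_hl hT').pow 7))
    (mul_ne_zero (mul_ne_zero hu0 hv0) (pow_ne_zero 7 hl0))
  unfold potU
  refine h3.cast ?_
  have hq2 : ‖T ^ 12 - 1‖ ^ 2 = Complex.normSq (T ^ 12 - 1) := (normSq_eq_norm_sq _).symm
  have hQ : ((‖T ^ 12 - 1‖ : ℝ) : ℂ) = conj (u s * v s) * (u s * v s) := by
    rw [← hc.norm_mul_sq, Complex.conj_mul']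
    simp [mul_pow]
  have hA : ((‖T ^ 11 + conj T‖ : ℝ) : ℂ) ^ 2 = (conj T ^ 11 + T) * (T ^ 11 + conj T) := by
    rw [← Complex.conj_mul']; simp
  have hd2 : ((‖d‖ : ℝ) : ℂ) ^ 2 = conj d * d := (Complex.conj_mul' d).symm
  have e : (u s * v s) ^ 2 = T ^ 12 - 1 := hc.sq_mul
  have ec : (conj (u s * v s)) ^ 2 = conj T ^ 12 - 1 := by rw [← map_pow, e]; simp
  rw [deriv_powm, duv, gU, mU, ← hT, ← hd]
  push_cast
  rw [hQ, hA, hd2]
  refine Eq.trans ?_ ((potU_alg T (conj T) d (conj d) (u s * v s) (conj (u s * v s)) (hl T) e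
    (by rw [ec]) (hl_cast T) (mul_ne_zero hu0 hv0)
    ((map_ne_zero _).2 (mul_ne_zero hu0 hv0)) hl0).trans ?_)
  · simp only [map_div₀, map_mul, map_pow, map_ofNat]
    ring
  · ring

end Curve

/-- `∂̄_z` of the coefficient of `q` in `gV`. -/
lemma hasVDB_gV (m : ℕ) (z T u v : ℂ) : HasVDB (fun y => gV T (y ^ m) u v) z
    ((5 * rh (z ^ m) T ^ 4 * conj (dP m z) / (hl (z ^ m) : ℂ) ^ 2) • qV T (z ^ m) u v) := by
  have hz := diff_powm m z
  have hr := hasDB_rh hz T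
  have hth := hasDB_th hz
  have hsum : HasDB (fun y => ∑ i ∈ Finset.range 5, rh (y ^ m) T ^ i) z
      (∑ i ∈ Finset.range 5, (i : ℂ) * rh (z ^ m) T ^ (i - 1) *
        ((T - z ^ m) * conj (deriv (fun y : ℂ => y ^ m) z) / (hl (z ^ m) : ℂ) ^ 2)) := by
    refine ⟨DifferentiableAt.fun_sum fun i _ => (hr.pow i).diff, ?_⟩
    rw [delBar_sum _ fun i _ => (hr.pow i).diff]
    exact Finset.sum_congr rfl fun i _ => (hr.pow i).eq
  have hq : HasVDB (fun y => qV T (y ^ m) u v) z 0 := by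
    intro i
    fin_cases i <;> simp [qV] <;> refine HasDB.holo ?_ <;> fun_prop
  refine ((HasVDB.smul (hth.mul hsum) hq).add (HasVDB.const ![0, 0, 1])).cast ?_
  rw [smul_zero, add_zero, add_zero]
  congr 1
  have h : th (z ^ m) * (T - z ^ m) = rh (z ^ m) T - 1 := by
    have := one_add_ne (z ^ m)
    have := one_add_ne' (z ^ m)
    rw [th_eq, rh_eq]; field_simp; ring
  rw [deriv_powm]
  simp [Finset.sum_range_succ]
  set r := rh (z ^ m) T
  set q := conj (dP m z) / (hl (z ^ m) : ℂ) ^ 2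
  linear_combination (q * (1 + 2 * r + 3 * r ^ 2 + 4 * r ^ 3)) * h

/-- The factor of the potential in the last step. -/
def potG (m : ℕ) (T z : ℂ) : ℂ :=
  dP m z * conj (z ^ m - T) * rh (z ^ m) T / ((hl (z ^ m) : ℂ) * (hl T : ℂ))

lemma hasDB_potG (m : ℕ) (T z : ℂ) : HasDB (potG m T) z
    (((1 - 2 * (‖z ^ m - T‖ ^ 2 / (hl (z ^ m) * hl T))) * om m z : ℝ) : ℂ) := by
  have hz := diff_powm m z
  have hd : HasDB (dP m) z 0 := HasDB.holo (by unfold dP; fun_prop)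
  have hzT : DifferentiableAt ℂ (fun y : ℂ => y ^ m - T) z := by fun_prop
  have h0 : (hl (z ^ m) : ℂ) * (hl T : ℂ) ≠ 0 := by
    exact_mod_cast (mul_ne_zero (hl_pos (z ^ m)).ne' (hl_pos T).ne')
  have h := ((hd.mul (HasDB.conjHolo hzT)).mul (hasDB_rh hz T)).div
    ((hasDB_hl hz).mul (HasDB.const (hl T : ℂ))) h0
  unfold potG
  refine h.cast ?_
  rw [deriv_sub_const, deriv_powm]
  push_cast
  rw [om_cast, ← Complex.conj_mul' (z ^ m - T), rh_eq]
  have := one_add_ne (z ^ m)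
  have := one_add_ne T
  have := one_add_ne' (z ^ m)
  have := one_add_ne' T
  rw [hl_cast, hl_cast]
  simp only [map_sub]
  field_simp
  ring

end Vale.Agent.P296.An
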