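import Mathlib
import Vale.Agent.P296.Analysis.Cutoff

/-!
The basic integral inequality: divergences of controlled vector fields integrate to zero on the
plane minus finitely many points.
-/

open scoped ContDiff Topology
open Complex ComplexConjugate MeasureTheory Set Filter

noncomputable section

namespace Vale.Agent.P296.An

lemma contDiff_mul_of_tsupport {U : Set ℂ} {P Q : ℂ → ℂ} (hU : IsOpen U) (h1 : ContDiff ℝ 1 P)
    (h2 : HasCompactSupport P) (h3 : tsupport P ⊆ U) (h4 : ContDiffOn ℝ 1 Q U) :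
    ContDiff ℝ 1 (fun x => P x * Q x) ∧ HasCompactSupport (fun x => P x * Q x) :=
  ⟨contDiff_of_tsupport (h1.contDiffOn.mul h4) hU ((tsupport_mul_subset_left).trans h3),
    h2.mul_right⟩

lemma ibp_del {U : Set ℂ} {c M : ℂ → ℂ} (hU : IsOpen U) (hcs : ContDiff ℝ ∞ c)
    (hcc : HasCompactSupport c) (hct : tsupport c ⊆ U) (hM : ContDiffOn ℝ 1 M U)
    (i1 : Integrable (fun x => c x * del M x)) (i2 : Integrable (fun x => del c x * M x)) :
    ∫ x, c x * del M x = -∫ x, del c x * M x := by
  have hcdiff : ∀ x, DifferentiableAt ℝ c x := fun x => hcs.differentiable (by simp) x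
  obtain ⟨hp, hq⟩ := contDiff_mul_of_tsupport hU (hcs.of_le (by simp)) hcc hct hM
  have h0 := integral_del_eq_zero hp hq
  have hpt : ∀ x, del (fun y => c y * M y) x = del c x * M x + c x * del M x := by
    intro x
    by_cases hx : x ∈ U
    · exact del_mul (hcdiff x) (diffAt_of_contDiffOn hM hU one_ne_zero hx)
    · have hz := notMem_tsupport_iff_eventuallyEq.1 fun h => hx (hct h)
      rw [del_congr (hz.mono fun y hy => by simp [hy] : (fun y => c y * M y) =ᶠ[𝓝 x] fun _ => 0),
        del_const, del_congr hz, hz.eq_of_nhds]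
      simp [show del (0 : ℂ → ℂ) x = 0 from del_const 0]
  simp only [hpt] at h0
  rw [integral_add i2 i1] at h0
  linear_combination h0

lemma ibp_delBar_del {U : Set ℂ} {c F : ℂ → ℂ} (hU : IsOpen U) (hcs : ContDiff ℝ ∞ c)
    (hcc : HasCompactSupport c) (hct : tsupport c ⊆ U) (hdc : ContDiff ℝ ∞ (delBar c))
    (hdcc : HasCompactSupport (delBar c)) (hdct : tsupport (delBar c) ⊆ U)
    (hF : ContDiffOn ℝ 2 F U) (hF' : ContDiffOn ℝ 1 (del F) U)
    (i3 : Integrable (fun x => c x * delBar (del F) x))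
    (i4 : Integrable (fun x => delBar c x * del F x))
    (i5 : Integrable (fun x => del (delBar c) x * F x)) :
    ∫ x, c x * delBar (del F) x = ∫ x, del (delBar c) x * F x := by
  have hcdiff : ∀ x, DifferentiableAt ℝ c x := fun x => hcs.differentiable (by simp) x
  have hdcdiff : ∀ x, DifferentiableAt ℝ (delBar c) x := fun x => hdc.differentiable (by simp) x
  obtain ⟨hp, hq⟩ := contDiff_mul_of_tsupport hU (hcs.of_le (by simp)) hcc hct hF'
  have h0 := integral_delBar_eq_zero hp hq
  have hpt : ∀ x, delBar (fun y => c y * del F y) x =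
      delBar c x * del F x + c x * delBar (del F) x := by
    intro x
    by_cases hx : x ∈ U
    · exact delBar_mul (hcdiff x) (diffAt_of_contDiffOn hF' hU one_ne_zero hx)
    · have hz := notMem_tsupport_iff_eventuallyEq.1 fun h => hx (hct h)
      rw [delBar_congr (hz.mono fun y hy => by simp [hy] :
          (fun y => c y * del F y) =ᶠ[𝓝 x] fun _ => 0), delBar_const, delBar_congr hz,
        hz.eq_of_nhds]
      simp [show delBar (0 : ℂ → ℂ) x = 0 from delBar_const 0]
  simp only [hpt] at h0
  rw [integral_add i4 i3] at h0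
  obtain ⟨hp', hq'⟩ := contDiff_mul_of_tsupport hU (hdc.of_le (by simp)) hdcc hdct (hF.of_le (by norm_num))
  have h1 := integral_del_eq_zero hp' hq'
  have hpt' : ∀ x, del (fun y => delBar c y * F y) x =
      del (delBar c) x * F x + delBar c x * del F x := by
    intro x
    by_cases hx : x ∈ U
    · exact del_mul (hdcdiff x) (diffAt_of_contDiffOn hF hU two_ne_zero hx)
    · have hz := notMem_tsupport_iff_eventuallyEq.1 fun h => hx (hdct h)
      rw [del_congr (hz.mono fun y hy => by simp [hy] :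
          (fun y => delBar c y * F y) =ᶠ[𝓝 x] fun _ => 0), del_const, del_congr hz, hz.eq_of_nhds]
      simp [show del (0 : ℂ → ℂ) x = 0 from del_const 0]
  simp only [hpt'] at h1
  rw [integral_add i5 i4] at h1
  linear_combination h0 - h1

lemma amgm {a b d ε B : ℝ} (hε : 0 < ε) (hB : 0 ≤ B) (hd : 0 ≤ d) (h : b ^ 2 ≤ B * d) :
    a * b ≤ ε * d + (B + 1) / (4 * ε) * a ^ 2 := by
  have h2 : b ^ 2 ≤ (B + 1) * d := by nlinarith
  have hB1 : 0 < B + 1 := by linarith
  have : 0 ≤ (2 * ε * b - (B + 1) * a) ^ 2 / (4 * ε * (B + 1)) := by positivity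
  have e : (2 * ε * b - (B + 1) * a) ^ 2 / (4 * ε * (B + 1)) =
      ε * (b ^ 2 / (B + 1)) + (B + 1) / (4 * ε) * a ^ 2 - a * b := by
    field_simp; ring
  have h3 : ε * (b ^ 2 / (B + 1)) ≤ ε * d := by
    gcongr; rw [div_le_iff₀ hB1]; linarith
  linarith

lemma cutoff_ineq {U : Set ℂ} (hU : IsOpen U) (hnull : ∀ᵐ x : ℂ, x ∈ U)
    {f g D : ℂ → ℝ} {M F : ℂ → ℂ} {B ε : ℝ} (hB : 0 ≤ B) (hε : 0 < ε)
    {χ : ℂ → ℝ} (hχs : ContDiff ℝ ∞ χ) (hχc : HasCompactSupport χ) (hχt : tsupport χ ⊆ U)
    (hχb : ∀ x, 0 ≤ χ x ∧ χ x ≤ 1)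
    (hM : ContDiffOn ℝ 1 M U) (hF : ContDiffOn ℝ 2 F U) (hF' : ContDiffOn ℝ 1 (del F) U)
    (hFB : ∀ x ∈ U, ‖F x‖ ≤ B) (hf : Integrable f) (hg : Integrable g) (hD : Integrable D)
    (hD0 : ∀ x, 0 ≤ D x) (hMD : ∀ x ∈ U, ‖M x‖ ^ 2 ≤ B * D x)
    (hle : ∀ x ∈ U, f x ≤ g x + (del M x).re + (delBar (del F) x).re) :
    ∫ x, χ x * (f x - g x) ≤
      ε * (∫ x, D x) + (B + 1) / (4 * ε) * (∫ x, ‖del (fun y => ((χ y : ℝ) : ℂ)) x‖ ^ 2) +
        B * (∫ x, ‖del (delBar (fun y => ((χ y : ℝ) : ℂ))) x‖) := by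
  set c : ℂ → ℂ := fun y => ((χ y : ℝ) : ℂ) with hc
  have hcs : ContDiff ℝ ∞ c := Complex.ofRealCLM.contDiff.comp (hχs)
  have hct : tsupport c ⊆ U :=
    (tsupport_comp_subset (g := fun r : ℝ => (r : ℂ)) Complex.ofReal_zero χ).trans (hχt)
  have hcc : HasCompactSupport c := (hχc).comp_left (g := fun r : ℝ => (r : ℂ)) Complex.ofReal_zero
  have hdc : ContDiff ℝ ∞ (delBar c) := contDiffOn_univ.1
    (contDiffOn_delBar (contDiffOn_univ.2 hcs) isOpen_univ (by simp))
  have hdct : tsupport (delBar c) ⊆ tsupport c := by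
    refine closure_minimal (fun x hx => ?_) (isClosed_tsupport _)
    by_contra h
    apply hx
    rw [delBar_congr (notMem_tsupport_iff_eventuallyEq.1 h)]
    exact delBar_const 0
  have hdcc : HasCompactSupport (delBar c) :=
    hcc.of_isClosed_subset (isClosed_tsupport _) hdct
  have mk0 : ∀ {P Q : ℂ → ℂ}, Continuous P → HasCompactSupport P → tsupport P ⊆ U →
      ContinuousOn Q U → Integrable (fun x => P x * Q x) := by
    intro P Q h1 h2 h3 h4
    refine Continuous.integrable_of_hasCompactSupport ?_ h2.mul_right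
    rw [continuous_iff_continuousAt]
    intro x
    by_cases hx : x ∈ U
    · exact h1.continuousAt.mul (h4.continuousAt (hU.mem_nhds hx))
    · have : (fun y => P y * Q y) =ᶠ[𝓝 x] fun _ => (0:ℂ) :=
        (notMem_tsupport_iff_eventuallyEq.1 fun h => hx (h3 h)).mono fun y hy => by simp [hy]
      exact continuousAt_const.congr this.symm
  clear_value c
  have hdelc : Continuous (del c) := (contDiffOn_univ.1
    (contDiffOn_del (m := (∞ : WithTop ℕ∞)) (contDiffOn_univ.2 hcs) isOpen_univ (by simp))).continuous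
  have hdelct : tsupport (del c) ⊆ tsupport c := by
    refine closure_minimal (fun x hx => ?_) (isClosed_tsupport _)
    by_contra h
    apply hx
    rw [del_congr (notMem_tsupport_iff_eventuallyEq.1 h)]
    exact del_const 0
  have hdelcc : HasCompactSupport (del c) :=
    hcc.of_isClosed_subset (isClosed_tsupport _) hdelct
  have i1 : Integrable (fun x => c x * del M x) :=
    mk0 hcs.continuous hcc hct (contDiffOn_del (m := 0) hM hU (by norm_num)).continuousOn
  have i2 : Integrable (fun x => del c x * M x) :=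
    mk0 hdelc hdelcc (hdelct.trans hct) hM.continuousOn
  have i3 : Integrable (fun x => c x * delBar (del F) x) :=
    mk0 hcs.continuous hcc hct (contDiffOn_delBar (m := 0) hF' hU (by norm_num)).continuousOn
  have i4 : Integrable (fun x => delBar c x * del F x) :=
    mk0 hdc.continuous hdcc (hdct.trans hct) hF'.continuousOn
  have hddc : Continuous (del (delBar c)) := (contDiffOn_univ.1
    (contDiffOn_del (m := (∞ : WithTop ℕ∞)) (contDiffOn_univ.2 hdc) isOpen_univ (by simp))).continuous
  have hddct : tsupport (del (delBar c)) ⊆ tsupport (delBar c) := by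
    refine closure_minimal (fun x hx => ?_) (isClosed_tsupport _)
    by_contra h
    apply hx
    rw [del_congr (notMem_tsupport_iff_eventuallyEq.1 h)]
    exact del_const 0
  have hddcc : HasCompactSupport (del (delBar c)) :=
    hdcc.of_isClosed_subset (isClosed_tsupport _) hddct
  have i5 : Integrable (fun x => del (delBar c) x * F x) :=
    mk0 hddc hddcc ((hddct.trans hdct).trans hct) hF.continuousOn
  have hcdiff : ∀ x, DifferentiableAt ℝ c x := fun x => hcs.differentiable (by simp) x
  have hdcdiff : ∀ x, DifferentiableAt ℝ (delBar c) x := fun x => hdc.differentiable (by simp) x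
  have e1 : ∫ x, c x * del M x = -∫ x, del c x * M x :=
    ibp_del hU hcs hcc hct hM i1 i2
  have e2 : ∫ x, c x * delBar (del F) x = ∫ x, del (delBar c) x * F x :=
    ibp_delBar_del hU hcs hcc hct hdc hdcc (hdct.trans hct) hF hF' i3 i4 i5
  have ifg : Integrable (fun x => χ x * (f x - g x)) :=
    (hf.sub hg).bdd_mul (c := 1) (hχs).continuous.aestronglyMeasurable
      (Eventually.of_forall fun x => by
        rw [Real.norm_eq_abs, abs_le]; exact ⟨by linarith [(hχb x).1], (hχb x).2⟩)
  have isum : Integrable (fun x => c x * del M x + c x * delBar (del F) x) := i1.add i3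
  calc ∫ x, χ x * (f x - g x)
      ≤ ∫ x, (c x * del M x + c x * delBar (del F) x).re := by
        refine integral_mono_ae ifg isum.re ?_
        filter_upwards [hnull] with x hx
        simp only [hc, Complex.add_re, Complex.mul_re, Complex.ofReal_re, Complex.ofReal_im,
          zero_mul, sub_zero]
        nlinarith [hle x hx, (hχb x).1]
    _ = (∫ x, c x * del M x + c x * delBar (del F) x).re := integral_re isum
    _ = (-(∫ x, del c x * M x)).re + (∫ x, del (delBar c) x * F x).re := by
        rw [integral_add i1 i3, e1, e2, Complex.add_re]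
    _ ≤ ‖∫ x, del c x * M x‖ + ‖∫ x, del (delBar c) x * F x‖ := by
        gcongr
        · exact (Complex.re_le_norm _).trans (le_of_eq (norm_neg _))
        · exact Complex.re_le_norm _
    _ ≤ (∫ x, (ε * D x + (B + 1) / (4 * ε) * ‖del c x‖ ^ 2)) +
          ∫ x, B * ‖del (delBar c) x‖ := by
        have iN : Integrable (fun x => ‖del c x‖ ^ 2) :=
          (hdelc.norm.pow 2).integrable_of_hasCompactSupport
            (hdelcc.mono fun x hx h => hx (by simp [h]))
        have iN2 : Integrable (fun x => ‖del (delBar c) x‖) :=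
          hddc.norm.integrable_of_hasCompactSupport hddcc.norm
        refine add_le_add
          (norm_integral_le_of_norm_le ((hD.const_mul ε).add (iN.const_mul _)) ?_)
          (norm_integral_le_of_norm_le (iN2.const_mul B) ?_)
        · filter_upwards [hnull] with x hx
          rw [norm_mul]
          exact amgm hε hB (hD0 x) (hMD x hx)
        · filter_upwards [hnull] with x hx
          rw [norm_mul, mul_comm]
          exact mul_le_mul_of_nonneg_right (hFB x hx) (norm_nonneg _)
    _ = _ := by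
        have iN : Integrable (fun x => ‖del c x‖ ^ 2) :=
          (hdelc.norm.pow 2).integrable_of_hasCompactSupport
            (hdelcc.mono fun x hx h => hx (by simp [h]))
        rw [integral_add (hD.const_mul ε) (iN.const_mul _), integral_const_mul, integral_const_mul,
          integral_const_mul]

theorem int_le_of_div (R : Finset ℂ) {f g D : ℂ → ℝ} {M F : ℂ → ℂ} {B : ℝ} (hB : 0 ≤ B)
    (hM : ContDiffOn ℝ 1 M (↑R : Set ℂ)ᶜ) (hF : ContDiffOn ℝ 2 F (↑R : Set ℂ)ᶜ)
    (hFB : ∀ x, x ∉ R → ‖F x‖ ≤ B) (hf : Integrable f) (hg : Integrable g) (hD : Integrable D)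
    (hD0 : ∀ x, 0 ≤ D x) (hMD : ∀ x, x ∉ R → ‖M x‖ ^ 2 ≤ B * D x)
    (hle : ∀ x, x ∉ R → f x ≤ g x + (del M x).re + (delBar (del F) x).re) :
    ∫ x, f x ≤ ∫ x, g x := by
  obtain ⟨χ, hχs, hχc, hχt, hχb, hχ1, hχ2, hχ3⟩ := exists_cutoff R
  set U := (↑R : Set ℂ)ᶜ with hUdef
  have hU : IsOpen U := R.finite_toSet.isClosed.isOpen_compl
  have hmemU : ∀ x, x ∈ U ↔ x ∉ R := fun x => by simp [hUdef]
  have hnull : ∀ᵐ x : ℂ, x ∉ R := by
    rw [ae_iff]
    simp only [not_not]
    exact R.finite_toSet.measure_zero volume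
  have hF' : ContDiffOn ℝ 1 (del F) U := contDiffOn_del hF hU (by norm_num)
  have key : ∀ n ε, 0 < ε → ∫ x, χ n x * (f x - g x) ≤
      ε * (∫ x, D x) + (B + 1) / (4 * ε) * (∫ x, ‖del (fun y => ((χ n y : ℝ) : ℂ)) x‖ ^ 2) +
        B * (∫ x, ‖del (delBar (fun y => ((χ n y : ℝ) : ℂ))) x‖) := fun n ε hε =>
    cutoff_ineq hU (hnull.mono fun x hx => (hmemU x).2 hx) hB hε (hχs n) (hχc n) (hχt n) (hχb n)
      hM hF hF' (fun x hx => hFB x ((hmemU x).1 hx)) hf hg hD hD0
      (fun x hx => hMD x ((hmemU x).1 hx)) (fun x hx => hle x ((hmemU x).1 hx))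
  have hlim : Tendsto (fun n => ∫ x, χ n x * (f x - g x)) atTop (𝓝 (∫ x, (f x - g x))) := by
    refine tendsto_integral_of_dominated_convergence (fun x => ‖f x - g x‖) (fun n => ?_)
      (hf.sub hg).norm (fun n => Eventually.of_forall fun x => ?_) ?_
    · exact (hχs n).continuous.aestronglyMeasurable.mul (hf.sub hg).aestronglyMeasurable
    · rw [norm_mul]
      exact mul_le_of_le_one_left (norm_nonneg _)
        (by rw [Real.norm_eq_abs, abs_le]; exact ⟨by linarith [(hχb n x).1], (hχb n x).2⟩)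
    · filter_upwards [hnull] with x hx
      simpa using (hχ1 x hx).mul_const (f x - g x)
  have hfin : ∫ x, (f x - g x) ≤ 0 := by
    refine le_of_forall_pos_le_add fun δ hδ => ?_
    rw [zero_add]
    have hD' : 0 ≤ ∫ x, D x := integral_nonneg hD0
    set ε := δ / ((∫ x, D x) + 1) with hε
    have hε0 : 0 < ε := by positivity
    have := le_of_tendsto_of_tendsto' hlim
      ((tendsto_const_nhds.add (hχ2.const_mul _)).add (hχ3.const_mul B)) fun n => key n ε hε0
    simp only [mul_zero, add_zero] at this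
    refine this.trans ?_
    rw [hε, div_mul_eq_mul_div, div_le_iff₀ (by linarith)]
    nlinarith
  rw [integral_sub hf hg] at hfin
  linarith

end Vale.Agent.P296.An
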