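import Mathlib
import Vale.Agent.P296.Analysis.Ibp
import Vale.Agent.P296.Analysis.Hermitian

/-!
The integral inequality on a curve with finitely many sheets over the punctured plane.
-/

open scoped ContDiff Topology ComplexOrder
open Complex ComplexConjugate Matrix MeasureTheory Set Filter

noncomputable section

namespace Vale.Agent.P296.An

variable {ι : Type} [Fintype ι]

/-- Values over the sheets of a metric, of two sections, and of their `∂̄` derivatives. -/
structure LineData (R : Finset ℂ) (ι : Type) [Fintype ι] where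
  Kd : ℂ → ι → Mat
  phi : ℂ → ι → Vec
  om : ℂ → ι → Vec
  dphi : ℂ → ι → Vec
  dom : ℂ → ι → Vec
  weight : ℂ → ℝ
  local_branch : ∀ x₀, x₀ ∉ R → ∃ (W : Set ℂ) (G : ι → ℂ → Mat) (p o : ι → ℂ → Vec),
    x₀ ∈ W ∧ (∀ x ∈ W, x ∉ R) ∧ (∀ i, Nice W (G i) ∧ VSmooth W (p i) ∧ VSmooth W (o i)) ∧
    (∀ i, ∀ x ∈ W, 0 ≤ quad (dualCurv (G i) x) (p i x) + weight x * quad (G i x) (p i x)) ∧
    (∀ x ∈ W, ∃ σ : ι ≃ ι, ∀ i, G (σ i) x = Kd x i ∧ p (σ i) x = phi x i ∧ o (σ i) x = om x i ∧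
      vdelBar (p (σ i)) x = dphi x i ∧ vdelBar (o (σ i)) x = dom x i)

variable {R : Finset ℂ}

/-- Sum of `f(∂̄Ω, φ)` over sheets, a controlling expression. -/
def LineData.rhs (L : LineData R ι) (c : ℝ) (x : ℂ) (i : ι) : ℝ :=
  c / 2 * quad (L.Kd x i) (L.om x i) +
    1 / (2 * c) * (quad (L.Kd x i) (L.dphi x i) + L.weight x * quad (L.Kd x i) (L.phi x i))

theorem LineData.step (L : LineData R ι) {c B : ℝ} (hc : 0 < c) (hB : 0 ≤ B)
    (hphiB : ∀ x, x ∉ R → ∀ i, quad (L.Kd x i) (L.phi x i) ≤ B)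
    {f g : ℂ → ℝ}
    (hom : Integrable (fun x => ∑ i, quad (L.Kd x i) (L.om x i)))
    (hdphi : Integrable (fun x => ∑ i, quad (L.Kd x i) (L.dphi x i)))
    (hf : Integrable f) (hg : Integrable g)
    (hle : ∀ x, x ∉ R →
      f x - g x ≤ ∑ i, (sesq (L.Kd x i) (L.dom x i) (L.phi x i)).re - ∑ i, L.rhs c x i) :
    ∫ x, f x ≤ ∫ x, g x := by
  classical
  set U := (↑R : Set ℂ)ᶜ with hUdef
  have hmemU : ∀ x, x ∈ U ↔ x ∉ R := fun x => by simp [hUdef]
  set M : ℂ → ℂ := fun x => ∑ i, (sesq (L.Kd x i) (L.om x i) (L.phi x i) +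
    ((-(1 / c) : ℝ) : ℂ) * sesq (L.Kd x i) (L.phi x i) (L.dphi x i)) with hMdef
  set F : ℂ → ℂ := fun x => ((1 / (2 * c) : ℝ) : ℂ) * ∑ i, sesq (L.Kd x i) (L.phi x i) (L.phi x i)
    with hFdef
  -- everything at a point in terms of a branch
  have hloc : ∀ x₀, x₀ ∈ U → ContDiffAt ℝ 1 M x₀ ∧ ContDiffAt ℝ 2 F x₀ ∧
      f x₀ ≤ g x₀ + (del M x₀).re + (delBar (del F) x₀).re := by
    intro x₀ hx₀
    obtain ⟨W, G, p, o, hx₀W, hWR, hnice, hcurv, hperm⟩ := L.local_branch x₀ ((hmemU x₀).1 hx₀)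
    rcases isEmpty_or_nonempty ι with hι | hι
    · have hM0 : M = fun _ => (0:ℂ) := by funext x; simp [hMdef]
      have hF0 : F = fun _ => (0:ℂ) := by funext x; simp [hFdef]
      rw [hM0, hF0]
      refine ⟨contDiffAt_const, contDiffAt_const, ?_⟩
      have h := hle x₀ ((hmemU x₀).1 hx₀)
      simp only [Finset.univ_eq_empty, Finset.sum_empty, sub_zero] at h
      have e : del (fun _ : ℂ => (0:ℂ)) = fun _ => 0 := funext fun x => del_const 0
      rw [e, delBar_const]; simp; linarith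
    have hW : IsOpen W := (hnice (Classical.arbitrary ι)).1.isOpen
    have hWn : W ∈ 𝓝 x₀ := hW.mem_nhds hx₀W
    set M' : ι → ℂ → ℂ := fun i x => sesq (G i x) (o i x) (p i x) +
      ((-(1 / c) : ℝ) : ℂ) * sesq (G i x) (p i x) (vdelBar (p i) x) with hM'def
    set F' : ι → ℂ → ℂ := fun i x => sesq (G i x) (p i x) (p i x) with hF'def
    have hMeq : M =ᶠ[𝓝 x₀] fun x => ∑ i, M' i x := by
      filter_upwards [hWn] with x hx
      obtain ⟨σ, hσ⟩ := hperm x hx
      refine (Finset.sum_congr rfl fun i _ => ?_).trans (Equiv.sum_comp σ fun i => M' i x)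
      obtain ⟨h1, h2, h3, h4, -⟩ := hσ i
      simp only [hM'def, h1, h2, h3, h4]
    have hFeq : F =ᶠ[𝓝 x₀] fun x => ((1 / (2 * c) : ℝ) : ℂ) * ∑ i, F' i x := by
      filter_upwards [hWn] with x hx
      obtain ⟨σ, hσ⟩ := hperm x hx
      simp only [hFdef]
      congr 1
      refine (Finset.sum_congr rfl fun i _ => ?_).trans (Equiv.sum_comp σ fun i => F' i x)
      obtain ⟨h1, h2, -, -, -⟩ := hσ i
      simp only [hF'def, h1, h2]
    have c1 : ∀ i, ContDiffOn ℝ ∞ (fun x => sesq (G i x) (o i x) (p i x)) W := fun i =>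
      VSmooth.sesq (hnice i).1 (hnice i).2.2 (hnice i).2.1
    have c2 : ∀ i, ContDiffOn ℝ ∞ (fun x => sesq (G i x) (p i x) (vdelBar (p i) x)) W := fun i =>
      VSmooth.sesq (hnice i).1 (hnice i).2.1 ((hnice i).2.1.vdelBar hW)
    have hMs : ∀ i, ContDiffOn ℝ ∞ (M' i) W := fun i => (c1 i).add (contDiffOn_const.mul (c2 i))
    have hFs : ∀ i, ContDiffOn ℝ ∞ (F' i) W := fun i =>
      VSmooth.sesq (hnice i).1 (hnice i).2.1 (hnice i).2.1
    refine ⟨(((ContDiffOn.sum fun i _ => hMs i).contDiffAt hWn).of_le (by simp)).congr_of_eventuallyEq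
      hMeq, (((contDiffOn_const.mul (ContDiffOn.sum fun i _ => hFs i)).contDiffAt hWn).of_le
        (WithTop.coe_le_coe.2 le_top)).congr_of_eventuallyEq hFeq, ?_⟩
    have d1 : ∀ i, ContDiffOn ℝ ∞ (del (F' i)) W := fun i => contDiffOn_del (hFs i) hW (by simp)
    have eF : (delBar (del F) x₀).re = 1 / (2 * c) * ∑ i, (delBar (del (F' i)) x₀).re := by
      have hev : del F =ᶠ[𝓝 x₀] fun x => ((1 / (2 * c) : ℝ) : ℂ) * ∑ i, del (F' i) x := by
        filter_upwards [hFeq.eventuallyEq_nhds, hWn] with x hx hxW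
        rw [del_congr hx, del_const_mul (DifferentiableAt.fun_sum fun i _ =>
          diffAt_of_contDiffOn (hFs i) hW (by simp) hxW),
          del_sum _ fun i _ => diffAt_of_contDiffOn (hFs i) hW (by simp) hxW]
      rw [delBar_congr hev, delBar_const_mul (DifferentiableAt.fun_sum fun i _ =>
          diffAt_of_contDiffOn (d1 i) hW (by simp) hx₀W),
        delBar_sum _ fun i _ => diffAt_of_contDiffOn (d1 i) hW (by simp) hx₀W,
        Complex.re_ofReal_mul, Complex.re_sum]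
    have eM : (del M x₀).re = ∑ i, ((del (fun x => sesq (G i x) (o i x) (p i x)) x₀).re +
        (-(1 / c)) * (del (fun x => sesq (G i x) (p i x) (vdelBar (p i) x)) x₀).re) := by
      rw [del_congr hMeq, del_sum _ fun i _ => diffAt_of_contDiffOn (hMs i) hW (by simp) hx₀W,
        Complex.re_sum]
      refine Finset.sum_congr rfl fun i _ => ?_
      simp only [hM'def]
      rw [del_add (diffAt_of_contDiffOn (c1 i) hW (by simp) hx₀W)
        ((differentiableAt_const _).fun_mul (diffAt_of_contDiffOn (c2 i) hW (by simp) hx₀W)),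
        del_const_mul (diffAt_of_contDiffOn (c2 i) hW (by simp) hx₀W), Complex.add_re,
        Complex.re_ofReal_mul]
    obtain ⟨σ, hσ⟩ := hperm x₀ hx₀W
    have hsum : ∀ (φf : ι → ℝ) (ψf : ι → ℝ), (∀ i, ψf (σ i) = φf i) → ∑ i, φf i = ∑ i, ψf i :=
      fun φf ψf h => (Finset.sum_congr rfl fun i _ => (h i).symm).trans (Equiv.sum_comp σ ψf)
    have key := hle x₀ ((hmemU x₀).1 hx₀)
    rw [hsum (fun i => (sesq (L.Kd x₀ i) (L.dom x₀ i) (L.phi x₀ i)).re)
        (fun i => (sesq (G i x₀) (vdelBar (o i) x₀) (p i x₀)).re)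
        (fun i => by obtain ⟨h1, h2, -, -, h5⟩ := hσ i; simp only [h1, h2, h5]),
      hsum (fun i => L.rhs c x₀ i) (fun i => c / 2 * quad (G i x₀) (o i x₀) +
          1 / (2 * c) * (quad (G i x₀) (vdelBar (p i) x₀) + L.weight x₀ * quad (G i x₀) (p i x₀)))
        (fun i => by obtain ⟨h1, h2, h3, h4, -⟩ := hσ i; simp only [LineData.rhs, h1, h2, h3, h4])]
      at key
    rw [eF, eM, Finset.mul_sum]
    have hp : ∀ i, _ := fun i => pair_le (hnice i).1 (hnice i).2.1 (hnice i).2.2 hx₀W hc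
      (hcurv i x₀ hx₀W)
    have hsum2 := Finset.sum_le_sum (s := Finset.univ) fun i _ => hp i
    simp only [Finset.sum_add_distrib] at hsum2 key ⊢
    have e3 : ∑ i, -(1 / c) * (del (fun x => sesq (G i x) (p i x) (vdelBar (p i) x)) x₀).re =
        ∑ i, 1 / (2 * c) * (-2 * (del (fun x => sesq (G i x) (p i x) (vdelBar (p i) x)) x₀).re) := by
      refine Finset.sum_congr rfl fun i _ => ?_
      field_simp
    have e4 : ∑ i, 1 / (2 * c) * ((delBar (del (F' i)) x₀).re -
          2 * (del (fun x => sesq (G i x) (p i x) (vdelBar (p i) x)) x₀).re) =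
        ∑ i, 1 / (2 * c) * (delBar (del (F' i)) x₀).re +
        ∑ i, 1 / (2 * c) * (-2 * (del (fun x => sesq (G i x) (p i x) (vdelBar (p i) x)) x₀).re) := by
      rw [← Finset.sum_add_distrib]
      exact Finset.sum_congr rfl fun i _ => by ring
    rw [e3]
    simp only [hF'def] at e4 ⊢
    rw [e4] at hsum2
    linarith
  have hpos : ∀ x, x ∉ R → ∀ i, (L.Kd x i).PosDef := by
    intro x hx i
    obtain ⟨W, G, p, o, hxW, -, hnice, -, hperm⟩ := L.local_branch x hx
    obtain ⟨σ, hσ⟩ := hperm x hxW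
    rw [← (hσ i).1]
    exact (hnice (σ i)).1.posDef x hxW
  set Dd : ℂ → ℝ := fun x =>
    |(∑ i, quad (L.Kd x i) (L.om x i)) + 1 / c ^ 2 * ∑ i, quad (L.Kd x i) (L.dphi x i)| with hDd
  set n : ℝ := (Fintype.card ι : ℝ)
  have hn : 0 ≤ n := Nat.cast_nonneg _
  refine int_le_of_div R (M := M) (F := F) (D := Dd) (B := 2 * n * B + n * B / (2 * c))
    (by positivity) (fun x hx => (hloc x hx).1.contDiffWithinAt)
    (fun x hx => (hloc x hx).2.1.contDiffWithinAt) ?_ hf hg
    ((hom.add (hdphi.const_mul _)).abs) (fun x => abs_nonneg _) ?_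
    (fun x hx => (hloc x ((hmemU x).2 hx)).2.2)
  · intro x hx
    refine le_trans ?_ (le_add_of_nonneg_left (show 0 ≤ 2 * n * B by positivity))
    simp only [hFdef]
    rw [norm_mul, Complex.norm_real, Real.norm_eq_abs, abs_of_nonneg (by positivity),
      show n * B / (2 * c) = 1 / (2 * c) * (n * B) by ring]
    refine mul_le_mul_of_nonneg_left ?_ (by positivity)
    refine (norm_sum_le _ _).trans ?_
    calc ∑ i, ‖sesq (L.Kd x i) (L.phi x i) (L.phi x i)‖ ≤ ∑ _i : ι, B := by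
          refine Finset.sum_le_sum fun i _ => ?_
          rw [sesq_self (hpos x hx i).1, Complex.norm_real, Real.norm_eq_abs,
            abs_of_nonneg (quad_nonneg (hpos x hx i).posSemidef _)]
          exact hphiB x hx i
      _ = n * B := by simp [n]
  · intro x hx
    have hterm : ∀ i, ‖sesq (L.Kd x i) (L.om x i) (L.phi x i) +
        ((-(1 / c) : ℝ) : ℂ) * sesq (L.Kd x i) (L.phi x i) (L.dphi x i)‖ ^ 2 ≤
        2 * B * (quad (L.Kd x i) (L.om x i) + 1 / c ^ 2 * quad (L.Kd x i) (L.dphi x i)) := by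
      intro i
      have hK := (hpos x hx i).posSemidef
      have q0 := quad_nonneg hK (L.phi x i)
      have q1 := quad_nonneg hK (L.om x i)
      have q2 := quad_nonneg hK (L.dphi x i)
      set a := sesq (L.Kd x i) (L.om x i) (L.phi x i)
      set b := sesq (L.Kd x i) (L.phi x i) (L.dphi x i)
      have ha : ‖a‖ ^ 2 ≤ quad (L.Kd x i) (L.om x i) * B :=
        (norm_sesq_sq_le hK _ _).trans (mul_le_mul_of_nonneg_left (hphiB x hx i) q1)
      have hb : ‖b‖ ^ 2 ≤ B * quad (L.Kd x i) (L.dphi x i) :=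
        (norm_sesq_sq_le hK _ _).trans (mul_le_mul_of_nonneg_right (hphiB x hx i) q2)
      have hn1 : ‖((-(1 / c) : ℝ) : ℂ) * b‖ = 1 / c * ‖b‖ := by
        rw [norm_mul, Complex.norm_real, Real.norm_eq_abs, abs_neg, abs_of_pos (by positivity)]
      refine (pow_le_pow_left₀ (norm_nonneg _) (norm_add_le _ _) 2).trans ?_
      rw [hn1]
      calc (‖a‖ + 1 / c * ‖b‖) ^ 2 ≤ 2 * ‖a‖ ^ 2 + 2 * (1 / c ^ 2) * ‖b‖ ^ 2 := by
            have := sq_nonneg (‖a‖ - 1 / c * ‖b‖)
            rw [show 2 * (1 / c ^ 2) * ‖b‖ ^ 2 = 2 * (1 / c * ‖b‖) ^ 2 by ring]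
            nlinarith
        _ ≤ 2 * (quad (L.Kd x i) (L.om x i) * B) +
            2 * (1 / c ^ 2) * (B * quad (L.Kd x i) (L.dphi x i)) := by gcongr
        _ = _ := by ring
    have h0 : 0 ≤ (∑ i, quad (L.Kd x i) (L.om x i)) +
        1 / c ^ 2 * ∑ i, quad (L.Kd x i) (L.dphi x i) := by
      have a1 : 0 ≤ ∑ i, quad (L.Kd x i) (L.om x i) :=
        Finset.sum_nonneg fun i _ => quad_nonneg (hpos x hx i).posSemidef _
      have a2 : 0 ≤ ∑ i, quad (L.Kd x i) (L.dphi x i) :=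
        Finset.sum_nonneg fun i _ => quad_nonneg (hpos x hx i).posSemidef _
      positivity
    simp only [hMdef, hDd, abs_of_nonneg h0]
    refine (pow_le_pow_left₀ (norm_nonneg _) (norm_sum_le _ _) 2).trans ?_
    refine sq_sum_le_card_mul_sum_sq.trans ?_
    calc ((Finset.univ : Finset ι).card : ℝ) * ∑ i, ‖sesq (L.Kd x i) (L.om x i) (L.phi x i) +
          ((-(1 / c) : ℝ) : ℂ) * sesq (L.Kd x i) (L.phi x i) (L.dphi x i)‖ ^ 2
        ≤ n * ∑ i, 2 * B * (quad (L.Kd x i) (L.om x i) +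
            1 / c ^ 2 * quad (L.Kd x i) (L.dphi x i)) := by
          simp only [Finset.card_univ]
          exact mul_le_mul_of_nonneg_left (Finset.sum_le_sum fun i _ => hterm i) hn
      _ = 2 * n * B * ((∑ i, quad (L.Kd x i) (L.om x i)) +
            1 / c ^ 2 * ∑ i, quad (L.Kd x i) (L.dphi x i)) := by
          rw [← Finset.mul_sum, Finset.sum_add_distrib, ← Finset.mul_sum]; ring
      _ ≤ _ := mul_le_mul_of_nonneg_right (le_add_of_nonneg_right (by positivity)) h0

end Vale.Agent.P296.An
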