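import Mathlib
import Vale.Agent.P296.Analysis.Base
import Vale.Agent.P296.Analysis.Derivs

/-!
Holomorphic branches of the four sheets over the plane minus the branch points.
-/

open scoped ContDiff Topology
open Complex ComplexConjugate Set Filter

noncomputable section

namespace Vale.Agent.P296.An

variable {m : ℕ} {s : ℂ}

lemma mem_Rm (hm : 0 < m) : s ∈ Rm m ↔ s ^ (12 * m) = 1 :=
  Polynomial.mem_nthRootsFinset (by omega) 1

lemma root0_sq (w : ℂ) : root0 w ^ 2 = w := by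
  rw [root0]
  exact_mod_cast Complex.cpow_nat_inv_pow w (n := 2) two_ne_zero

lemma sgn_sq (b : Bool) : sgn b ^ 2 = 1 := by cases b <;> simp [sgn]

lemma sgn_beq (a b : Bool) : sgn (a == b) * sgn b = sgn a := by
  cases a <;> cases b <;> simp [sgn]

lemma onCurve_sh (i : Sh) : OnCurve m s (shU m s i) (shV m s i) := by
  refine ⟨?_, ?_⟩
  · rw [shU, mul_pow, sgn_sq, one_mul, root0_sq]
  · rw [shV, mul_pow, sgn_sq, one_mul, root0_sq]

lemma pow_six (m : ℕ) (s : ℂ) : s ^ (6 * m) = (s ^ m) ^ 6 := by rw [← pow_mul, mul_comm]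

lemma curveAt_of {u v : ℂ} (h : OnCurve m s u v) : CurveAt (s ^ m) u v := by
  simpa only [OnCurve, pp, qq, CurveAt, pow_six] using h

lemma pow_ne (h : s ^ (12 * m) ≠ 1) : (s ^ m) ^ 12 ≠ 1 := by
  rwa [← pow_mul, mul_comm]

lemma pp_mul_qq (m : ℕ) (s : ℂ) : pp m s * qq m s = s ^ (12 * m) - 1 := by
  rw [pp, qq, show 12 * m = 6 * m * 2 by ring, pow_mul s (6 * m) 2]; ring

lemma pp_qq_ne (h : s ^ (12 * m) ≠ 1) : pp m s ≠ 0 ∧ qq m s ≠ 0 := by
  refine mul_ne_zero_iff.1 ?_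
  rw [pp_mul_qq]
  exact sub_ne_zero.2 h

variable {W : Set ℂ} {u v : ℂ → ℂ} {x : ℂ}

lemma Br.ne (hb : Br m W u v) (hx : x ∈ W) : u x ≠ 0 ∧ v x ≠ 0 := by
  obtain ⟨h1, h2⟩ := hb.curve x hx
  obtain ⟨h3, h4⟩ := pp_qq_ne (hb.notR x hx)
  refine ⟨fun h0 => h3 ?_, fun h0 => h4 ?_⟩
  · rw [← h1, h0]; simp
  · rw [← h2, h0]; simp

lemma deriv_sq_eq {f : ℂ → ℂ} {c : ℂ} (hW : IsOpen W) (hf : DifferentiableOn ℂ f W) (hx : x ∈ W)
    (hf0 : f x ≠ 0) (h : ∀ y ∈ W, f y ^ 2 = (y ^ m) ^ 6 + c) :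
    deriv f x = 3 * (x ^ m) ^ 5 * dP m x / f x := by
  have h1 : HasDerivAt (fun y => f y ^ 2) (2 * f x * deriv f x) x := by
    simpa using (hf.differentiableAt (hW.mem_nhds hx)).hasDerivAt.fun_pow 2
  have h2 : HasDerivAt (fun y : ℂ => (y ^ m) ^ 6 + c) (6 * (x ^ m) ^ 5 * dP m x) x := by
    simpa [dP] using ((hasDerivAt_pow m x).fun_pow 6).add_const c
  have h3 := (h1.congr_of_eventuallyEq (Filter.eventuallyEq_iff_exists_mem.2
    ⟨W, hW.mem_nhds hx, fun y hy => (h y hy).symm⟩)).unique h2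
  rw [eq_div_iff hf0]
  linear_combination (1 / 2 : ℂ) * h3

lemma Br.deriv_eq (hb : Br m W u v) (hx : x ∈ W) :
    deriv u x = 3 * (x ^ m) ^ 5 * dP m x / u x ∧ deriv v x = 3 * (x ^ m) ^ 5 * dP m x / v x :=
  ⟨deriv_sq_eq (c := -1) hb.isOpen hb.diffU hx (hb.ne hx).1 fun y hy => by
      rw [(curveAt_of (hb.curve y hy)).1]; ring,
    deriv_sq_eq (c := 1) hb.isOpen hb.diffV hx (hb.ne hx).2 fun y hy => by
      rw [(curveAt_of (hb.curve y hy)).2]⟩

lemma Br.sign (hb : Br m W u v) (a b : Bool) :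
    Br m W (fun x => sgn a * u x) (fun x => sgn b * v x) where
  isOpen := hb.isOpen
  diffU := hb.diffU.const_mul _
  diffV := hb.diffV.const_mul _
  curve x hx := by
    obtain ⟨h1, h2⟩ := hb.curve x hx
    exact ⟨by rw [mul_pow, sgn_sq, one_mul, h1], by rw [mul_pow, sgn_sq, one_mul, h2]⟩
  notR := hb.notR

lemma eq_sgn_mul_of_sq_eq {w r : ℂ} (h : w ^ 2 = r) : ∃ a, w = sgn a * root0 r := by
  rcases sq_eq_sq_iff_eq_or_eq_neg.1 (h.trans (root0_sq r).symm) with h1 | h1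
  · exact ⟨true, by simp [sgn, h1]⟩
  · exact ⟨false, by simp [sgn, h1]⟩

lemma Br.perm (hb : Br m W u v) (hx : x ∈ W) : ∃ σ : Sh ≃ Sh, ∀ i,
    sgn (σ i).1 * u x = shU m x i ∧ sgn (σ i).2 * v x = shV m x i := by
  obtain ⟨h1, h2⟩ := hb.curve x hx
  obtain ⟨a, ha⟩ := eq_sgn_mul_of_sq_eq h1
  obtain ⟨b, hb'⟩ := eq_sgn_mul_of_sq_eq h2
  refine ⟨Function.Involutive.toPerm (fun i : Sh => (i.1 == a, i.2 == b)) ?_, fun i => ?_⟩
  · rintro ⟨i, j⟩
    cases i <;> cases j <;> cases a <;> cases b <;> rfl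
  · show sgn (i.1 == a) * u x = shU m x i ∧ sgn (i.2 == b) * v x = shV m x i
    rw [ha, hb', ← mul_assoc, ← mul_assoc, sgn_beq, sgn_beq]
    exact ⟨rfl, rfl⟩

lemma exists_branch {s₀ u₀ v₀ : ℂ} (hs : s₀ ^ (12 * m) ≠ 1) (h : OnCurve m s₀ u₀ v₀) :
    ∃ W u v, s₀ ∈ W ∧ Br m W u v ∧ u s₀ = u₀ ∧ v s₀ = v₀ := by
  obtain ⟨hp, hq⟩ := pp_qq_ne hs
  have dp : Differentiable ℂ fun y => pp m y / pp m s₀ := by unfold pp; fun_prop
  have dq : Differentiable ℂ fun y => qq m y / qq m s₀ := by unfold qq; fun_prop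
  refine ⟨({y : ℂ | y ^ (12 * m) ≠ 1} ∩ (fun y => pp m y / pp m s₀) ⁻¹' slitPlane) ∩
      (fun y => qq m y / qq m s₀) ⁻¹' slitPlane,
    fun y => u₀ * root0 (pp m y / pp m s₀), fun y => v₀ * root0 (qq m y / qq m s₀), ?_, ⟨?_, ?_,
      ?_, ?_, fun y hy => hy.1.1⟩, ?_, ?_⟩
  · exact ⟨⟨hs, by simp [div_self hp]⟩, by simp [div_self hq]⟩
  · exact ((isOpen_ne_fun (continuous_pow _) continuous_const).inter
      (isOpen_slitPlane.preimage dp.continuous)).inter (isOpen_slitPlane.preimage dq.continuous)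
  · exact fun y hy => (((dp y).cpow (differentiableAt_const _) hy.1.2).const_mul
      u₀).differentiableWithinAt
  · exact fun y hy => (((dq y).cpow (differentiableAt_const _) hy.2).const_mul
      v₀).differentiableWithinAt
  · intro y _
    obtain ⟨h1, h2⟩ := h
    exact ⟨by rw [mul_pow, root0_sq, h1, mul_div_cancel₀ _ hp],
      by rw [mul_pow, root0_sq, h2, mul_div_cancel₀ _ hq]⟩
  · simp [root0, div_self hp]
  · simp [root0, div_self hq]

lemma shSum_continuousOn (_hm : 0 < m) {X : Type*} [TopologicalSpace X] {F : X → ℂ → ℂ → ℂ → ℝ}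
    (h : ∀ W u v, Br m W u v →
      ContinuousOn (fun p : X × ℂ => F p.1 p.2 (u p.2) (v p.2)) (univ ×ˢ W)) :
    ContinuousOn (fun p : X × ℂ => shSum m (F p.1) p.2) (univ ×ˢ {s | s ^ (12 * m) ≠ 1}) := by
  rintro ⟨x₀, s₀⟩ ⟨-, hs⟩
  obtain ⟨W, u, v, hsW, hb, -, -⟩ := exists_branch hs (onCurve_sh (m := m) (s := s₀) (true, true))
  have hcont : ContinuousOn
      (fun p : X × ℂ => ∑ i : Sh, F p.1 p.2 (sgn i.1 * u p.2) (sgn i.2 * v p.2)) (univ ×ˢ W) :=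
    continuousOn_finsetSum _ fun i _ => h W _ _ (hb.sign i.1 i.2)
  have heq : EqOn (fun p : X × ℂ => shSum m (F p.1) p.2)
      (fun p : X × ℂ => ∑ i : Sh, F p.1 p.2 (sgn i.1 * u p.2) (sgn i.2 * v p.2)) (univ ×ˢ W) := by
    intro p hp
    obtain ⟨σ, hσ⟩ := hb.perm hp.2
    refine (Finset.sum_congr rfl fun i _ => ?_).trans
      (Equiv.sum_comp σ fun i => F p.1 p.2 (sgn i.1 * u p.2) (sgn i.2 * v p.2))
    simp only [(hσ i).1, (hσ i).2]
  exact ((hcont.congr heq).continuousAt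
    ((isOpen_univ.prod hb.isOpen).mem_nhds ⟨mem_univ _, hsW⟩)).continuousWithinAt

end Vale.Agent.P296.An
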