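import Mathlib
import Vale.Agent.P296.Analysis.Base
import Vale.Agent.P296.Analysis.Derivs

/-!
Joint smoothness along branches of the sections in use.
-/

open scoped ContDiff Topology ComplexOrder
open Complex ComplexConjugate Matrix Set

noncomputable section

namespace Vale.Agent.P296.An

/-- A scalar real valued function of `(z, s, u, v)`. -/
abbrev Fn : Type := ℂ → ℂ → ℂ → ℂ → ℝ

/-- A vector valued function of `(z, s, u, v)`. -/
abbrev VFn : Type := ℂ → ℂ → ℂ → ℂ → Vec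

/-- Smooth along every branch. -/
def SmV (m : ℕ) (φ : VFn) : Prop :=
  ∀ (W : Set ℂ) (u v : ℂ → ℂ), Br m W u v → ∀ a,
    ContDiffOn ℝ ∞ (fun p : ℂ × ℂ => φ p.1 p.2 (u p.2) (v p.2) a) (univ ×ˢ W)

/-- Smooth along every branch, scalar valued. -/
def SmC (m : ℕ) (f : ℂ → ℂ → ℂ → ℂ → ℂ) : Prop :=
  ∀ (W : Set ℂ) (u v : ℂ → ℂ), Br m W u v →
    ContDiffOn ℝ ∞ (fun p : ℂ × ℂ => f p.1 p.2 (u p.2) (v p.2)) (univ ×ˢ W)

/-- Continuous along every branch. -/
def CF (m : ℕ) (F : Fn) : Prop :=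
  ∀ (W : Set ℂ) (u v : ℂ → ℂ), Br m W u v →
    ContinuousOn (fun p : ℂ × ℂ => F p.1 p.2 (u p.2) (v p.2)) (univ ×ˢ W)

variable {m : ℕ} {f g : ℂ → ℂ → ℂ → ℂ → ℂ} {φ ψ : VFn}

lemma Br.contU {W : Set ℂ} {u v : ℂ → ℂ} (hb : Br m W u v) :
    ContDiffOn ℝ ∞ (fun p : ℂ × ℂ => u p.2) (univ ×ˢ W) :=
  ((hb.diffU.contDiffOn hb.isOpen).restrict_scalars ℝ).comp contDiff_snd.contDiffOn
    fun _ hp => hp.2

lemma Br.contV {W : Set ℂ} {u v : ℂ → ℂ} (hb : Br m W u v) :
    ContDiffOn ℝ ∞ (fun p : ℂ × ℂ => v p.2) (univ ×ˢ W) :=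
  ((hb.diffV.contDiffOn hb.isOpen).restrict_scalars ℝ).comp contDiff_snd.contDiffOn
    fun _ hp => hp.2

lemma SmC.of_contDiff {h : ℂ → ℂ → ℂ} (hh : ContDiff ℝ ∞ fun p : ℂ × ℂ => h p.1 p.2) :
    SmC m (fun z s _ _ => h z s) := fun _ _ _ _ => hh.contDiffOn

lemma SmC.const (c : ℂ) : SmC m (fun _ _ _ _ => c) := fun _ _ _ _ => contDiffOn_const

lemma SmC.fst_u : SmC m (fun _ _ u _ => u) := fun _ _ _ hb => hb.contU

lemma SmC.snd_v : SmC m (fun _ _ _ v => v) := fun _ _ _ hb => hb.contV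

lemma SmC.add (hf : SmC m f) (hg : SmC m g) :
    SmC m (fun z s u v => f z s u v + g z s u v) := fun W u v hb =>
  (hf W u v hb).add (hg W u v hb)

lemma SmC.sub (hf : SmC m f) (hg : SmC m g) :
    SmC m (fun z s u v => f z s u v - g z s u v) := fun W u v hb =>
  (hf W u v hb).sub (hg W u v hb)

lemma SmC.mul (hf : SmC m f) (hg : SmC m g) :
    SmC m (fun z s u v => f z s u v * g z s u v) := fun W u v hb =>
  (hf W u v hb).mul (hg W u v hb)

lemma SmC.neg (hf : SmC m f) : SmC m (fun z s u v => -f z s u v) := fun W u v hb =>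
  (hf W u v hb).neg

lemma SmC.conj (hf : SmC m f) : SmC m (fun z s u v => conj (f z s u v)) := fun W u v hb =>
  Complex.conjCLE.toContinuousLinearMap.contDiff.comp_contDiffOn (hf W u v hb)

lemma SmC.pow (hf : SmC m f) (n : ℕ) : SmC m (fun z s u v => f z s u v ^ n) := fun W u v hb =>
  (hf W u v hb).pow n

lemma SmC.inv (hf : SmC m f)
    (h0 : ∀ z s u v, OnCurve m s u v → s ^ (12 * m) ≠ 1 → f z s u v ≠ 0) :
    SmC m (fun z s u v => (f z s u v)⁻¹) := fun W u v hb =>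
  (hf W u v hb).inv fun _p hp => h0 _ _ _ _ (hb.curve _ hp.2) (hb.notR _ hp.2)

lemma SmC.div (hf : SmC m f) (hg : SmC m g)
    (h0 : ∀ z s u v, OnCurve m s u v → s ^ (12 * m) ≠ 1 → g z s u v ≠ 0) :
    SmC m (fun z s u v => f z s u v / g z s u v) := by
  simp only [div_eq_mul_inv]
  exact hf.mul (hg.inv h0)

lemma SmV.smul (hf : SmC m f) (hφ : SmV m φ) :
    SmV m (fun z s u v => f z s u v • φ z s u v) := fun W u v hb a => by
  simpa using (hf W u v hb).mul (hφ W u v hb a)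

lemma SmC.smul' (hf : SmC m f) (hφ : SmV m φ) :
    SmV m (fun z s u v => f z s u v • φ z s u v) := SmV.smul hf hφ

lemma SmV.add (hφ : SmV m φ) (hψ : SmV m ψ) :
    SmV m (fun z s u v => φ z s u v + ψ z s u v) := fun W u v hb a => by
  simpa using (hφ W u v hb a).add (hψ W u v hb a)

lemma SmV.zero : SmV m (fun _ _ _ _ => 0) := fun _ _ _ _ _ => contDiffOn_const

lemma SmV.mk {f0 f1 f2 : ℂ → ℂ → ℂ → ℂ → ℂ} (h0 : SmC m f0) (h1 : SmC m f1) (h2 : SmC m f2) :
    SmV m (fun z s u v => ![f0 z s u v, f1 z s u v, f2 z s u v]) := fun W u v hb a => by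
  fin_cases a
  · simpa using h0 W u v hb
  · simpa using h1 W u v hb
  · simpa using h2 W u v hb

lemma contDiff_hl {n : WithTop ℕ∞} : ContDiff ℝ n (fun X : ℂ => hl X) :=
  contDiff_const.add (contDiff_norm_sq ℝ)

lemma smC_Z : SmC m (fun z _ _ _ => z ^ m) := SmC.of_contDiff (by fun_prop)

lemma smC_T : SmC m (fun _ s _ _ => s ^ m) := SmC.of_contDiff (h := fun _ s => s ^ m) (by fun_prop)

lemma smC_dZ : SmC m (fun z _ _ _ => dP m z) := SmC.of_contDiff (by unfold dP; fun_prop)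

lemma smC_dT : SmC m (fun _ s _ _ => dP m s) :=
  SmC.of_contDiff (h := fun _ s => dP m s) (by unfold dP; fun_prop)

lemma SmC.hl (hf : SmC m f) : SmC m (fun z s u v => (An.hl (f z s u v) : ℂ)) := fun W u v hb =>
  (Complex.ofRealCLM.contDiff.comp contDiff_hl).comp_contDiffOn (hf W u v hb)

lemma SmC.th (hf : SmC m f) : SmC m (fun z s u v => An.th (f z s u v)) := by
  simp only [th_eq, ← hl_cast]
  exact hf.conj.div hf.hl fun _ _ _ _ _ _ => by exact_mod_cast (hl_pos _).ne'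

lemma SmC.rh (hf : SmC m f) (hg : SmC m g) :
    SmC m (fun z s u v => An.rh (f z s u v) (g z s u v)) := by
  simp only [rh_eq, ← hl_cast]
  exact ((SmC.const 1).add (hf.conj.mul hg)).div hf.hl fun _ _ _ _ _ _ => by
    exact_mod_cast (hl_pos _).ne'

lemma SmC.sum {n : ℕ} {F : ℕ → ℂ → ℂ → ℂ → ℂ → ℂ} (h : ∀ i, SmC m (F i)) :
    SmC m (fun z s u v => ∑ i ∈ Finset.range n, F i z s u v) := fun W u v hb =>
  ContDiffOn.sum fun i _ => h i W u v hb

lemma curve_facts {s u v : ℂ} (h : OnCurve m s u v) (hs : s ^ (12 * m) ≠ 1) :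
    CurveAt (s ^ m) u v ∧ (s ^ m) ^ 12 ≠ 1 ∧ u ≠ 0 ∧ v ≠ 0 ∧ 0 < nN u v := by
  have hc : CurveAt (s ^ m) u v := by
    refine ⟨h.1.trans ?_, h.2.trans ?_⟩ <;>
      rw [← pow_mul, mul_comm] <;> rfl
  have h12 : (s ^ m) ^ 12 ≠ 1 := by rwa [← pow_mul, mul_comm]
  have huv : u * v ≠ 0 := fun h0 => h12 (by
    have := hc.sq_mul; rw [h0] at this; linear_combination -this)
  exact ⟨hc, h12, left_ne_zero_of_mul huv, right_ne_zero_of_mul huv,
    lt_of_lt_of_le two_pos hc.nN_ge.1⟩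

lemma smV_vV : SmV m (fun _ _ u v => vV u v) := SmV.mk .fst_u .snd_v (.const 0)

lemma smV_qV : SmV m (fun z s u v => qV (s ^ m) (z ^ m) u v) :=
  SmV.mk .fst_u .snd_v (smC_T.sub smC_Z)

lemma smV_gV : SmV m (fun z s u v => gV (s ^ m) (z ^ m) u v) :=
  SmV.add (SmV.smul (smC_Z.th.mul (SmC.sum fun i => (smC_Z.rh smC_T).pow i)) smV_qV)
    (SmV.mk (.const 0) (.const 0) (.const 1))

lemma smV_omV : SmV m (fun z s u v => omV (s ^ m) (z ^ m) u v) := by
  have hp : SmC m (fun z s _ _ => piS (s ^ m) (z ^ m)) :=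
    SmC.sum fun i => (smC_T.pow i).mul (smC_Z.pow (5 - i))
  exact SmV.mk
    ((smC_T.th.mul .fst_u).sub (hp.div .fst_u fun _ _ _ _ h hs => (curve_facts h hs).2.2.1))
    ((smC_T.th.mul .snd_v).sub (hp.div .snd_v fun _ _ _ _ h hs => (curve_facts h hs).2.2.2.1))
    (smC_T.rh smC_Z).neg

lemma smC_nN : SmC m (fun _ _ u v => (nN u v : ℂ)) := by
  intro W u v hb
  unfold nN
  exact Complex.ofRealCLM.contDiff.comp_contDiffOn
    ((hb.contU.norm_sq ℝ).add (hb.contV.norm_sq ℝ))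

lemma nN_ne_zero {s u v : ℂ} (h : OnCurve m s u v) (hs : s ^ (12 * m) ≠ 1) :
    (nN u v : ℂ) ≠ 0 := by exact_mod_cast (curve_facts h hs).2.2.2.2.ne'

lemma smV_wW : SmV m (fun _ _ u v => wW u v) :=
  SmV.smul (smC_nN.inv fun _ _ _ _ h hs => nN_ne_zero h hs)
    (SmV.mk SmC.snd_v.conj SmC.fst_u.conj.neg (.const 0))

lemma smV_dW : SmV m (fun _ s u v => dW m s u v) := by
  refine SmV.smul (((((SmC.const (-6)).mul (smC_T.pow 5)).mul smC_dT).div
    (SmC.fst_u.mul .snd_v) ?_).conj.div (smC_nN.pow 2) ?_) smV_vV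
  · exact fun _ _ _ _ h hs => mul_ne_zero (curve_facts h hs).2.2.1 (curve_facts h hs).2.2.2.1
  · exact fun _ _ _ _ h hs => pow_ne_zero 2 (nN_ne_zero h hs)

lemma smC_potU : SmC m (fun _ s u v => potU m s u v) := by
  refine ((((SmC.const 6).mul smC_dT).mul ((smC_T.pow 11).add smC_T.conj)).mul
    (SmC.fst_u.mul .snd_v).conj).div ((SmC.fst_u.mul .snd_v).mul (smC_T.hl.pow 7)) ?_
  exact fun _ _ _ _ h hs => mul_ne_zero
    (mul_ne_zero (curve_facts h hs).2.2.1 (curve_facts h hs).2.2.2.1)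
    (pow_ne_zero 7 (by exact_mod_cast (hl_pos _).ne'))

lemma smC_potG : SmC m (fun z s _ _ => potG m (s ^ m) z) :=
  ((smC_dZ.mul (smC_Z.sub smC_T).conj).mul (smC_Z.rh smC_T)).div (smC_Z.hl.mul smC_T.hl)
    fun _ _ _ _ _ _ => by exact_mod_cast mul_ne_zero (hl_pos _).ne' (hl_pos _).ne'

/-- Continuous functions of `(z, s)` off the branch points. -/
lemma CF.of_continuousOn {h : ℂ → ℂ → ℝ}
    (hh : ContinuousOn (fun p : ℂ × ℂ => h p.1 p.2) (univ ×ˢ {s | s ^ (12 * m) ≠ 1})) :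
    CF m (fun z s _ _ => h z s) := fun _ _ _ hb =>
  hh.mono (prod_mono_right fun x hx => hb.notR x hx)

lemma CF.of_continuous {h : ℂ → ℂ → ℝ} (hh : Continuous fun p : ℂ × ℂ => h p.1 p.2) :
    CF m (fun z s _ _ => h z s) := CF.of_continuousOn hh.continuousOn

lemma CF.const (c : ℝ) : CF m (fun _ _ _ _ => c) := fun _ _ _ _ => continuousOn_const

lemma CF.add {F G : Fn} (hF : CF m F) (hG : CF m G) :
    CF m (fun z s u v => F z s u v + G z s u v) := fun W u v hb =>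
  (hF W u v hb).add (hG W u v hb)

lemma CF.mul {F G : Fn} (hF : CF m F) (hG : CF m G) :
    CF m (fun z s u v => F z s u v * G z s u v) := fun W u v hb =>
  (hF W u v hb).mul (hG W u v hb)

lemma CF.quad (D : MetricData m) (hφ : SmV m φ) :
    CF m (fun z s u v => An.quad (D.K z s u v) (φ z s u v)) := by
  intro W u v hb
  simp only [quad_eq, sesq_sum]
  refine Complex.continuous_re.comp_continuousOn (continuousOn_finsetSum _ fun i _ =>
    continuousOn_finsetSum _ fun j _ => ?_)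
  exact (Complex.continuous_conj.comp_continuousOn (hφ W u v hb i).continuousOn).mul
    ((D.smooth W u v hb.isOpen hb.diffU hb.diffV hb.curve i j).continuousOn.mul
      (hφ W u v hb j).continuousOn)

end Vale.Agent.P296.An
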