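import Mathlib
import Vale.Agent.P296.Analysis.Base
import Vale.Agent.P296.Analysis.Derivs
import Vale.Agent.P296.Analysis.Cutoff

/-!
The weights `om` and `nu`: positivity, continuity and integrability.
-/

open scoped ContDiff Topology
open Complex ComplexConjugate Set MeasureTheory Metric

noncomputable section

namespace Vale.Agent.P296.An

variable {m : ℕ} {s : ℂ}

lemma continuous_hl : Continuous hl := by unfold hl; fun_prop

lemma powm_ne (h : s ^ (12 * m) ≠ 1) : (s ^ m) ^ 12 ≠ 1 := by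
  rwa [← pow_mul, mul_comm m 12]

lemma nu_nonneg (m : ℕ) (s : ℂ) : 0 ≤ nu m s :=
  mul_nonneg (om_nonneg m s) (div_nonneg (pow_nonneg (hl_pos _).le 6) (norm_nonneg _))

lemma om_le_nu (h : s ^ (12 * m) ≠ 1) : om m s ≤ nu m s :=
  le_mul_of_one_le_right (om_nonneg m s) (one_le_dens (powm_ne h))

lemma continuous_om : Continuous (om m) := by
  unfold om
  exact Continuous.div₀ (by fun_prop) (by fun_prop) fun s => by positivity

lemma continuousOn_nu : ContinuousOn (nu m) {s | s ^ (12 * m) ≠ 1} := by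
  have h1 : Continuous fun s : ℂ => hl (s ^ m) ^ 6 := by unfold hl; fun_prop
  unfold nu
  refine continuous_om.continuousOn.mul (h1.continuousOn.div (by fun_prop) fun s hs => ?_)
  exact (norm_pos_iff.2 (sub_ne_zero.2 (powm_ne hs))).ne'

lemma om_pos (hm : 0 < m) (h0 : s ≠ 0) : 0 < om m s := by
  have := norm_pos_iff.2 h0
  have : (0 : ℝ) < (m : ℝ) := by exact_mod_cast hm
  unfold om; positivity

lemma nu_pos (hm : 0 < m) (h : s ^ (12 * m) ≠ 1) (h0 : s ≠ 0) : 0 < nu m s :=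
  (om_pos hm h0).trans_le (om_le_nu h)

lemma ae_notR (hm : 0 < m) : ∀ᵐ s : ℂ, s ^ (12 * m) ≠ 1 := by
  have hfin : {s : ℂ | s ^ (12 * m) = 1}.Finite :=
    (Polynomial.nthRootsFinset (12 * m) (1 : ℂ)).finite_toSet.subset fun s hs =>
      (Polynomial.mem_nthRootsFinset (by omega) (1 : ℂ)).2 hs
  have := hfin.measure_zero (volume : Measure ℂ)
  rw [ae_iff]
  simpa using this

lemma om_le (hm : 0 < m) (s : ℂ) : om m s ≤ 4 * (m : ℝ) ^ 2 * (1 / (1 + normSq s) ^ 2) := by
  have hn := norm_nonneg s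
  unfold om
  rw [normSq_eq_norm_sq, mul_one_div, mul_pow, div_le_div_iff₀ (by positivity) (by positivity),
    mul_assoc, show 4 * (m : ℝ) ^ 2 * (1 + ‖s‖ ^ (2 * m)) ^ 2 =
      (m : ℝ) ^ 2 * (4 * (1 + ‖s‖ ^ (2 * m)) ^ 2) by ring]
  refine mul_le_mul_of_nonneg_left ?_ (sq_nonneg _)
  rw [← pow_mul]
  rcases le_total ‖s‖ 1 with h | h
  · calc ‖s‖ ^ ((m - 1) * 2) * (1 + ‖s‖ ^ 2) ^ 2 ≤ 1 * (1 + 1) ^ 2 := by
          gcongr
          · exact pow_le_one₀ hn h
          · exact pow_le_one₀ hn h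
      _ ≤ _ := by
          have : (1 : ℝ) ≤ (1 + ‖s‖ ^ (2 * m)) ^ 2 :=
            one_le_pow₀ (le_add_of_nonneg_right (by positivity))
          linarith
  · calc ‖s‖ ^ ((m - 1) * 2) * (1 + ‖s‖ ^ 2) ^ 2
        ≤ ‖s‖ ^ ((m - 1) * 2) * (‖s‖ ^ 2 + ‖s‖ ^ 2) ^ 2 := by
          gcongr
          exact one_le_pow₀ h
      _ = 4 * ‖s‖ ^ ((m - 1) * 2 + 4) := by rw [pow_add]; ring
      _ ≤ 4 * ‖s‖ ^ (4 * m) := mul_le_mul_of_nonneg_left (pow_le_pow_right₀ h (by omega))
          (by norm_num)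
      _ ≤ _ := by
          have h2 : ‖s‖ ^ (2 * m) ≤ 1 + ‖s‖ ^ (2 * m) := le_add_of_nonneg_left zero_le_one
          rw [show 4 * m = 2 * m * 2 by ring, pow_mul]
          gcongr

lemma integrable_om (hm : 0 < m) : Integrable (om m) :=
  (integrable_inv_one_add_normSq_sq.const_mul (4 * (m : ℝ) ^ 2)).mono'
    continuous_om.aestronglyMeasurable (Filter.Eventually.of_forall fun s => by
      rw [Real.norm_eq_abs, abs_of_nonneg (om_nonneg m s)]; exact om_le hm s)

/-- `1/(s^n - 1)` is a sum of simple poles. -/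
lemma inv_pow_sub_one_eq {n : ℕ} {ζ : ℂ} (hn : 1 < n) (hζ : IsPrimitiveRoot ζ n) (h : s ^ n ≠ 1) :
    (n : ℂ) / (s ^ n - 1) = ∑ i ∈ Finset.range n, ζ ^ i / (s - ζ ^ i) := by
  have hd : s ^ n - 1 ≠ 0 := sub_ne_zero.2 h
  have h1 : ∀ i : ℕ, (ζ ^ i) ^ n = 1 := fun i => by
    rw [← pow_mul, mul_comm, pow_mul, hζ.pow_eq_one, one_pow]
  have key : ∀ i : ℕ, ζ ^ i / (s - ζ ^ i) =
      (∑ j ∈ Finset.range n, s ^ j * (ζ ^ (n - j)) ^ i) / (s ^ n - 1) := by
    intro i
    have hne : s - ζ ^ i ≠ 0 := sub_ne_zero.2 fun e => h (e ▸ h1 i)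
    rw [div_eq_div_iff hne hd, ← h1 i, ← geom_sum₂_mul s (ζ ^ i) n]
    rw [show (∑ j ∈ Finset.range n, s ^ j * (ζ ^ (n - j)) ^ i) =
      ζ ^ i * ∑ j ∈ Finset.range n, s ^ j * (ζ ^ i) ^ (n - 1 - j) from ?_]
    · ring
    · rw [Finset.mul_sum]
      refine Finset.sum_congr rfl fun j hj => ?_
      rw [mul_left_comm, ← pow_succ', ← pow_mul, ← pow_mul, mul_comm (n - j) i]
      have := Finset.mem_range.1 hj
      congr 3
      omega
  rw [Finset.sum_congr rfl fun i _ => key i, ← Finset.sum_div]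
  congr 1
  rw [Finset.sum_comm, Finset.sum_eq_single 0]
  · simp [hζ.pow_eq_one]
  · intro j hj hj0
    rw [← Finset.mul_sum]
    have hlt := Finset.mem_range.1 hj
    have hne : ζ ^ (n - j) ≠ 1 := hζ.pow_ne_one_of_pos_of_lt (by omega) (by omega)
    rw [geom_sum_eq hne, h1, sub_self, zero_div, mul_zero]
  · intro h0; exact absurd (Finset.mem_range.2 (by omega)) h0

lemma inv_norm_pow_sub_one_le {n : ℕ} {ζ : ℂ} (hn : 1 < n) (hζ : IsPrimitiveRoot ζ n) (s : ℂ) :
    ‖s ^ n - 1‖⁻¹ ≤ ∑ i ∈ Finset.range n, ‖s - ζ ^ i‖⁻¹ := by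
  by_cases h : s ^ n = 1
  · simp [h]; positivity
  have hn' : (1 : ℝ) ≤ (n : ℝ) := by exact_mod_cast hn.le
  have hz : ‖ζ‖ = 1 := hζ.norm'_eq_one (by omega)
  calc ‖s ^ n - 1‖⁻¹ ≤ (n : ℝ) * ‖s ^ n - 1‖⁻¹ := le_mul_of_one_le_left (by positivity) hn'
    _ = ‖(n : ℂ) / (s ^ n - 1)‖ := by rw [norm_div, Complex.norm_natCast, div_eq_mul_inv]
    _ ≤ _ := by
        rw [inv_pow_sub_one_eq hn hζ h]
        refine (norm_sum_le _ _).trans (Finset.sum_le_sum fun i _ => ?_)
        rw [norm_div, norm_pow, hz, one_pow, one_div]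

lemma integrableOn_inv_norm_sub (r : ℂ) {K : Set ℂ} (hK : IsCompact K) :
    IntegrableOn (fun s : ℂ => ‖s - r‖⁻¹) K := by
  have h : LocallyIntegrable (fun s : ℂ => ‖s‖⁻¹) volume :=
    locallyIntegrable_of_norm_le_rpow (C := 1) (α := 1)
      (by rw [Complex.finrank_real_complex]; norm_num)
      (by rw [Complex.finrank_real_complex]; norm_num)
      (Filter.Eventually.of_forall fun x => by simp [Real.rpow_neg_one])
      (by fun_prop : AEStronglyMeasurable (fun s : ℂ => ‖s‖⁻¹) volume)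
  have hc : IsCompact ((fun s : ℂ => s - r) '' K) := hK.image (by fun_prop)
  have h2 := h.integrableOn_isCompact hc
  have h3 : MeasurePreserving (fun s : ℂ => s - r) volume volume :=
    measurePreserving_sub_right volume r
  have h4 : MeasurableEmbedding (fun s : ℂ => s - r) :=
    (Homeomorph.subRight r).measurableEmbedding
  have := (h3.integrableOn_comp_preimage h4).2 h2
  exact this.mono_set (subset_preimage_image _ _)

lemma integrable_nu (hm : 0 < m) : Integrable (nu m) := by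
  have hcl : Continuous fun s : ℂ => hl (s ^ m) ^ 6 := by unfold hl; fun_prop
  have hmeas : Measurable (nu m) := by
    unfold nu
    exact continuous_om.measurable.mul (hcl.measurable.div (by fun_prop))
  set n := 12 * m with hn
  obtain ⟨ζ, hζ⟩ : ∃ ζ : ℂ, IsPrimitiveRoot ζ n :=
    ⟨_, Complex.isPrimitiveRoot_exp n (by omega)⟩
  obtain ⟨M, hM⟩ : ∃ M : ℝ, ∀ s ∈ closedBall (0 : ℂ) 2, om m s * hl (s ^ m) ^ 6 ≤ M := by
    obtain ⟨M, hM⟩ := (isCompact_closedBall (0 : ℂ) 2).bddAbove_image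
      (continuous_om.mul hcl).continuousOn
    exact ⟨M, fun s hs => hM ⟨s, hs, rfl⟩⟩
  have hfar : IntegrableOn (nu m) (closedBall 0 2)ᶜ := by
    refine ((integrable_om hm).const_mul 128).integrableOn.mono' hmeas.aestronglyMeasurable ?_
    refine ae_restrict_of_forall_mem measurableSet_closedBall.compl fun s hs => ?_
    have h2 : 2 < ‖s‖ := by simpa using hs
    rw [Real.norm_eq_abs, abs_of_nonneg (nu_nonneg m s), mul_comm 128]
    refine mul_le_mul_of_nonneg_left (dens_le_far _ ?_) (om_nonneg m s)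
    rw [norm_pow, ← pow_mul]
    exact h2.trans_le (le_self_pow₀ (by linarith) (by omega))
  have hnear : IntegrableOn (nu m) (closedBall 0 2) := by
    refine ((integrable_finsetSum (Finset.range n) fun i _ =>
      integrableOn_inv_norm_sub (ζ ^ i) (isCompact_closedBall (0 : ℂ) 2)).const_mul M).mono'
      hmeas.aestronglyMeasurable ?_
    refine ae_restrict_of_forall_mem measurableSet_closedBall fun s hs => ?_
    rw [Real.norm_eq_abs, abs_of_nonneg (nu_nonneg m s), nu, ← pow_mul, mul_comm m 12,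
      div_eq_mul_inv, ← mul_assoc]
    exact mul_le_mul (hM s hs) (inv_norm_pow_sub_one_le (by omega) hζ s) (by positivity)
      ((mul_nonneg (om_nonneg m s) (pow_nonneg (hl_pos _).le 6)).trans (hM s hs))
  have := hnear.union hfar
  rwa [union_compl_self, integrableOn_univ] at this

end Vale.Agent.P296.An
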