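import Mathlib
import Vale.Agent.P296.Analysis.Line
import Vale.Agent.P296.Analysis.Smooth
import Vale.Agent.P296.Analysis.Sheets
import Vale.Agent.P296.Analysis.Weights

/-!
The integral inequality applied to the slices of the metric.
-/

open scoped ContDiff Topology ComplexOrder
open Complex ComplexConjugate Matrix Set MeasureTheory Filter

noncomputable section

namespace Vale.Agent.P296.An

variable {m : ℕ}

/-- A section along the branches with its `∂̄` in `s`. -/
structure Sec (m : ℕ) where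
  φ : VFn
  dφ : VFn
  smooth : SmV m φ
  smooth_d : SmV m dφ
  db : ∀ z W u v, Br m W u v → ∀ x ∈ W,
    HasVDB (fun y => φ z y (u y) (v y)) x (dφ z x (u x) (v x))

/-- A potential along the branches with its `∂̄` in `s`. -/
structure Pot (m : ℕ) where
  Ω : VFn
  dΩ : VFn
  smooth : SmV m Ω
  db : ∀ z W u v, Br m W u v → ∀ x ∈ W,
    HasVDB (fun y => Ω z y (u y) (v y)) x (dΩ z x (u x) (v x))

lemma posSemidef_of (D : MetricData m) {z s u v : ℂ} (h : OnCurve m s u v) :
    (D.K z s u v).PosSemidef := (D.posDef z s u v h).posSemidef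

lemma SmV.slice {φ : VFn} (hφ : SmV m φ) (z : ℂ) {W : Set ℂ} {u v : ℂ → ℂ} (hb : Br m W u v) :
    VSmooth W (fun x => φ z x (u x) (v x)) := fun a =>
  (hφ W u v hb a).comp (contDiff_const.prodMk contDiff_id).contDiffOn fun _ hx => ⟨trivial, hx⟩

lemma nice_slice (D : MetricData m) (z : ℂ) {W : Set ℂ} {u v : ℂ → ℂ} (hb : Br m W u v) :
    Nice W (fun x => D.K z x (u x) (v x)) where
  isOpen := hb.isOpen
  smooth a b := (D.smooth W u v hb.isOpen hb.diffU hb.diffV hb.curve a b).comp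
    (contDiff_const.prodMk contDiff_id).contDiffOn fun _ hx => ⟨trivial, hx⟩
  posDef x hx := D.posDef z x _ _ (hb.curve x hx)

/-- The sheets data in `s` at fixed `z`. -/
def sLine (D : MetricData m) (hm : 0 < m) (S : Sec m) (P : Pot m) (z : ℂ) :
    LineData (Rm m) Sh where
  Kd x i := D.K z x (shU m x i) (shV m x i)
  phi x i := S.φ z x (shU m x i) (shV m x i)
  om x i := P.Ω z x (shU m x i) (shV m x i)
  dphi x i := S.dφ z x (shU m x i) (shV m x i)
  dom x i := P.dΩ z x (shU m x i) (shV m x i)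
  weight x := An.om m x / m
  local_branch := by
    intro x₀ hx₀
    have hs : x₀ ^ (12 * m) ≠ 1 := fun h => hx₀ ((mem_Rm hm).2 h)
    obtain ⟨W, u, v, hxW, hb, -, -⟩ := exists_branch hs (onCurve_sh (true, true))
    refine ⟨W, fun i x => D.K z x (sgn i.1 * u x) (sgn i.2 * v x),
      fun i x => S.φ z x (sgn i.1 * u x) (sgn i.2 * v x),
      fun i x => P.Ω z x (sgn i.1 * u x) (sgn i.2 * v x), hxW,
      fun x hx h => hb.notR x hx ((mem_Rm hm).1 h),
      fun i => ⟨nice_slice D z (hb.sign i.1 i.2), S.smooth.slice z (hb.sign i.1 i.2),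
        P.smooth.slice z (hb.sign i.1 i.2)⟩,
      fun i x hx => D.curv_s W _ _ hb.isOpen (hb.sign i.1 i.2).diffU (hb.sign i.1 i.2).diffV
        (hb.sign i.1 i.2).curve z x hx _, fun x hx => ?_⟩
    obtain ⟨σ, hσ⟩ := hb.perm hx
    refine ⟨σ, fun i => ?_⟩
    obtain ⟨h1, h2⟩ := hσ i
    have e1 := (S.db z W _ _ (hb.sign (σ i).1 (σ i).2) x hx).eq
    have e2 := (P.db z W _ _ (hb.sign (σ i).1 (σ i).2) x hx).eq
    simp only [h1, h2] at e1 e2 ⊢
    exact ⟨trivial, trivial, trivial, e1, e2⟩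

/-- Integral over the `s`-plane of the sum over sheets. -/
def J (m : ℕ) (F : Fn) (z : ℂ) : ℝ := ∫ s, shSum m (F z) s

/-- Bounded by a multiple of the weight at fixed `z`. -/
def Dom (m : ℕ) (F : Fn) (z : ℂ) : Prop :=
  ∃ C, ∀ s u v, OnCurve m s u v → s ^ (12 * m) ≠ 1 → |F z s u v| ≤ C * nu m s

lemma shSum_le {F G : ℂ → ℂ → ℂ → ℝ} {s : ℂ}
    (h : ∀ u v, OnCurve m s u v → F s u v ≤ G s u v) : shSum m F s ≤ shSum m G s :=
  Finset.sum_le_sum fun i _ => h _ _ (onCurve_sh i)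

lemma shSum_congr {F G : ℂ → ℂ → ℂ → ℝ} {s : ℂ}
    (h : ∀ u v, OnCurve m s u v → F s u v = G s u v) : shSum m F s = shSum m G s :=
  Finset.sum_congr rfl fun i _ => h _ _ (onCurve_sh i)

lemma shSum_continuousOn_slice (hm : 0 < m) {F : Fn} (hF : CF m F) (z : ℂ) :
    ContinuousOn (fun s => shSum m (F z) s) {s | s ^ (12 * m) ≠ 1} :=
  (shSum_continuousOn hm hF).comp (continuous_const.prodMk continuous_id).continuousOn
    fun _ hx => ⟨trivial, hx⟩

lemma integrable_sh (hm : 0 < m) {F : Fn} {z : ℂ} (hF : CF m F) (hb : Dom m F z) :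
    Integrable (fun s => shSum m (F z) s) := by
  obtain ⟨C, hC⟩ := hb
  have hopen : IsOpen {s : ℂ | s ^ (12 * m) ≠ 1} := isOpen_ne.preimage (continuous_pow _)
  have hmeas : AEStronglyMeasurable (fun s => shSum m (F z) s) volume := by
    have h := (shSum_continuousOn_slice hm hF z).aestronglyMeasurable
      (μ := volume) hopen.measurableSet
    rwa [Measure.restrict_eq_self_of_ae_mem (s := {s : ℂ | s ^ (12 * m) ≠ 1}) (ae_notR hm)] at h
  refine ((integrable_nu hm).const_mul (4 * C)).mono' hmeas ?_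
  filter_upwards [ae_notR hm] with s hs
  rw [Real.norm_eq_abs]
  refine (Finset.abs_sum_le_sum_abs _ _).trans ?_
  refine (Finset.sum_le_sum fun i _ => hC s _ _ (onCurve_sh i) hs).trans_eq ?_
  simp [mul_assoc]

lemma J_mono (hm : 0 < m) {F G : Fn} {z : ℂ} (hF : Integrable fun s => shSum m (F z) s)
    (hG : Integrable fun s => shSum m (G z) s)
    (h : ∀ s u v, OnCurve m s u v → s ^ (12 * m) ≠ 1 → F z s u v ≤ G z s u v) :
    J m F z ≤ J m G z :=
  integral_mono_ae hF hG ((ae_notR hm).mono fun s hs => shSum_le fun u v hc => h s u v hc hs)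

lemma J_congr (hm : 0 < m) {F G : Fn} {z : ℂ}
    (h : ∀ s u v, OnCurve m s u v → s ^ (12 * m) ≠ 1 → F z s u v = G z s u v) :
    J m F z = J m G z :=
  integral_congr_ae ((ae_notR hm).mono fun s hs => shSum_congr fun u v hc => h s u v hc hs)

lemma J_mul {F : Fn} {z : ℂ} (k : ℝ) :
    J m (fun z s u v => k * F z s u v) z = k * J m F z := by
  simp only [J, shSum, ← Finset.mul_sum, integral_const_mul]

lemma J_add {F G : Fn} {z : ℂ} (hF : Integrable fun s => shSum m (F z) s)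
    (hG : Integrable fun s => shSum m (G z) s) :
    J m (fun z s u v => F z s u v + G z s u v) z = J m F z + J m G z := by
  simp only [J, shSum, Finset.sum_add_distrib]
  exact integral_add hF hG

/-- The integral inequality in `s`. -/
theorem sStep (D : MetricData m) (hm : 0 < m) (S : Sec m) (P : Pot m) (z : ℂ) {c : ℝ} (hc : 0 < c)
    {B' : ℝ}
    (hφ : ∀ s u v, OnCurve m s u v → s ^ (12 * m) ≠ 1 →
      quad (D.K z s u v) (S.φ z s u v) ≤ B')
    (hΩ : ∃ C, ∀ s u v, OnCurve m s u v → s ^ (12 * m) ≠ 1 →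
      quad (D.K z s u v) (P.Ω z s u v) ≤ C * nu m s)
    (hdφ : ∃ C, ∀ s u v, OnCurve m s u v → s ^ (12 * m) ≠ 1 →
      quad (D.K z s u v) (S.dφ z s u v) ≤ C * nu m s)
    {F G : Fn} (hF : Integrable fun s => shSum m (F z) s)
    (hG : Integrable fun s => shSum m (G z) s)
    (pt : ∀ s u v, OnCurve m s u v → s ^ (12 * m) ≠ 1 →
      F z s u v - G z s u v ≤ (sesq (D.K z s u v) (P.dΩ z s u v) (S.φ z s u v)).re -
        (c / 2 * quad (D.K z s u v) (P.Ω z s u v) +
          1 / (2 * c) * (quad (D.K z s u v) (S.dφ z s u v) +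
            om m s / m * quad (D.K z s u v) (S.φ z s u v)))) :
    J m F z ≤ J m G z := by
  have hd : ∀ φ : VFn, SmV m φ → (∃ C, ∀ s u v, OnCurve m s u v → s ^ (12 * m) ≠ 1 →
      quad (D.K z s u v) (φ z s u v) ≤ C * nu m s) →
      Integrable fun s => ∑ i : Sh, quad (D.K z s (shU m s i) (shV m s i))
        (φ z s (shU m s i) (shV m s i)) := by
    intro φ hsm ⟨C, hC⟩
    refine integrable_sh hm (CF.quad D hsm) ⟨C, fun s u v hcu hs => ?_⟩
    rw [abs_of_nonneg (quad_nonneg (posSemidef_of D hcu) _)]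
    exact hC s u v hcu hs
  refine (sLine D hm S P z).step hc (le_max_right B' 0)
    (fun x hx i => (hφ x _ _ (onCurve_sh i) fun h => hx ((mem_Rm hm).2 h)).trans (le_max_left _ _))
    (hd P.Ω P.smooth hΩ) (hd S.dφ S.smooth_d hdφ) hF hG fun x hx => ?_
  simp only [shSum, ← Finset.sum_sub_distrib]
  exact Finset.sum_le_sum fun i _ => pt x _ _ (onCurve_sh i) fun h => hx ((mem_Rm hm).2 h)

lemma CF.sliceZ {F : Fn} (hF : CF m F) {s u v : ℂ} (hc : OnCurve m s u v)
    (hs : s ^ (12 * m) ≠ 1) : Continuous fun z => F z s u v := by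
  obtain ⟨W, u', v', hsW, hb, rfl, rfl⟩ := exists_branch hs hc
  rw [← continuousOn_univ]
  exact (hF W u' v' hb).comp (continuous_id.prodMk continuous_const).continuousOn
    fun _ _ => ⟨trivial, hsW⟩

lemma SmV.sliceZ {φ : VFn} (hφ : SmV m φ) {s u v : ℂ} (hc : OnCurve m s u v)
    (hs : s ^ (12 * m) ≠ 1) : VSmooth univ fun z => φ z s u v := by
  obtain ⟨W, u', v', hsW, hb, rfl, rfl⟩ := exists_branch hs hc
  exact fun a => (hφ W u' v' hb a).comp (contDiff_id.prodMk contDiff_const).contDiffOn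
    fun _ _ => ⟨trivial, hsW⟩

lemma nice_sliceZ (D : MetricData m) {s u v : ℂ} (hc : OnCurve m s u v)
    (hs : s ^ (12 * m) ≠ 1) : Nice univ fun z => D.K z s u v := by
  obtain ⟨W, u', v', hsW, hb, rfl, rfl⟩ := exists_branch hs hc
  exact
    { isOpen := isOpen_univ
      smooth := fun a b => (D.smooth W u' v' hb.isOpen hb.diffU hb.diffV hb.curve a b).comp
        (contDiff_id.prodMk contDiff_const).contDiffOn fun _ _ => ⟨trivial, hsW⟩
      posDef := fun z _ => D.posDef z _ _ _ hc }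

lemma integrable_z (hm : 0 < m) {f : ℂ → ℝ} (hf : Continuous f)
    (hb : ∃ C, ∀ z, |f z| ≤ C * om m z) : Integrable f := by
  obtain ⟨C, hC⟩ := hb
  exact ((integrable_om hm).const_mul C).mono' hf.aestronglyMeasurable (Eventually.of_forall hC)

/-- The integral inequality in `z`. -/
theorem zStep (D : MetricData m) (hm : 0 < m) {s u v : ℂ} (hcu : OnCurve m s u v)
    (hs : s ^ (12 * m) ≠ 1) {φ Ω dφ dΩ : VFn} (smφ : SmV m φ) (smΩ : SmV m Ω) (smdφ : SmV m dφ)
    (dbφ : ∀ z, HasVDB (fun y => φ y s u v) z (dφ z s u v))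
    (dbΩ : ∀ z, HasVDB (fun y => Ω y s u v) z (dΩ z s u v))
    {c : ℝ} (hc : 0 < c) {B' : ℝ} (hφ : ∀ z, quad (D.K z s u v) (φ z s u v) ≤ B')
    (hΩ : ∃ C, ∀ z, quad (D.K z s u v) (Ω z s u v) ≤ C * om m z)
    (hdφ : ∃ C, ∀ z, quad (D.K z s u v) (dφ z s u v) ≤ C * om m z)
    {f g : ℂ → ℝ} (hf : Integrable f) (hg : Integrable g)
    (pt : ∀ z, f z - g z ≤ (sesq (D.K z s u v) (dΩ z s u v) (φ z s u v)).re -
      (c / 2 * quad (D.K z s u v) (Ω z s u v) +
        1 / (2 * c) * (quad (D.K z s u v) (dφ z s u v) +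
          om m z / m * quad (D.K z s u v) (φ z s u v)))) :
    ∫ z, f z ≤ ∫ z, g z := by
  let L : LineData (∅ : Finset ℂ) Unit :=
    { Kd := fun z _ => D.K z s u v
      phi := fun z _ => φ z s u v
      om := fun z _ => Ω z s u v
      dphi := fun z _ => dφ z s u v
      dom := fun z _ => dΩ z s u v
      weight := fun z => An.om m z / m
      local_branch := fun z₀ _ => ⟨univ, fun _ z => D.K z s u v, fun _ z => φ z s u v,
        fun _ z => Ω z s u v, trivial, fun z _ => Finset.notMem_empty z,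
        fun _ => ⟨nice_sliceZ D hcu hs, smφ.sliceZ hcu hs, smΩ.sliceZ hcu hs⟩,
        fun _ z _ => D.curv_z z s u v hcu hs _,
        fun z _ => ⟨Equiv.refl _, fun _ => ⟨rfl, rfl, rfl, (dbφ z).eq, (dbΩ z).eq⟩⟩⟩ }
  have hd : ∀ ψ : VFn, SmV m ψ → (∃ C, ∀ z, quad (D.K z s u v) (ψ z s u v) ≤ C * om m z) →
      Integrable fun z => ∑ _i : Unit, quad (D.K z s u v) (ψ z s u v) := by
    intro ψ hsm ⟨C, hC⟩
    simp only [Finset.univ_unique, Finset.sum_singleton]
    refine integrable_z hm ((CF.quad D hsm).sliceZ hcu hs) ⟨C, fun z => ?_⟩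
    rw [abs_of_nonneg (quad_nonneg (posSemidef_of D hcu) _)]
    exact hC z
  refine L.step hc (le_max_right B' 0) (fun z _ _ => (hφ z).trans (le_max_left _ _))
    (hd Ω smΩ hΩ) (hd dφ smdφ hdφ) hf hg fun z _ => ?_
  simpa [L, LineData.rhs] using pt z

end Vale.Agent.P296.An
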