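import Mathlib
import Vale.Agent.P296.Analysis.Fam

/-!
The four normalised quantities.
-/

open scoped ContDiff Topology ComplexOrder
open Complex ComplexConjugate Matrix Set MeasureTheory Filter

noncomputable section

namespace Vale.Agent.P296.An

variable {m : ℕ}

def qa (D : MetricData m) : Fn := fun z s u v => tA (D.K z s u v) (s ^ m) (z ^ m) u v
def qb (D : MetricData m) : Fn := fun z s u v => tB (D.K z s u v) (s ^ m) u v
def qw (D : MetricData m) : Fn := fun z s u v => tW (D.K z s u v) (s ^ m) u v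
def qg (D : MetricData m) : Fn := fun z s u v => tG (D.K z s u v) (s ^ m) (z ^ m) u v
def qS (D : MetricData m) : Fn := fun z s u v =>
  qa D z s u v + qb D z s u v + qw D z s u v + qg D z s u v

variable (D : MetricData m) {B : ℝ} {z s u v : ℂ}

lemma qS_eq : qS D z s u v = traceFn m (D.K z s u v) z s u v := rfl

lemma q_nonneg (h : OnCurve m s u v) :
    0 ≤ qa D z s u v ∧ 0 ≤ qb D z s u v ∧ 0 ≤ qw D z s u v ∧ 0 ≤ qg D z s u v := by
  have hK := posSemidef_of D (z := z) h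
  have h1 := quad_nonneg hK
  have := hl_pos (s ^ m)
  have := hl_pos (z ^ m)
  refine ⟨?_, ?_, ?_, ?_⟩ <;> simp only [qa, qb, qw, qg, tA, tB, tW, tG] <;>
    [exact div_nonneg (h1 _) (by positivity); exact div_nonneg (h1 _) (by positivity);
      exact mul_nonneg (h1 _) (by positivity);
      exact div_nonneg (mul_nonneg (h1 _) (by positivity)) (by positivity)]

lemma q_le (hB : ∀ z s u v, OnCurve m s u v → traceFn m (D.K z s u v) z s u v ≤ B)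
    (h : OnCurve m s u v) :
    qa D z s u v ≤ B ∧ qb D z s u v ≤ B ∧ qw D z s u v ≤ B ∧ qg D z s u v ≤ B ∧
      0 ≤ qS D z s u v ∧ qS D z s u v ≤ B := by
  obtain ⟨h1, h2, h3, h4⟩ := q_nonneg D (z := z) h
  have hS : qS D z s u v ≤ B := by rw [qS_eq]; exact hB z s u v h
  simp only [qS] at hS ⊢
  refine ⟨?_, ?_, ?_, ?_, ?_, hS⟩ <;> linarith

lemma quad_qV : quad (D.K z s u v) (qV (s ^ m) (z ^ m) u v) = hl (z ^ m) ^ 5 * qa D z s u v := by
  have := hl_pos (z ^ m)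
  simp only [qa, tA]; field_simp

lemma quad_vV : quad (D.K z s u v) (vV u v) = hl (s ^ m) ^ 5 * qb D z s u v := by
  have := hl_pos (s ^ m)
  simp only [qb, tB]; field_simp

lemma quad_wW : quad (D.K z s u v) (wW u v) * hl (s ^ m) = qw D z s u v := rfl

lemma quad_gV : hl (z ^ m) * quad (D.K z s u v) (gV (s ^ m) (z ^ m) u v) =
    hl (s ^ m) ^ 4 * qg D z s u v := by
  have := hl_pos (s ^ m)
  simp only [qg, tG]; field_simp

lemma cf_hlZ : CF m (fun z _ _ _ => hl (z ^ m)) :=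
  CF.of_continuous (h := fun z _ => hl (z ^ m)) (by unfold hl; fun_prop)

lemma cf_hlT : CF m (fun _ s _ _ => hl (s ^ m)) :=
  CF.of_continuous (h := fun _ s => hl (s ^ m)) (by unfold hl; fun_prop)

lemma CF.div_pos' {F : Fn} (hF : CF m F) {h : ℂ → ℂ → ℝ}
    (hh : Continuous fun p : ℂ × ℂ => h p.1 p.2) (h0 : ∀ z s, h z s ≠ 0) :
    CF m (fun z s u v => F z s u v / h z s) := fun W u v hb =>
  (hF W u v hb).div hh.continuousOn fun _ _ => h0 _ _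

lemma cf_qa : CF m (qa D) :=
  CF.div_pos' (CF.quad D smV_qV) (h := fun z _ => hl (z ^ m) ^ 5) (by unfold hl; fun_prop)
    fun z _ => (pow_pos (hl_pos _) 5).ne'

lemma cf_qb : CF m (qb D) :=
  CF.div_pos' (CF.quad D smV_vV) (h := fun _ s => hl (s ^ m) ^ 5) (by unfold hl; fun_prop)
    fun _ s => (pow_pos (hl_pos _) 5).ne'

lemma cf_qw : CF m (qw D) := (CF.quad D smV_wW).mul cf_hlT

lemma cf_qg : CF m (qg D) :=
  CF.div_pos' ((CF.quad D smV_gV).mul cf_hlZ) (h := fun _ s => hl (s ^ m) ^ 4)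
    (by unfold hl; fun_prop) fun _ s => (pow_pos (hl_pos _) 4).ne'

lemma cf_qS : CF m (qS D) := (((cf_qa D).add (cf_qb D)).add (cf_qw D)).add (cf_qg D)

/-- Multiply by a weight in `s`. -/
def wt (w : ℂ → ℝ) (F : Fn) : Fn := fun z s u v => w s * F z s u v

lemma CF.wt {w : ℂ → ℝ} {F : Fn} (hw : ContinuousOn w {s | s ^ (12 * m) ≠ 1}) (hF : CF m F) :
    CF m (An.wt w F) :=
  (CF.of_continuousOn (h := fun _ s => w s)
    (hw.comp continuous_snd.continuousOn fun _ hp => hp.2)).mul hF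

lemma cf_om_wt {F : Fn} (hF : CF m F) : CF m (wt (om m) F) := hF.wt continuous_om.continuousOn

lemma cf_nu_wt {F : Fn} (hF : CF m F) : CF m (wt (nu m) F) := hF.wt continuousOn_nu

lemma dom_nu {F : Fn} {k C : ℝ} {w : ℂ} (hz : 0 ≤ k)
    (h : ∀ s u v, OnCurve m s u v → 0 ≤ F w s u v ∧ F w s u v ≤ C) (f : ℂ → ℝ)
    (hf : ∀ s, s ^ (12 * m) ≠ 1 → 0 ≤ f s ∧ f s ≤ k * nu m s) : Dom m (wt f F) w :=
  ⟨k * C, fun s u v hc hs => by
    obtain ⟨h1, h2⟩ := h s u v hc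
    obtain ⟨h3, h4⟩ := hf s hs
    rw [wt, abs_of_nonneg (mul_nonneg h3 h1)]
    calc f s * F w s u v ≤ k * nu m s * C := mul_le_mul h4 h2 h1 (mul_nonneg hz (nu_nonneg m s))
      _ = _ := by ring⟩

lemma int_nu (hm : 0 < m) {F : Fn} {C : ℝ} {z : ℂ} (hF : CF m F)
    (h : ∀ s u v, OnCurve m s u v → 0 ≤ F z s u v ∧ F z s u v ≤ C) :
    Integrable fun s => shSum m (wt (nu m) F z) s :=
  integrable_sh hm (cf_nu_wt hF)
    (dom_nu zero_le_one h _ fun s _ => ⟨nu_nonneg m s, (one_mul _).ge⟩)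

lemma int_om (hm : 0 < m) {F : Fn} {C : ℝ} {z : ℂ} (hF : CF m F)
    (h : ∀ s u v, OnCurve m s u v → 0 ≤ F z s u v ∧ F z s u v ≤ C) :
    Integrable fun s => shSum m (wt (om m) F z) s :=
  integrable_sh hm (cf_om_wt hF)
    (dom_nu zero_le_one h _ fun s hs => ⟨om_nonneg m s, by simpa using om_le_nu hs⟩)

lemma gU_nonneg (m : ℕ) (s : ℂ) : 0 ≤ gU m s := by
  have := hl_pos (s ^ m); unfold gU; positivity

lemma mU_nonneg (m : ℕ) (s : ℂ) : 0 ≤ mU m s := by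
  have := hl_pos (s ^ m); unfold mU; positivity

lemma continuousOn_gU : ContinuousOn (gU m) {s | s ^ (12 * m) ≠ 1} := by
  unfold gU hl dP
  refine ContinuousOn.div (by fun_prop) (by fun_prop) fun s hs => ?_
  have : (s ^ m) ^ 12 - 1 ≠ 0 := sub_ne_zero.2 (by rwa [← pow_mul, mul_comm])
  positivity

lemma gU_le_nu (hs : s ^ (12 * m) ≠ 1) : gU m s ≤ 144 * nu m s := by
  have hT := hl_pos (s ^ m)
  have h12 : (s ^ m) ^ 12 - 1 ≠ 0 := sub_ne_zero.2 (by rwa [← pow_mul, mul_comm])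
  have hQ : 0 < ‖(s ^ m) ^ 12 - 1‖ := norm_pos_iff.2 h12
  rw [gU, nu, om_eq]
  calc 36 * ‖dP m s‖ ^ 2 * ‖(s ^ m) ^ 11 + conj (s ^ m)‖ ^ 2 /
        (‖(s ^ m) ^ 12 - 1‖ * hl (s ^ m) ^ 8)
      ≤ 36 * ‖dP m s‖ ^ 2 * (4 * hl (s ^ m) ^ 11) / (‖(s ^ m) ^ 12 - 1‖ * hl (s ^ m) ^ 8) := by
        gcongr; exact norm_sq_T11_le _
    _ = 144 * (‖dP m s‖ ^ 2 * hl (s ^ m) ^ 3 / ‖(s ^ m) ^ 12 - 1‖) := by field_simp; ring
    _ ≤ 144 * (‖dP m s‖ ^ 2 * hl (s ^ m) ^ 4 / ‖(s ^ m) ^ 12 - 1‖) := by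
        gcongr
        · exact one_le_hl _
        · norm_num
    _ = _ := by field_simp

lemma nu_le_upgrade (hs : s ^ (12 * m) ≠ 1) :
    nu m s ≤ 10000000 * (om m s + gU m s) := by
  have hT := hl_pos (s ^ m)
  have h12 : (s ^ m) ^ 12 ≠ 1 := by rwa [← pow_mul, mul_comm]
  have hQ : 0 < ‖(s ^ m) ^ 12 - 1‖ := norm_pos_iff.2 (sub_ne_zero.2 h12)
  rw [gU, nu, om_eq]
  calc ‖dP m s‖ ^ 2 / hl (s ^ m) ^ 2 * (hl (s ^ m) ^ 6 / ‖(s ^ m) ^ 12 - 1‖)
      = ‖dP m s‖ ^ 2 * (hl (s ^ m) ^ 4 / ‖(s ^ m) ^ 12 - 1‖) := by field_simp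
    _ ≤ ‖dP m s‖ ^ 2 * (10000000 * (1 / hl (s ^ m) ^ 2 +
          36 * ‖(s ^ m) ^ 11 + conj (s ^ m)‖ ^ 2 /
            (‖(s ^ m) ^ 12 - 1‖ * hl (s ^ m) ^ 8))) := by
        gcongr; exact dens_le _ h12
    _ = _ := by ring

lemma norm_sq_potU (h : OnCurve m s u v) (hs : s ^ (12 * m) ≠ 1) :
    ‖potU m s u v‖ ^ 2 = gU m s * (‖(s ^ m) ^ 12 - 1‖ / hl (s ^ m) ^ 6) := by
  obtain ⟨-, h12, hu, hv, -⟩ := curve_facts h hs
  have hT := hl_pos (s ^ m)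
  have hQ : 0 < ‖(s ^ m) ^ 12 - 1‖ := norm_pos_iff.2 (sub_ne_zero.2 h12)
  have hu' : ‖u‖ ≠ 0 := norm_ne_zero_iff.2 hu
  have hv' : ‖v‖ ≠ 0 := norm_ne_zero_iff.2 hv
  rw [potU, gU]
  simp only [norm_div, norm_mul, norm_pow, Complex.norm_conj, Complex.norm_ofNat,
    Complex.norm_real, Real.norm_eq_abs, abs_of_pos hT]
  field_simp
  ring

end Vale.Agent.P296.An
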