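import Mathlib
import Vale.Agent.P296.Analysis.Quant

/-!
The inequalities at fixed `z`, integrating in `s`.
-/

open scoped ContDiff Topology ComplexOrder
open Complex ComplexConjugate Matrix Set MeasureTheory Filter

noncomputable section

namespace Vale.Agent.P296.An

variable {m : ℕ}

lemma Br.facts {W : Set ℂ} {u v : ℂ → ℂ} (hb : Br m W u v) {x : ℂ} (hx : x ∈ W) :
    DifferentiableAt ℂ u x ∧ DifferentiableAt ℂ v x ∧ u x ≠ 0 ∧ v x ≠ 0 ∧
      CurveAt (x ^ m) (u x) (v x) := by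
  obtain ⟨hc, -, hu, hv, -⟩ := curve_facts (hb.curve x hx) (hb.notR x hx)
  exact ⟨hb.diffU.differentiableAt (hb.isOpen.mem_nhds hx),
    hb.diffV.differentiableAt (hb.isOpen.mem_nhds hx), hu, hv, hc⟩

lemma quad_zero_arg (K : Mat) : quad K 0 = 0 := by simp [quad]

/-- The section `q`. -/
def secQ (m : ℕ) : Sec m where
  φ z s u v := qV (s ^ m) (z ^ m) u v
  dφ _ _ _ _ := 0
  smooth := smV_qV
  smooth_d := SmV.zero
  db z _ _ _ hb _ hx := hasVDB_qV (hb.facts hx).1 (hb.facts hx).2.1 (z ^ m)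

/-- The potential of `q`. -/
def potQ (m : ℕ) : Pot m where
  Ω z s u v := dP m s • omV (s ^ m) (z ^ m) u v
  dΩ z s u v := (om m s : ℂ) • qV (s ^ m) (z ^ m) u v
  smooth := smC_dT.smul' smV_omV
  db z _ _ _ hb _ hx := by
    obtain ⟨h1, h2, h3, h4, -⟩ := hb.facts hx
    exact hasVDB_omV h1 h2 h3 h4 (z ^ m)

variable (D : MetricData m) {B : ℝ}

/-- First step. -/
theorem stepA (hm : 0 < m) (hB : ∀ z s u v, OnCurve m s u v → traceFn m (D.K z s u v) z s u v ≤ B)
    (z : ℂ) :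
    J m (wt (om m) (qa D)) z ≤ 73728 / m * J m (wt (nu m) (qS D)) z := by
  set k : ℝ := hl (z ^ m) ^ 5 with hk
  have hk0 : 0 < k := pow_pos (hl_pos _) 5
  have hm' : (0:ℝ) < m := Nat.cast_pos.2 hm
  have iA : Integrable fun s => shSum m (wt (om m) (qa D) z) s :=
    int_om hm (cf_qa D) fun s u v h => ⟨(q_nonneg D h).1, (q_le D hB h).1⟩
  have iS : Integrable fun s => shSum m (wt (nu m) (qS D) z) s :=
    int_nu hm (cf_qS D) fun s u v h => ⟨(q_le D hB h).2.2.2.2.1, (q_le D hB h).2.2.2.2.2⟩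
  have hqV : ∀ s u v, OnCurve m s u v →
      quad (D.K z s u v) (qV (s ^ m) (z ^ m) u v) ≤ k * B := fun s u v h => by
    rw [quad_qV D]; exact mul_le_mul_of_nonneg_left (q_le D hB h).1 hk0.le
  have hom : ∀ s u v, OnCurve m s u v → s ^ (12 * m) ≠ 1 →
      quad (D.K z s u v) ((potQ m).Ω z s u v) ≤ 73728 * k * (nu m s * qS D z s u v) := by
    intro s u v h hs
    obtain ⟨hc, h12, -, -, -⟩ := curve_facts h hs
    have hT := hl_pos (s ^ m)
    show quad (D.K z s u v) (dP m s • omV (s ^ m) (z ^ m) u v) ≤ _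
    rw [quad_smul]
    calc ‖dP m s‖ ^ 2 * quad (D.K z s u v) (omV (s ^ m) (z ^ m) u v)
        = om m s * (hl (s ^ m) ^ 2 * quad (D.K z s u v) (omV (s ^ m) (z ^ m) u v)) := by
          rw [om_eq]; field_simp
      _ ≤ om m s * (73728 * (hl (s ^ m) ^ 6 / ‖(s ^ m) ^ 12 - 1‖) * hl (z ^ m) ^ 5 *
            qS D z s u v) :=
          mul_le_mul_of_nonneg_left (omV_bound (posSemidef_of D h) hc h12) (om_nonneg m s)
      _ = _ := by rw [nu, hk]; ring
  have key := sStep D hm (secQ m) (potQ m) z (c := 1 / (m : ℝ)) (by positivity) (B' := k * B)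
    (fun s u v h _ => hqV s u v h)
    ⟨73728 * k * B, fun s u v h hs => (hom s u v h hs).trans (by
      calc 73728 * k * (nu m s * qS D z s u v) ≤ 73728 * k * (nu m s * B) :=
            mul_le_mul_of_nonneg_left (mul_le_mul_of_nonneg_left (q_le D hB h).2.2.2.2.2
              (nu_nonneg m s)) (by positivity)
        _ = _ := by ring)⟩
    ⟨0, fun s u v _ _ => by simp [secQ, quad_zero_arg]⟩
    (F := fun z' s u v => k / 2 * wt (om m) (qa D) z' s u v)
    (G := fun z' s u v => 73728 * k / (2 * m) * wt (nu m) (qS D) z' s u v)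
    (by simpa only [shSum, ← Finset.mul_sum] using iA.const_mul (k / 2))
    (by simpa only [shSum, ← Finset.mul_sum] using iS.const_mul (73728 * k / (2 * m)))
    (fun s u v h hs => by
      have h1 := hom s u v h hs
      show k / 2 * (om m s * qa D z s u v) - 73728 * k / (2 * m) * (nu m s * qS D z s u v) ≤
        (sesq (D.K z s u v) ((om m s : ℂ) • qV (s ^ m) (z ^ m) u v) _).re -
          (1 / (m:ℝ) / 2 * quad (D.K z s u v) ((potQ m).Ω z s u v) +
            1 / (2 * (1 / (m:ℝ))) * (quad (D.K z s u v) 0 +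
              om m s / m * quad (D.K z s u v) (qV (s ^ m) (z ^ m) u v)))
      rw [sesq_smul_left, conj_ofReal, show (secQ m).φ z s u v = qV (s ^ m) (z ^ m) u v from rfl,
        sesq_self (posSemidef_of D h).1, re_ofReal_mul, ofReal_re, quad_zero_arg, quad_qV D, ← hk]
      have h2 := mul_le_mul_of_nonneg_left h1 (show (0:ℝ) ≤ 1 / (m:ℝ) / 2 by positivity)
      have e1 : 1 / (2 * (1 / (m:ℝ))) * (0 + om m s / m * (k * qa D z s u v)) =
          k / 2 * (om m s * qa D z s u v) := by field_simp; ring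
      have e2 : 1 / (m:ℝ) / 2 * (73728 * k * (nu m s * qS D z s u v)) =
          73728 * k / (2 * m) * (nu m s * qS D z s u v) := by ring
      rw [e1]
      linarith)
  rw [J_mul, J_mul] at key
  refine le_of_mul_le_mul_left (a := k / 2) ?_ (by positivity)
  refine key.trans_eq ?_
  ring

/-- The potential of the weight upgrade. -/
def potOfU (S : Sec m) : Pot m where
  Ω z s u v := potU m s u v • S.φ z s u v
  dΩ z s u v := ((gU m s - 6 * mU m s : ℝ) : ℂ) • S.φ z s u v + potU m s u v • S.dφ z s u v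
  smooth := smC_potU.smul' S.smooth
  db z W u v hb x hx := by
    obtain ⟨h1, h2, h3, h4, hc⟩ := hb.facts hx
    obtain ⟨du, dv⟩ := hb.deriv_eq hx
    exact HasVDB.smul (hasDB_potU h1 h2 hc h3 h4 du dv) (S.db z W u v hb x hx)

/-- The squared norm of a section. -/
def nsq (φ : VFn) : Fn := fun z s u v => quad (D.K z s u v) (φ z s u v)

/-- The weight upgrade. -/
theorem upgrade (hm : 0 < m) (S : Sec m) (z : ℂ) {B' : ℝ}
    (hφ : ∀ s u v, OnCurve m s u v → quad (D.K z s u v) (S.φ z s u v) ≤ B')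
    (hdφ : Dom m (nsq D S.dφ) z) :
    J m (wt (nu m) (nsq D S.φ)) z ≤
      10000000 * (15 * J m (wt (om m) (nsq D S.φ)) z + 4 * J m (nsq D S.dφ) z) := by
  have hcf : CF m (nsq D S.φ) := CF.quad D S.smooth
  have hH : ∀ s u v, OnCurve m s u v → 0 ≤ nsq D S.φ z s u v ∧ nsq D S.φ z s u v ≤ B' :=
    fun s u v h => ⟨quad_nonneg (posSemidef_of D h) _, hφ s u v h⟩
  have iN := int_nu hm hcf hH
  have iO := int_om hm hcf hH
  have cfG : CF m (wt (gU m) (nsq D S.φ)) := hcf.wt continuousOn_gU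
  have iG : Integrable fun s => shSum m (wt (gU m) (nsq D S.φ) z) s :=
    integrable_sh hm cfG
      (dom_nu (by norm_num) hH _ fun s hs => ⟨gU_nonneg m s, gU_le_nu hs⟩)
  have iD : Integrable fun s => shSum m (nsq D S.dφ z) s :=
    integrable_sh hm (CF.quad D S.smooth_d) hdφ
  have hψ : ∀ s, s ^ (12 * m) ≠ 1 → 0 ≤ ‖(s ^ m) ^ 12 - 1‖ / hl (s ^ m) ^ 6 ∧
      ‖(s ^ m) ^ 12 - 1‖ / hl (s ^ m) ^ 6 ≤ 1 := fun s _ =>
    ⟨div_nonneg (norm_nonneg _) (pow_nonneg (hl_pos _).le 6),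
      (div_le_one (pow_pos (hl_pos _) 6)).2 (norm_T12_le _)⟩
  have hP : ∀ s u v, OnCurve m s u v → s ^ (12 * m) ≠ 1 →
      ‖potU m s u v‖ ^ 2 ≤ gU m s := fun s u v h hs => by
    rw [norm_sq_potU h hs]
    exact mul_le_of_le_one_right (gU_nonneg m s) (hψ s hs).2
  have key := sStep D hm S (potOfU S) z (c := 1 / 2) (by norm_num) (B' := B')
    (fun s u v h _ => hφ s u v h)
    ⟨144 * B', fun s u v h hs => by
      show quad _ (potU m s u v • S.φ z s u v) ≤ _
      rw [quad_smul]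
      calc ‖potU m s u v‖ ^ 2 * quad (D.K z s u v) (S.φ z s u v)
          ≤ 144 * nu m s * B' := mul_le_mul ((hP s u v h hs).trans (gU_le_nu hs)) (hφ s u v h)
            (hH s u v h).1 (mul_nonneg (by norm_num) (nu_nonneg m s))
        _ = _ := by ring⟩
    (by obtain ⟨C, hC⟩ := hdφ
        exact ⟨C, fun s u v h hs => (le_abs_self _).trans (hC s u v h hs)⟩)
    (F := fun z' s u v => 1 / 2 * wt (gU m) (nsq D S.φ) z' s u v)
    (G := fun z' s u v => 7 * wt (om m) (nsq D S.φ) z' s u v + 2 * nsq D S.dφ z' s u v)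
    (by simpa only [shSum, ← Finset.mul_sum] using iG.const_mul (1 / 2))
    (by simpa only [shSum, Finset.sum_add_distrib, ← Finset.mul_sum] using
      (iO.const_mul 7).fun_add (iD.const_mul 2))
    (fun s u v h hs => by
      have hK := posSemidef_of D (z := z) h
      set H := quad (D.K z s u v) (S.φ z s u v) with hHdef
      set Hd := quad (D.K z s u v) (S.dφ z s u v) with hHd
      set P := potU m s u v
      have hH0 : 0 ≤ H := (hH s u v h).1
      have hcross := re_sesq_ge hK (S.dφ z s u v) (conj P • S.φ z s u v) (c := 2) two_pos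
      rw [quad_smul, Complex.norm_conj, ← hHdef, ← hHd, sesq_smul_right] at hcross
      show 1 / 2 * (gU m s * H) - (7 * (om m s * H) + 2 * Hd) ≤
        (sesq (D.K z s u v) (((gU m s - 6 * mU m s : ℝ) : ℂ) • S.φ z s u v + P • S.dφ z s u v)
          (S.φ z s u v)).re - (1 / 2 / 2 * quad (D.K z s u v) (P • S.φ z s u v) +
            1 / (2 * (1 / 2)) * (Hd + om m s / m * H))
      rw [sesq_add_left, sesq_smul_left, sesq_smul_left, conj_ofReal, sesq_self hK.1, ← hHdef,
        Complex.add_re, re_ofReal_mul, ofReal_re, quad_smul, ← hHdef]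
      have hM : mU m s ≤ om m s := by
        have hT := hl_pos (s ^ m)
        rw [om_eq, mU]
        calc ‖dP m s‖ ^ 2 * ‖(s ^ m) ^ 12 - 1‖ / hl (s ^ m) ^ 8
            = ‖dP m s‖ ^ 2 / hl (s ^ m) ^ 2 * (‖(s ^ m) ^ 12 - 1‖ / hl (s ^ m) ^ 6) := by
              field_simp
          _ ≤ _ := mul_le_of_le_one_right (by positivity) (hψ s hs).2
      have h2 : om m s / m ≤ om m s :=
        div_le_self (om_nonneg m s) (by exact_mod_cast hm)
      have h3 := mul_le_mul_of_nonneg_right hM hH0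
      have h4 := mul_le_mul_of_nonneg_right h2 hH0
      have h5 := mul_le_mul_of_nonneg_right (hP s u v h hs) hH0
      norm_num at hcross ⊢
      linarith)
  rw [J_mul, J_add (by simpa only [shSum, ← Finset.mul_sum] using iO.const_mul 7)
    (by simpa only [shSum, ← Finset.mul_sum] using iD.const_mul 2), J_mul, J_mul] at key
  have iS : Integrable fun s =>
      shSum m ((fun z' s u v => wt (om m) (nsq D S.φ) z' s u v + wt (gU m) (nsq D S.φ) z' s u v) z) s
      := by simpa only [shSum, Finset.sum_add_distrib] using iO.fun_add iG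
  have h1 : J m (wt (nu m) (nsq D S.φ)) z ≤ J m (fun z' s u v => 10000000 *
      (wt (om m) (nsq D S.φ) z' s u v + wt (gU m) (nsq D S.φ) z' s u v)) z :=
    J_mono hm iN (by simpa only [shSum, ← Finset.mul_sum] using iS.const_mul 10000000)
      fun s u v h hs => by
        simp only [wt, ← add_mul, ← mul_assoc]
        exact mul_le_mul_of_nonneg_right (nu_le_upgrade hs) (hH s u v h).1
  rw [J_mul, J_add iO iG] at h1
  linarith

/-- First step, upgraded. -/
theorem stepA' (hm : 0 < m)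
    (hB : ∀ z s u v, OnCurve m s u v → traceFn m (D.K z s u v) z s u v ≤ B) (z : ℂ) :
    J m (wt (nu m) (qa D)) z ≤
      150000000 * (73728 / m) * J m (wt (nu m) (qS D)) z := by
  set k : ℝ := hl (z ^ m) ^ 5
  have hk0 : 0 < k := pow_pos (hl_pos _) 5
  have h := upgrade D hm (secQ m) z (B' := k * B)
    (fun s u v h => by
      show quad _ (qV (s ^ m) (z ^ m) u v) ≤ _
      rw [quad_qV D]; exact mul_le_mul_of_nonneg_left (q_le D hB h).1 hk0.le)
    ⟨0, fun s u v _ _ => by simp [nsq, secQ, quad_zero_arg]⟩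
  have e : ∀ w : ℂ → ℝ, J m (wt w (nsq D (secQ m).φ)) z = k * J m (wt w (qa D)) z := fun w => by
    rw [← J_mul]
    refine J_congr hm fun s u v _ _ => ?_
    show w s * quad _ (qV (s ^ m) (z ^ m) u v) = k * (w s * qa D z s u v)
    rw [quad_qV D]; ring
  have e0 : J m (nsq D (secQ m).dφ) z = 0 := by
    simp [J, shSum, nsq, secQ, quad_zero_arg]
  rw [e, e, e0] at h
  have h1 := stepA D hm hB z
  refine le_of_mul_le_mul_left (a := k) ?_ hk0
  linarith [mul_le_mul_of_nonneg_left h1 hk0.le]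

/-- `T^k W`. -/
def secW (m k : ℕ) : Sec m where
  φ _ s u v := (s ^ m) ^ k • wW u v
  dφ _ s u v := (s ^ m) ^ k • dW m s u v
  smooth := (smC_T.pow k).smul' smV_wW
  smooth_d := (smC_T.pow k).smul' smV_dW
  db z W u v hb x hx := by
    obtain ⟨h1, h2, h3, h4, hc⟩ := hb.facts hx
    obtain ⟨du, dv⟩ := hb.deriv_eq hx
    exact (HasVDB.smul (HasDB.holo (by fun_prop)) (hasVDB_wW h1 h2 hc h3 h4 du dv)).cast
      (by simp)

/-- The potential of `W`. -/
def potW0 (m : ℕ) : Pot m where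
  Ω _ s u v := (dP m s * th (s ^ m)) • wW u v
  dΩ _ s u v := (om m s : ℂ) • wW u v + (dP m s * th (s ^ m)) • dW m s u v
  smooth := (smC_dT.mul smC_T.th).smul' smV_wW
  db z W u v hb x hx := by
    obtain ⟨h1, h2, h3, h4, hc⟩ := hb.facts hx
    obtain ⟨du, dv⟩ := hb.deriv_eq hx
    have hd : HasDB (dP m) x 0 := HasDB.holo (by unfold dP; fun_prop)
    refine (HasVDB.smul (hd.mul (hasDB_th (diff_powm m x)))
      (hasVDB_wW h1 h2 hc h3 h4 du dv)).cast ?_
    rw [deriv_powm, om_cast]; congr 2; ring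

/-- The potential of `T W`. -/
def potW1 (m : ℕ) : Pot m where
  Ω _ s u v := (-(dP m s / (hl (s ^ m) : ℂ))) • wW u v
  dΩ _ s u v := ((om m s : ℂ) * s ^ m) • wW u v + (-(dP m s / (hl (s ^ m) : ℂ))) • dW m s u v
  smooth := (smC_dT.div smC_T.hl fun _ _ _ _ _ _ => by
    exact_mod_cast (hl_pos _).ne').neg.smul' smV_wW
  db z W u v hb x hx := by
    obtain ⟨h1, h2, h3, h4, hc⟩ := hb.facts hx
    obtain ⟨du, dv⟩ := hb.deriv_eq hx
    have hd : HasDB (dP m) x 0 := HasDB.holo (by unfold dP; fun_prop)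
    refine (HasVDB.smul ((hd.div (hasDB_hl (diff_powm m x))
      (by exact_mod_cast (hl_pos _).ne')).neg) (hasVDB_wW h1 h2 hc h3 h4 du dv)).cast ?_
    rw [deriv_powm, om_cast]; congr 2; ring

lemma quad_dW_le {z s u v : ℂ} (h : OnCurve m s u v) (hs : s ^ (12 * m) ≠ 1) :
    quad (D.K z s u v) (dW m s u v) * hl (s ^ m) ≤ 9216 * (nu m s * qb D z s u v) := by
  obtain ⟨hc, h12, hu, hv, hN⟩ := curve_facts h hs
  have hT := hl_pos (s ^ m)
  have hQ : 0 < ‖(s ^ m) ^ 12 - 1‖ := norm_pos_iff.2 (sub_ne_zero.2 h12)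
  have hb := (q_nonneg D (z := z) h).2.1
  rw [dW, quad_smul, quad_vV D, norm_div, Complex.norm_conj, norm_div, norm_mul, norm_mul,
    norm_mul, norm_neg, Complex.norm_ofNat, norm_pow, norm_pow ((nN u v : ℝ) : ℂ),
    Complex.norm_real, Real.norm_eq_abs, abs_of_pos hN]
  have h10 : (‖s ^ m‖ ^ 5) ^ 2 ≤ hl (s ^ m) ^ 5 := by
    rw [← pow_mul, mul_comm, pow_mul]
    exact pow_le_pow_left₀ (sq_nonneg _) (le_add_of_nonneg_left zero_le_one) 5
  have h12' : hl (s ^ m) ^ 12 ≤ 256 * nN u v ^ 4 := by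
    calc hl (s ^ m) ^ 12 = (hl (s ^ m) ^ 3) ^ 4 := by ring
      _ ≤ (4 * nN u v) ^ 4 := pow_le_pow_left₀ (by positivity) hc.nN_ge.2.2 4
      _ = _ := by ring
  have h16 : hl (s ^ m) ^ 1 ≤ hl (s ^ m) ^ 6 := pow_le_pow_right₀ (one_le_hl _) (by norm_num)
  rw [nu, om_eq]
  calc (6 * ‖s ^ m‖ ^ 5 * ‖dP m s‖ / (‖u‖ * ‖v‖) / nN u v ^ 2) ^ 2 *
        (hl (s ^ m) ^ 5 * qb D z s u v) * hl (s ^ m)
      = 36 * (‖s ^ m‖ ^ 5) ^ 2 * ‖dP m s‖ ^ 2 / (‖(s ^ m) ^ 12 - 1‖ * nN u v ^ 4) *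
          (hl (s ^ m) ^ 5 * qb D z s u v) * hl (s ^ m) := by
        rw [← hc.norm_mul_sq]; ring
    _ ≤ 36 * hl (s ^ m) ^ 5 * ‖dP m s‖ ^ 2 /
          (‖(s ^ m) ^ 12 - 1‖ * (hl (s ^ m) ^ 12 / 256)) *
          (hl (s ^ m) ^ 5 * qb D z s u v) * hl (s ^ m) := by
        gcongr
        linarith
    _ = 9216 * (‖dP m s‖ ^ 2 / hl (s ^ m) ^ 2 *
          (hl (s ^ m) ^ 1 / ‖(s ^ m) ^ 12 - 1‖) * qb D z s u v) := by field_simp; ring
    _ ≤ 9216 * (‖dP m s‖ ^ 2 / hl (s ^ m) ^ 2 *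
          (hl (s ^ m) ^ 6 / ‖(s ^ m) ^ 12 - 1‖) * qb D z s u v) := by gcongr
    _ = _ := by ring

/-- The pointwise inequality behind the third step. -/
lemma ptW {K : Mat} (hK : K.PosSemidef) (W dWv : Vec) (p γ : ℂ) {o g2 δ : ℝ}
    (hγ : ‖γ‖ ^ 2 = g2) (hδ : δ ≤ o / 4) :
    o * (3 / 4 * ‖p‖ ^ 2 * quad K W) - 1 / 16 * g2 * ‖p‖ ^ 2 * quad K W -
        1 / 4 * g2 * quad K W - (4 + ‖p‖ ^ 2) * quad K dWv ≤
      (sesq K (((o : ℂ) * p) • W + γ • dWv) (p • W)).re -
        (1 / 2 / 2 * quad K (γ • W) +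
          1 / (2 * (1 / 2)) * (quad K (p • dWv) + δ * quad K (p • W))) := by
  subst hγ
  have hc := re_sesq_ge hK dWv (conj γ • p • W) (c := 8) (by norm_num)
  rw [quad_smul, quad_smul, Complex.norm_conj] at hc
  rw [sesq_smul_right] at hc
  rw [sesq_add_left, Complex.add_re, mul_smul, sesq_smul_left, sesq_smul_left _ γ, conj_ofReal,
    sesq_self hK.1, re_ofReal_mul, ofReal_re, quad_smul, quad_smul, quad_smul]
  have h4 : δ * (‖p‖ ^ 2 * quad K W) ≤ o / 4 * (‖p‖ ^ 2 * quad K W) :=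
    mul_le_mul_of_nonneg_right hδ (mul_nonneg (sq_nonneg _) (quad_nonneg hK W))
  norm_num at hc ⊢
  linarith

/-- Third step. -/
theorem stepW (hm : 4 ≤ m) (hB : ∀ z s u v, OnCurve m s u v → traceFn m (D.K z s u v) z s u v ≤ B)
    (z : ℂ) :
    J m (wt (om m) (qw D)) z ≤ 245760 * J m (wt (nu m) (qb D)) z := by
  have hm0 : 0 < m := by omega
  have iB : Integrable fun s => shSum m (wt (nu m) (qb D) z) s :=
    int_nu hm0 (cf_qb D) fun s u v h => ⟨(q_nonneg D h).2.1, (q_le D hB h).2.1⟩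
  have iW : Integrable fun s => shSum m (wt (om m) (qw D) z) s :=
    int_om hm0 (cf_qw D) fun s u v h => ⟨(q_nonneg D h).2.2.1, (q_le D hB h).2.2.1⟩
  have hWle : ∀ s u v, OnCurve m s u v → 0 ≤ quad (D.K z s u v) (wW u v) ∧
      quad (D.K z s u v) (wW u v) ≤ B ∧
      ‖s ^ m‖ ^ 2 * quad (D.K z s u v) (wW u v) ≤ B := fun s u v h => by
    have h0 := quad_nonneg (posSemidef_of D (z := z) h) (wW u v)
    have h1 := (q_le D (z := z) hB h).2.2.1
    rw [← quad_wW D, hl] at h1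
    have := mul_nonneg h0 (sq_nonneg ‖s ^ m‖)
    exact ⟨h0, by linarith, by linarith⟩
  have hδ : ∀ s, om m s / m ≤ om m s / 4 := fun s =>
    div_le_div_of_nonneg_left (om_nonneg m s) four_pos (by exact_mod_cast hm)
  have hdW : ∀ k, k ≤ 1 → ∀ s u v, OnCurve m s u v → s ^ (12 * m) ≠ 1 →
      (4 + ‖(s ^ m) ^ k‖ ^ 2) * quad (D.K z s u v) (dW m s u v) ≤
        46080 * (nu m s * qb D z s u v) ∧
      ‖(s ^ m) ^ k‖ ^ 2 * quad (D.K z s u v) (dW m s u v) ≤ 9216 * (nu m s * B) := by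
    intro k hk s u v h hs
    have h1 := quad_dW_le D (z := z) h hs
    have h0 := quad_nonneg (posSemidef_of D (z := z) h) (dW m s u v)
    have hp : ‖(s ^ m) ^ k‖ ^ 2 ≤ hl (s ^ m) := by
      rcases Nat.le_one_iff_eq_zero_or_eq_one.1 hk with rfl | rfl <;> simp [hl]
    have h2 := mul_le_mul_of_nonneg_right hp h0
    have h3 := mul_le_mul_of_nonneg_right (one_le_hl (s ^ m)) h0
    have h4 := mul_le_mul_of_nonneg_left (q_le D (z := z) hB h).2.1 (nu_nonneg m s)
    constructor <;> linarith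
  have hdom : ∀ k, k ≤ 1 → ∀ s u v, OnCurve m s u v → s ^ (12 * m) ≠ 1 →
      quad (D.K z s u v) ((secW m k).dφ z s u v) ≤ 9216 * B * nu m s := by
    intro k hk s u v h hs
    show quad _ ((s ^ m) ^ k • dW m s u v) ≤ _
    rw [quad_smul]
    linarith [(hdW k hk s u v h hs).2]
  have hγ0 : ∀ s, ‖dP m s * th (s ^ m)‖ ^ 2 = om m s * ‖s ^ m‖ ^ 2 := fun s => by
    rw [norm_mul, mul_pow, norm_sq_th, om_eq]; ring
  have hγ1 : ∀ s, ‖-(dP m s / (hl (s ^ m) : ℂ))‖ ^ 2 = om m s := fun s => by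
    rw [norm_neg, norm_div, div_pow, Complex.norm_real, Real.norm_eq_abs, sq_abs, om_eq]
  -- integrability of the two left hand sides
  let F0 : Fn := fun z s u v => wt (om m)
    (fun z s u v => (3 / 4 - 5 / 16 * ‖s ^ m‖ ^ 2) * quad (D.K z s u v) (wW u v)) z s u v
  let F1 : Fn := fun z s u v => wt (om m)
    (fun z s u v => (11 / 16 * ‖s ^ m‖ ^ 2 - 1 / 4) * quad (D.K z s u v) (wW u v)) z s u v
  have iF : ∀ a b : ℝ, |a| ≤ 1 → |b| ≤ 1 → Integrable fun s => shSum m (wt (om m)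
      (fun z s u v => (a + b * ‖s ^ m‖ ^ 2) * quad (D.K z s u v) (wW u v)) z) s := by
    intro a b ha hb
    refine integrable_sh hm0 (cf_om_wt ((CF.of_continuous
      (h := fun _ s => a + b * ‖s ^ m‖ ^ 2) (by fun_prop)).mul (CF.quad D smV_wW)))
      ⟨B, fun s u v h hs => ?_⟩
    obtain ⟨h0, -, -⟩ := hWle s u v h
    have h1 := (q_le D (z := z) hB h).2.2.1
    rw [← quad_wW D, hl] at h1
    rw [wt, abs_mul, abs_mul, abs_of_nonneg h0, abs_of_nonneg (om_nonneg m s)]
    have h2 : |a + b * ‖s ^ m‖ ^ 2| ≤ 1 + ‖s ^ m‖ ^ 2 := by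
      refine (abs_add_le _ _).trans (add_le_add ha ?_)
      rw [abs_mul, abs_of_nonneg (sq_nonneg ‖s ^ m‖)]
      exact mul_le_of_le_one_left (sq_nonneg _) hb
    calc om m s * (|a + b * ‖s ^ m‖ ^ 2| * quad (D.K z s u v) (wW u v))
        ≤ nu m s * B := mul_le_mul (om_le_nu hs)
          (le_trans (mul_le_mul_of_nonneg_right h2 h0) (by linarith))
          (mul_nonneg (abs_nonneg _) h0) (nu_nonneg m s)
      _ = _ := mul_comm _ _
  have iF0 : Integrable fun s => shSum m (F0 z) s := by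
    simpa [F0, sub_eq_add_neg, neg_mul] using iF (3 / 4) (-(5 / 16)) (by norm_num [abs_of_pos])
      (by norm_num [abs_of_pos])
  have iF1 : Integrable fun s => shSum m (F1 z) s := by
    simpa [F1, sub_eq_neg_add, neg_mul] using iF (-(1 / 4)) (11 / 16) (by norm_num [abs_of_pos])
      (by norm_num [abs_of_pos])
  have iG : Integrable fun s => shSum m ((fun z s u v => 46080 * wt (nu m) (qb D) z s u v) z) s :=
    by simpa only [shSum, ← Finset.mul_sum] using iB.const_mul 46080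
  have k0 := sStep D hm0 (secW m 0) (potW0 m) z (c := 1 / 2) (by norm_num) (B' := B)
    (fun s u v h _ => by simpa [secW] using (hWle s u v h).2.1)
    ⟨B, fun s u v h hs => by
      show quad _ ((dP m s * th (s ^ m)) • wW u v) ≤ _
      rw [quad_smul, hγ0, mul_comm B, mul_assoc]
      exact mul_le_mul (om_le_nu hs) (hWle s u v h).2.2
        (mul_nonneg (sq_nonneg _) (hWle s u v h).1) (nu_nonneg m s)⟩
    ⟨_, hdom 0 zero_le_one⟩ (G := fun z s u v => 46080 * wt (nu m) (qb D) z s u v) iF0 iG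
    (fun s u v h hs => by
      have h' := ptW (posSemidef_of D (z := z) h) (wW u v) (dW m s u v) ((s ^ m) ^ 0)
        (dP m s * th (s ^ m)) (hγ0 s) (hδ s)
      have h5 := (hdW 0 zero_le_one s u v h hs).1
      simp only [pow_zero, norm_one, one_pow, one_smul, mul_one] at h' h5
      simp only [F0, wt, secW, potW0, pow_zero, one_smul]
      linarith)
  have k1 := sStep D hm0 (secW m 1) (potW1 m) z (c := 1 / 2) (by norm_num) (B' := B)
    (fun s u v h _ => by simpa [secW, quad_smul] using (hWle s u v h).2.2)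
    ⟨B, fun s u v h hs => by
      show quad _ ((-(dP m s / (hl (s ^ m) : ℂ))) • wW u v) ≤ _
      rw [quad_smul, hγ1, mul_comm B]
      exact mul_le_mul (om_le_nu hs) (hWle s u v h).2.1 (hWle s u v h).1 (nu_nonneg m s)⟩
    ⟨_, hdom 1 le_rfl⟩ (G := fun z s u v => 46080 * wt (nu m) (qb D) z s u v) iF1 iG
    (fun s u v h hs => by
      have h' := ptW (posSemidef_of D (z := z) h) (wW u v) (dW m s u v) ((s ^ m) ^ 1)
        (-(dP m s / (hl (s ^ m) : ℂ))) (hγ1 s) (hδ s)
      have h5 := (hdW 1 le_rfl s u v h hs).1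
      simp only [pow_one] at h' h5
      simp only [F1, wt, secW, potW1, pow_one]
      linarith)
  rw [J_mul] at k0 k1
  have h3 : J m (fun z s u v => 3 / 8 * wt (om m) (qw D) z s u v) z ≤ J m F0 z + J m F1 z := by
    rw [← J_add iF0 iF1]
    refine J_mono hm0 (by simpa only [shSum, ← Finset.mul_sum] using iW.const_mul (3 / 8))
      (by simpa only [shSum, Finset.sum_add_distrib] using iF0.fun_add iF1)
      fun s u v h hs => ?_
    have h0 := mul_nonneg (om_nonneg m s) (hWle s u v h).1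
    simp only [F0, F1, wt, ← quad_wW D, hl]
    linarith
  rw [J_mul] at h3
  linarith

/-- Third step, upgraded. -/
theorem stepW' (hm : 4 ≤ m) (hB : ∀ z s u v, OnCurve m s u v → traceFn m (D.K z s u v) z s u v ≤ B)
    (z : ℂ) :
    J m (wt (nu m) (qw D)) z ≤
      10000000 * (15 * 245760 + 4 * 9216) * J m (wt (nu m) (qb D)) z := by
  have hm0 : 0 < m := by omega
  have hw : ∀ k, k ≤ 1 → ∀ s u v, OnCurve m s u v →
      0 ≤ quad (D.K z s u v) ((secW m k).φ z s u v) ∧
      quad (D.K z s u v) ((secW m k).φ z s u v) ≤ B := by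
    intro k hk s u v h
    refine ⟨quad_nonneg (posSemidef_of D h) _, ?_⟩
    have h1 := (q_le D (z := z) hB h).2.2.1
    rw [← quad_wW D, hl] at h1
    have h0 := quad_nonneg (posSemidef_of D (z := z) h) (wW u v)
    have h2 := mul_nonneg h0 (sq_nonneg ‖s ^ m‖)
    show quad _ ((s ^ m) ^ k • wW u v) ≤ B
    rw [quad_smul]
    rcases Nat.le_one_iff_eq_zero_or_eq_one.1 hk with rfl | rfl <;> simp <;>
      simp only [norm_pow] at * <;> linarith
  have hd : ∀ k, k ≤ 1 → Dom m (nsq D (secW m k).dφ) z := by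
    intro k hk
    refine ⟨9216 * B, fun s u v h hs => ?_⟩
    have h0 := quad_nonneg (posSemidef_of D (z := z) h) (dW m s u v)
    have hp : ‖(s ^ m) ^ k‖ ^ 2 ≤ hl (s ^ m) := by
      rcases Nat.le_one_iff_eq_zero_or_eq_one.1 hk with rfl | rfl <;> simp [hl]
    show |quad _ ((s ^ m) ^ k • dW m s u v)| ≤ _
    rw [quad_smul, abs_of_nonneg (mul_nonneg (sq_nonneg _) h0)]
    have := mul_le_mul_of_nonneg_left (q_le D (z := z) hB h).2.1 (nu_nonneg m s)
    linarith [mul_le_mul_of_nonneg_right hp h0, quad_dW_le D (z := z) h hs]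
  have u0 := upgrade D hm0 (secW m 0) z (fun s u v h => (hw 0 zero_le_one s u v h).2)
    (hd 0 zero_le_one)
  have u1 := upgrade D hm0 (secW m 1) z (fun s u v h => (hw 1 le_rfl s u v h).2) (hd 1 le_rfl)
  have esum : ∀ w : ℂ → ℝ, Integrable (fun s => shSum m (wt w (nsq D (secW m 0).φ) z) s) →
      Integrable (fun s => shSum m (wt w (nsq D (secW m 1).φ) z) s) →
      J m (wt w (nsq D (secW m 0).φ)) z + J m (wt w (nsq D (secW m 1).φ)) z =
        J m (wt w (qw D)) z := by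
    intro w h0 h1
    rw [← J_add h0 h1]
    refine J_congr hm0 fun s u v _ _ => ?_
    simp only [wt, nsq, secW, pow_zero, one_smul, pow_one, quad_smul, ← quad_wW D, hl]
    ring
  have iN : ∀ k, k ≤ 1 → Integrable fun s => shSum m (wt (nu m) (nsq D (secW m k).φ) z) s :=
    fun k hk => int_nu hm0 (CF.quad D (secW m k).smooth) (hw k hk)
  have iO : ∀ k, k ≤ 1 → Integrable fun s => shSum m (wt (om m) (nsq D (secW m k).φ) z) s :=
    fun k hk => int_om hm0 (CF.quad D (secW m k).smooth) (hw k hk)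
  have iD : ∀ k, k ≤ 1 → Integrable fun s => shSum m (nsq D (secW m k).dφ z) s :=
    fun k hk => integrable_sh hm0 (CF.quad D (secW m k).smooth_d) (hd k hk)
  have iB : Integrable fun s => shSum m (wt (nu m) (qb D) z) s :=
    int_nu hm0 (cf_qb D) fun s u v h => ⟨(q_nonneg D h).2.1, (q_le D hB h).2.1⟩
  have hsum : J m (nsq D (secW m 0).dφ) z + J m (nsq D (secW m 1).dφ) z ≤
      9216 * J m (wt (nu m) (qb D)) z := by
    rw [← J_add (iD 0 zero_le_one) (iD 1 le_rfl), ← J_mul]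
    refine J_mono hm0
      (by simpa only [shSum, Finset.sum_add_distrib] using (iD 0 zero_le_one).fun_add (iD 1 le_rfl))
      (by simpa only [shSum, ← Finset.mul_sum] using iB.const_mul 9216) fun s u v h hs => ?_
    have h1 := quad_dW_le D (z := z) h hs
    simp only [nsq, secW, pow_zero, one_smul, pow_one, quad_smul, wt]
    rw [hl] at h1
    linarith
  have e1 := esum (nu m) (iN 0 zero_le_one) (iN 1 le_rfl)
  have e2 := esum (om m) (iO 0 zero_le_one) (iO 1 le_rfl)
  have h3 := stepW D hm hB z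
  linarith

end Vale.Agent.P296.An
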