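import Mathlib
import Vale.Agent.P296.Analysis.StepsS

/-!
The inequalities at fixed `s`, integrating in `z`.
-/

open scoped ContDiff Topology ComplexOrder
open Complex ComplexConjugate Matrix Set MeasureTheory Filter

noncomputable section

namespace Vale.Agent.P296.An

variable {m : ℕ} (D : MetricData m) {B : ℝ} {s u v : ℂ}

lemma intZ (hm : 0 < m) {F : Fn} {C : ℝ} (hF : CF m F) (hcu : OnCurve m s u v)
    (hs : s ^ (12 * m) ≠ 1) (h : ∀ z, 0 ≤ F z s u v ∧ F z s u v ≤ C) :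
    Integrable fun z => om m z * F z s u v :=
  integrable_z hm (continuous_om.mul (hF.sliceZ hcu hs)) ⟨C, fun z => by
    rw [abs_of_nonneg (mul_nonneg (om_nonneg m z) (h z).1), mul_comm C]
    exact mul_le_mul_of_nonneg_left (h z).2 (om_nonneg m z)⟩

/-- Second step. -/
theorem stepB (hm : 0 < m) (hB : ∀ z s u v, OnCurve m s u v → traceFn m (D.K z s u v) z s u v ≤ B)
    (hcu : OnCurve m s u v) (hs : s ^ (12 * m) ≠ 1) :
    ∫ z, om m z * qb D z s u v ≤
      72 * (∫ z, om m z * qa D z s u v) + 2 / m * ∫ z, om m z * qg D z s u v := by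
  set L : ℝ := hl (s ^ m) ^ 5 with hL
  have hL0 : 0 < L := pow_pos (hl_pos _) 5
  have hm' : (0:ℝ) < m := Nat.cast_pos.2 hm
  have ia := intZ hm (cf_qa D) hcu hs fun z => ⟨(q_nonneg D hcu).1, (q_le D (z := z) hB hcu).1⟩
  have ib := intZ hm (cf_qb D) hcu hs fun z => ⟨(q_nonneg D hcu).2.1, (q_le D (z := z) hB hcu).2.1⟩
  have ig := intZ hm (cf_qg D) hcu hs
    fun z => ⟨(q_nonneg D hcu).2.2.2, (q_le D (z := z) hB hcu).2.2.2.1⟩
  let φ : VFn := fun _ _ u v => vV u v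
  let Ω : VFn := fun z s u v => (-(dP m z * rh (z ^ m) (s ^ m))) • gV (s ^ m) (z ^ m) u v
  let dΩ : VFn := fun z s u v => (om m z : ℂ) •
    (vV u v + (-6 * rh (z ^ m) (s ^ m) ^ 5) • qV (s ^ m) (z ^ m) u v)
  have dbΩ : ∀ z, HasVDB (fun y => Ω y s u v) z (dΩ z s u v) := by
    intro z
    have hd : HasDB (dP m) z 0 := HasDB.holo (by unfold dP; fun_prop)
    refine (HasVDB.smul ((hd.mul (hasDB_rh (diff_powm m z) (s ^ m))).neg)
      (hasVDB_gV m z (s ^ m) u v)).cast ?_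
    simp only [dΩ]
    rw [smul_smul,
      show -(0 * rh (z ^ m) (s ^ m) + dP m z * ((s ^ m - z ^ m) *
          conj (deriv (fun y : ℂ => y ^ m) z) / (hl (z ^ m) : ℂ) ^ 2)) =
        -(om m z : ℂ) * (s ^ m - z ^ m) by rw [deriv_powm, om_cast]; ring,
      show -(dP m z * rh (z ^ m) (s ^ m)) * (5 * rh (z ^ m) (s ^ m) ^ 4 * conj (dP m z) /
          (hl (z ^ m) : ℂ) ^ 2) = -5 * (om m z : ℂ) * rh (z ^ m) (s ^ m) ^ 5 by
        rw [om_cast]; ring,
      mul_smul (-(om m z : ℂ)), sub_smul_gV]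
    module
  have hom : ∀ z, quad (D.K z s u v) (Ω z s u v) ≤ L * (om m z * qg D z s u v) := by
    intro z
    have hg := quad_gV D (z := z) (s := s) (u := u) (v := v)
    have hZ := hl_pos (z ^ m)
    have h0 := quad_nonneg (posSemidef_of D (z := z) hcu) (gV (s ^ m) (z ^ m) u v)
    simp only [Ω, quad_smul, norm_neg, norm_mul, mul_pow]
    calc ‖dP m z‖ ^ 2 * ‖rh (z ^ m) (s ^ m)‖ ^ 2 *
          quad (D.K z s u v) (gV (s ^ m) (z ^ m) u v)
        ≤ ‖dP m z‖ ^ 2 * (hl (s ^ m) / hl (z ^ m)) *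
            quad (D.K z s u v) (gV (s ^ m) (z ^ m) u v) := by
          gcongr; exact norm_sq_rh_le _ _
      _ = ‖dP m z‖ ^ 2 / hl (z ^ m) ^ 2 * hl (s ^ m) *
            (hl (z ^ m) * quad (D.K z s u v) (gV (s ^ m) (z ^ m) u v)) := by field_simp
      _ = _ := by rw [hg, ← om_eq, hL]; ring
  have key := zStep D hm hcu hs (φ := φ) (Ω := Ω) (dφ := fun _ _ _ _ => 0) (dΩ := dΩ)
    smV_vV ((smC_dZ.mul (smC_Z.rh smC_T)).neg.smul' smV_gV) SmV.zero
    (fun _ => HasVDB.const _) dbΩ (c := 2 / (m : ℝ)) (by positivity) (B' := L * B)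
    (fun z => by
      show quad _ (vV u v) ≤ _
      rw [quad_vV D]; exact mul_le_mul_of_nonneg_left (q_le D hB hcu).2.1 hL0.le)
    ⟨L * B, fun z => (hom z).trans (by
      rw [mul_assoc, mul_comm B]
      gcongr
      · exact om_nonneg m z
      · exact (q_le D hB hcu).2.2.2.1)⟩
    ⟨0, fun z => by simp [quad_zero_arg]⟩
    (f := fun z => L / 2 * (om m z * qb D z s u v))
    (g := fun z => 36 * L * (om m z * qa D z s u v) + L / m * (om m z * qg D z s u v))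
    (ib.const_mul _) ((ia.const_mul _).add (ig.const_mul _))
    (fun z => by
      have hK := posSemidef_of D (z := z) hcu
      have h1 := mul_le_mul_of_nonneg_left (hom z) (show (0:ℝ) ≤ 2 / m / 2 by positivity)
      have hr : (‖rh (z ^ m) (s ^ m)‖ ^ 5) ^ 2 * hl (z ^ m) ^ 5 ≤ L := by
        have hZ := hl_pos (z ^ m)
        rw [← norm_pow]
        calc ‖rh (z ^ m) (s ^ m) ^ 5‖ ^ 2 * hl (z ^ m) ^ 5
            ≤ (hl (s ^ m) / hl (z ^ m)) ^ 5 * hl (z ^ m) ^ 5 := by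
              gcongr; exact pow_norm_rh_le _ _ 5
          _ = _ := by rw [hL]; field_simp
      have hc := re_sesq_ge hK ((-6 * rh (z ^ m) (s ^ m) ^ 5) • qV (s ^ m) (z ^ m) u v) (vV u v)
        (c := 2) two_pos
      rw [quad_smul, norm_mul, norm_neg, Complex.norm_ofNat, norm_pow, mul_pow, quad_qV D,
        quad_vV D, ← hL] at hc
      have h2 := mul_le_mul_of_nonneg_left hc (om_nonneg m z)
      have h3 := mul_le_mul_of_nonneg_right hr
        (mul_nonneg (om_nonneg m z) (q_nonneg D (z := z) hcu).1)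
      have e1 : 1 / (2 * (2 / (m:ℝ))) * (0 + om m z / m * (L * qb D z s u v)) =
          L / 4 * (om m z * qb D z s u v) := by field_simp; ring
      have e2 : 2 / (m:ℝ) / 2 * (L * (om m z * qg D z s u v)) =
          L / m * (om m z * qg D z s u v) := by ring
      simp only [φ, dΩ]
      rw [sesq_smul_left, conj_ofReal, re_ofReal_mul, sesq_add_left, Complex.add_re,
        sesq_self hK.1, ofReal_re, quad_zero_arg, quad_vV D, ← hL, e1]
      linarith)
  rw [integral_const_mul, integral_add (ia.const_mul _) (ig.const_mul _), integral_const_mul,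
    integral_const_mul] at key
  refine le_of_mul_le_mul_left (a := L / 2) (key.trans_eq ?_) (by positivity)
  ring

lemma psi_gV_le {z : ℂ} (hcu : OnCurve m s u v) :
    ‖z ^ m - s ^ m‖ ^ 2 / (hl (z ^ m) * hl (s ^ m)) *
        (hl (z ^ m) * quad (D.K z s u v) (gV (s ^ m) (z ^ m) u v)) ≤
      2 * hl (s ^ m) ^ 4 * (qa D z s u v + qb D z s u v) := by
  have hK := posSemidef_of D (z := z) hcu
  have hZ := hl_pos (z ^ m)
  have hT := hl_pos (s ^ m)
  have h1 : ‖s ^ m - z ^ m‖ ^ 2 * quad (D.K z s u v) (gV (s ^ m) (z ^ m) u v) ≤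
      2 * (‖rh (z ^ m) (s ^ m) ^ 5‖ ^ 2 * quad (D.K z s u v) (qV (s ^ m) (z ^ m) u v)) +
      2 * quad (D.K z s u v) (vV u v) := by
    rw [← quad_smul, sub_smul_gV]
    refine (quad_sub_le hK _ _).trans_eq ?_
    rw [quad_smul]
  have h2 : ‖rh (z ^ m) (s ^ m) ^ 5‖ ^ 2 * (hl (z ^ m) ^ 5 * qa D z s u v) ≤
      hl (s ^ m) ^ 5 * qa D z s u v := by
    calc ‖rh (z ^ m) (s ^ m) ^ 5‖ ^ 2 * (hl (z ^ m) ^ 5 * qa D z s u v)
        ≤ (hl (s ^ m) / hl (z ^ m)) ^ 5 * (hl (z ^ m) ^ 5 * qa D z s u v) :=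
          mul_le_mul_of_nonneg_right (pow_norm_rh_le _ _ 5)
            (mul_nonneg (by positivity) (q_nonneg D hcu).1)
      _ = _ := by field_simp
  rw [quad_qV D, quad_vV D] at h1
  rw [norm_sub_rev]
  calc ‖s ^ m - z ^ m‖ ^ 2 / (hl (z ^ m) * hl (s ^ m)) *
        (hl (z ^ m) * quad (D.K z s u v) (gV (s ^ m) (z ^ m) u v))
      = ‖s ^ m - z ^ m‖ ^ 2 * quad (D.K z s u v) (gV (s ^ m) (z ^ m) u v) / hl (s ^ m) := by
        field_simp
    _ ≤ (2 * hl (s ^ m) ^ 5 * (qa D z s u v + qb D z s u v)) / hl (s ^ m) :=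
        div_le_div_of_nonneg_right (by linarith) hT.le
    _ = _ := by field_simp

/-- The coefficient in `∂̄ g`. -/
def coefG (m : ℕ) (T z : ℂ) : ℂ :=
  5 * rh (z ^ m) T ^ 4 * conj (dP m z) / (hl (z ^ m) : ℂ) ^ 2

lemma smC_coefG : SmC m (fun z s _ _ => coefG m (s ^ m) z) :=
  (((SmC.const 5).mul ((smC_Z.rh smC_T).pow 4)).mul smC_dZ.conj).div (smC_Z.hl.pow 2)
    fun _ _ _ _ _ _ => pow_ne_zero 2 (by exact_mod_cast (hl_pos _).ne')

/-- Fourth step. -/
theorem stepG (hm : 0 < m) (hB : ∀ z s u v, OnCurve m s u v → traceFn m (D.K z s u v) z s u v ≤ B)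
    (hcu : OnCurve m s u v) (hs : s ^ (12 * m) ≠ 1) :
    ∫ z, om m z * qg D z s u v ≤
      62 * ((∫ z, om m z * qa D z s u v) + ∫ z, om m z * qb D z s u v) := by
  set L : ℝ := hl (s ^ m) ^ 4 with hL
  have hL0 : 0 < L := pow_pos (hl_pos _) 4
  have ia := intZ hm (cf_qa D) hcu hs fun z => ⟨(q_nonneg D hcu).1, (q_le D (z := z) hB hcu).1⟩
  have ib := intZ hm (cf_qb D) hcu hs fun z => ⟨(q_nonneg D hcu).2.1, (q_le D (z := z) hB hcu).2.1⟩
  have ig := intZ hm (cf_qg D) hcu hs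
    fun z => ⟨(q_nonneg D hcu).2.2.2, (q_le D (z := z) hB hcu).2.2.2.1⟩
  let φ : ℕ → VFn := fun k z s u v => (z ^ m) ^ k • gV (s ^ m) (z ^ m) u v
  let dφ : ℕ → VFn := fun k z s u v =>
    ((z ^ m) ^ k * coefG m (s ^ m) z) • qV (s ^ m) (z ^ m) u v
  let ψ : ℂ → ℝ := fun z => ‖z ^ m - s ^ m‖ ^ 2 / (hl (z ^ m) * hl (s ^ m))
  let H : ℕ → ℂ → ℝ := fun k z => quad (D.K z s u v) (φ k z s u v)
  let Hd : ℕ → ℂ → ℝ := fun k z => quad (D.K z s u v) (dφ k z s u v)
  have smφ : ∀ k, SmV m (φ k) := fun k => (smC_Z.pow k).smul' smV_gV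
  have smdφ : ∀ k, SmV m (dφ k) := fun k => ((smC_Z.pow k).mul smC_coefG).smul' smV_qV
  have dbφ : ∀ k z, HasVDB (fun y => φ k y s u v) z (dφ k z s u v) := fun k z => by
    refine (HasVDB.smul (HasDB.holo (by fun_prop : DifferentiableAt ℂ (fun y : ℂ => (y ^ m) ^ k) z))
      (hasVDB_gV m z (s ^ m) u v)).cast ?_
    simp only [dφ, coefG, zero_smul, zero_add, smul_smul]
  have hψ : ∀ z, 0 ≤ ψ z ∧ ψ z ≤ 1 := fun z => by
    have hp : 0 < hl (z ^ m) * hl (s ^ m) := mul_pos (hl_pos _) (hl_pos _)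
    exact ⟨div_nonneg (sq_nonneg _) hp.le, (div_le_one hp).2 (by
      rw [mul_comm]; exact norm_sq_sub_le _ _)⟩
  have hP : ∀ z, ‖potG m (s ^ m) z‖ ^ 2 ≤ ψ z * om m z := fun z => by
    have hZ := hl_pos (z ^ m)
    have hT := hl_pos (s ^ m)
    simp only [ψ, potG, norm_div, norm_mul, Complex.norm_conj, Complex.norm_real,
      Real.norm_eq_abs, abs_of_pos hZ, abs_of_pos hT]
    rw [om_eq]
    calc (‖dP m z‖ * ‖z ^ m - s ^ m‖ * ‖rh (z ^ m) (s ^ m)‖ / (hl (z ^ m) * hl (s ^ m))) ^ 2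
        = ‖dP m z‖ ^ 2 * ‖z ^ m - s ^ m‖ ^ 2 * ‖rh (z ^ m) (s ^ m)‖ ^ 2 /
            (hl (z ^ m) * hl (s ^ m)) ^ 2 := by ring
      _ ≤ ‖dP m z‖ ^ 2 * ‖z ^ m - s ^ m‖ ^ 2 * (hl (s ^ m) / hl (z ^ m)) /
            (hl (z ^ m) * hl (s ^ m)) ^ 2 := by gcongr; exact norm_sq_rh_le _ _
      _ = _ := by field_simp
  have hk2 : ∀ k, k ≤ 1 → ∀ z, ‖(z ^ m) ^ k‖ ^ 2 ≤ hl (z ^ m) := fun k hk z => by
    rcases Nat.le_one_iff_eq_zero_or_eq_one.1 hk with rfl | rfl <;> simp [hl]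
  have hH : ∀ k, k ≤ 1 → ∀ z, 0 ≤ H k z ∧ H k z ≤ L * B := by
    intro k hk z
    have h0 := quad_nonneg (posSemidef_of D (z := z) hcu) (gV (s ^ m) (z ^ m) u v)
    refine ⟨quad_nonneg (posSemidef_of D hcu) _, ?_⟩
    simp only [H, φ, quad_smul]
    refine (mul_le_mul_of_nonneg_right (hk2 k hk z) h0).trans ?_
    rw [quad_gV D]
    exact mul_le_mul_of_nonneg_left (q_le D hB hcu).2.2.2.1 hL0.le
  have hHd : ∀ z, Hd 0 z + Hd 1 z ≤ 25 * L * (om m z * qa D z s u v) := by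
    intro z
    have hZ := hl_pos (z ^ m)
    have hq := (q_nonneg D (z := z) hcu).1
    simp only [Hd, dφ, coefG, quad_smul, quad_qV D, pow_zero, pow_one, norm_mul, one_mul,
      norm_div, norm_pow, Complex.norm_conj, Complex.norm_ofNat, Complex.norm_real,
      Real.norm_eq_abs, abs_of_pos hZ, mul_pow, one_pow]
    rw [om_eq]
    calc (5 * ‖rh (z ^ m) (s ^ m)‖ ^ 4 * ‖dP m z‖ / hl (z ^ m) ^ 2) ^ 2 *
            (hl (z ^ m) ^ 5 * qa D z s u v) +
          (‖z‖ ^ m) ^ 2 * (5 * ‖rh (z ^ m) (s ^ m)‖ ^ 4 * ‖dP m z‖ / hl (z ^ m) ^ 2) ^ 2 *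
            (hl (z ^ m) ^ 5 * qa D z s u v)
        = (25 * (‖rh (z ^ m) (s ^ m)‖ ^ 2) ^ 4 * ‖dP m z‖ ^ 2 / hl (z ^ m) ^ 4) *
            (hl (z ^ m) ^ 5 * qa D z s u v) * (1 + ‖z ^ m‖ ^ 2) := by rw [norm_pow]; ring
      _ ≤ (25 * (hl (s ^ m) / hl (z ^ m)) ^ 4 * ‖dP m z‖ ^ 2 / hl (z ^ m) ^ 4) *
            (hl (z ^ m) ^ 5 * qa D z s u v) * (1 + ‖z ^ m‖ ^ 2) := by
          gcongr; exact norm_sq_rh_le _ _
      _ = _ := by rw [← hl, hL]; field_simp
  have hHd0 : ∀ k z, 0 ≤ Hd k z := fun k z => quad_nonneg (posSemidef_of D hcu) _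
  have hHdC : ∀ k, k ≤ 1 → ∀ z, Hd k z ≤ 25 * L * B * om m z := by
    intro k hk z
    have h1 := hHd z
    have h2 := mul_le_mul_of_nonneg_left (q_le D (z := z) hB hcu).1 (om_nonneg m z)
    have h3 := mul_le_mul_of_nonneg_left h2 (show 0 ≤ 25 * L by positivity)
    rcases Nat.le_one_iff_eq_zero_or_eq_one.1 hk with rfl | rfl <;>
      linarith [hHd0 0 z, hHd0 1 z]
  have hcont : Continuous ψ := by
    refine Continuous.div (by fun_prop) (by unfold hl; fun_prop) fun z => ?_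
    exact (mul_pos (hl_pos _) (hl_pos _)).ne'
  have iH : ∀ k, k ≤ 1 → Integrable fun z => om m z * H k z :=
    fun k hk => intZ hm (CF.quad D (smφ k)) hcu hs (hH k hk)
  have iψ : ∀ k, k ≤ 1 → Integrable fun z => ψ z * (om m z * H k z) := fun k hk =>
    (iH k hk).bdd_mul (c := 1) hcont.aestronglyMeasurable (Eventually.of_forall fun z => by
      rw [Real.norm_eq_abs, abs_of_nonneg (hψ z).1]; exact (hψ z).2)
  have iD : ∀ k, k ≤ 1 → Integrable (Hd k) := fun k hk =>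
    integrable_z hm ((CF.quad D (smdφ k)).sliceZ hcu hs)
      ⟨25 * L * B, fun z => by rw [abs_of_nonneg (hHd0 k z)]; exact hHdC k hk z⟩
  have key : ∀ k, k ≤ 1 → ∫ z, 1 / 2 * (om m z * H k z) ≤
      ∫ z, (3 * (ψ z * (om m z * H k z)) + Hd k z) := by
    intro k hk
    refine zStep D hm hcu hs (φ := φ k) (Ω := fun z s u v => potG m (s ^ m) z • φ k z s u v)
      (dφ := dφ k)
      (dΩ := fun z s u v =>
        (((1 - 2 * (‖z ^ m - s ^ m‖ ^ 2 / (hl (z ^ m) * hl (s ^ m)))) * om m z : ℝ) : ℂ) •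
          φ k z s u v + potG m (s ^ m) z • dφ k z s u v)
      (smφ k) (smC_potG.smul' (smφ k)) (smdφ k) (dbφ k)
      (fun z => HasVDB.smul (hasDB_potG m (s ^ m) z) (dbφ k z))
      (c := 1) one_pos (B' := L * B) (fun z => (hH k hk z).2)
      ⟨L * B, fun z => by
        rw [quad_smul, mul_comm (L * B)]
        refine mul_le_mul ((hP z).trans ?_) (hH k hk z).2 (hH k hk z).1 (om_nonneg m z)
        exact mul_le_of_le_one_left (om_nonneg m z) (hψ z).2⟩
      ⟨25 * L * B, hHdC k hk⟩ ((iH k hk).const_mul _) (((iψ k hk).const_mul 3).add (iD k hk))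
      fun z => ?_
    have hK := posSemidef_of D (z := z) hcu
    have hc := re_sesq_ge hK (dφ k z s u v) (conj (potG m (s ^ m) z) • φ k z s u v)
      (c := 1) one_pos
    rw [quad_smul _ (conj (potG m (s ^ m) z)), Complex.norm_conj, sesq_smul_right] at hc
    have core : ∀ (a b : Vec) (r : ℝ) (P : ℂ), (sesq (D.K z s u v) ((r : ℂ) • a + P • b) a).re =
        r * quad (D.K z s u v) a + (conj P * sesq (D.K z s u v) b a).re := fun a b r P => by
      rw [sesq_add_left, Complex.add_re, sesq_smul_left, sesq_smul_left, conj_ofReal,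
        sesq_self hK.1, re_ofReal_mul, ofReal_re]
    rw [core, quad_smul _ (potG m (s ^ m) z)]
    have h0 := (hH k hk z).1
    have h1 := mul_le_mul_of_nonneg_right (hP z) h0
    have h2 : om m z / m ≤ om m z := div_le_self (om_nonneg m z) (by exact_mod_cast hm)
    have h3 := mul_le_mul_of_nonneg_right h2 h0
    simp only [H, Hd, ψ] at h0 h1 h3 hc ⊢
    linarith
  have k0 := key 0 zero_le_one
  have k1 := key 1 le_rfl
  have hl' : ∫ z, L / 2 * (om m z * qg D z s u v) ≤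
      (∫ z, 1 / 2 * (om m z * H 0 z)) + ∫ z, 1 / 2 * (om m z * H 1 z) := by
    rw [← integral_add ((iH 0 zero_le_one).const_mul _) ((iH 1 le_rfl).const_mul _)]
    refine le_of_eq (integral_congr_ae (Eventually.of_forall fun z => ?_))
    have e := quad_gV D (z := z) (s := s) (u := u) (v := v)
    simp only [H, φ, pow_zero, pow_one, quad_smul, norm_one, one_pow, one_mul]
    rw [hl] at e
    linear_combination -(1 / 2 * om m z) * e
  have hr' : (∫ z, (3 * (ψ z * (om m z * H 0 z)) + Hd 0 z)) +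
      ∫ z, (3 * (ψ z * (om m z * H 1 z)) + Hd 1 z) ≤
      ∫ z, (31 * L * (om m z * qa D z s u v) + 6 * L * (om m z * qb D z s u v)) := by
    rw [← integral_add (((iψ 0 zero_le_one).const_mul 3).fun_add (iD 0 zero_le_one))
      (((iψ 1 le_rfl).const_mul 3).fun_add (iD 1 le_rfl))]
    refine integral_mono ((((iψ 0 zero_le_one).const_mul 3).fun_add (iD 0 zero_le_one)).fun_add
      (((iψ 1 le_rfl).const_mul 3).fun_add (iD 1 le_rfl)))
      ((ia.const_mul _).fun_add (ib.const_mul _)) fun z => ?_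
    have h1 := mul_le_mul_of_nonneg_left (psi_gV_le D (z := z) hcu) (om_nonneg m z)
    have h2 := hHd z
    simp only [H, φ, ψ, pow_zero, pow_one, quad_smul, norm_one, one_pow, one_mul, hl] at h1 h2 ⊢
    simp only [hL, hl] at h2 ⊢
    linarith
  rw [integral_const_mul] at hl'
  rw [integral_add (ia.const_mul _) (ib.const_mul _), integral_const_mul, integral_const_mul]
    at hr'
  have hb0 : 0 ≤ ∫ z, om m z * qb D z s u v :=
    integral_nonneg fun z => mul_nonneg (om_nonneg m z) (q_nonneg D hcu).2.1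
  refine le_of_mul_le_mul_left (a := L / 2) ?_ (by positivity)
  have := mul_le_mul_of_nonneg_left hb0 (show 0 ≤ 25 * L by positivity)
  linarith

end Vale.Agent.P296.An
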