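import Mathlib
import Vale.Agent.P296.Analysis.StepsZ

/-!
The analytic core: no such metric exists for large `m`.
-/

open scoped ContDiff Topology ComplexOrder
open Complex ComplexConjugate Matrix Set MeasureTheory Filter

noncomputable section

namespace Vale.Agent.P296.An

variable {m : ℕ}

/-- The measure on the `(z, s)` space. -/
abbrev μ2 : Measure (ℂ × ℂ) := (volume : Measure ℂ).prod volume

/-- The integrand on the `(z, s)` space. -/
def P2 (m : ℕ) (F : Fn) (p : ℂ × ℂ) : ℝ := om m p.1 * shSum m (wt (nu m) F p.1) p.2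

/-- The total integral. -/
def I2 (m : ℕ) (F : Fn) : ℝ := ∫ p, P2 m F p ∂μ2

/-- Bounded, nonnegative and continuous along the branches. -/
structure Adm (m : ℕ) (F : Fn) : Prop where
  cf : CF m F
  bdd : ∃ C, ∀ z s u v, OnCurve m s u v → 0 ≤ F z s u v ∧ F z s u v ≤ C

lemma ae_notR2 (hm : 0 < m) : ∀ᵐ p ∂μ2, p.2 ^ (12 * m) ≠ 1 :=
  Measure.quasiMeasurePreserving_snd.ae (ae_notR hm)

lemma Adm.integrable (hm : 0 < m) {F : Fn} (hF : Adm m F) : Integrable (P2 m F) μ2 := by
  obtain ⟨C, hC⟩ := hF.bdd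
  have hopen : IsOpen {s : ℂ | s ^ (12 * m) ≠ 1} := isOpen_ne.preimage (continuous_pow _)
  have hc : ContinuousOn (P2 m F) (univ ×ˢ {s | s ^ (12 * m) ≠ 1}) :=
    (continuous_om.comp continuous_fst).continuousOn.mul
      (shSum_continuousOn hm (cf_nu_wt hF.cf))
  have hmeas : AEStronglyMeasurable (P2 m F) μ2 := by
    have h := hc.aestronglyMeasurable (μ := μ2) (isOpen_univ.prod hopen).measurableSet
    rwa [Measure.restrict_eq_self_of_ae_mem
      (s := (univ : Set ℂ) ×ˢ {s : ℂ | s ^ (12 * m) ≠ 1})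
      ((ae_notR2 hm).mono fun p hp => ⟨trivial, hp⟩)] at h
  refine (((integrable_om hm).mul_prod (integrable_nu hm)).const_mul (4 * C)).mono' hmeas ?_
  filter_upwards with p
  rw [P2, Real.norm_eq_abs, abs_mul, abs_of_nonneg (om_nonneg m p.1)]
  calc om m p.1 * |shSum m (wt (nu m) F p.1) p.2|
      ≤ om m p.1 * ∑ _i : Sh, nu m p.2 * C := by
        refine mul_le_mul_of_nonneg_left ((Finset.abs_sum_le_sum_abs _ _).trans
          (Finset.sum_le_sum fun i _ => ?_)) (om_nonneg m p.1)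
        obtain ⟨h1, h2⟩ := hC p.1 p.2 _ _ (onCurve_sh i)
        rw [wt, abs_mul, abs_of_nonneg (nu_nonneg m _), abs_of_nonneg h1]
        exact mul_le_mul_of_nonneg_left h2 (nu_nonneg m _)
    _ = _ := by simp; ring

lemma I2_eq (hm : 0 < m) {F : Fn} (hF : Adm m F) :
    I2 m F = ∫ z, om m z * J m (wt (nu m) F) z := by
  rw [I2, integral_prod _ (hF.integrable hm)]
  simp only [P2, integral_const_mul, J]

lemma I2_le_of_slice (hm : 0 < m) {F G : Fn} (hF : Adm m F) (hG : Adm m G) {k : ℝ}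
    (h : ∀ z, J m (wt (nu m) F) z ≤ k * J m (wt (nu m) G) z) : I2 m F ≤ k * I2 m G := by
  have hi : ∀ {H : Fn}, Adm m H → Integrable fun z => om m z * J m (wt (nu m) H) z := fun hH => by
    have := (hH.integrable hm).integral_prod_left
    simpa only [P2, integral_const_mul, J] using this
  rw [I2_eq hm hF, I2_eq hm hG, ← integral_const_mul]
  refine integral_mono (hi hF) ((hi hG).const_mul k) fun z => ?_
  calc om m z * J m (wt (nu m) F) z ≤ om m z * (k * J m (wt (nu m) G) z) :=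
        mul_le_mul_of_nonneg_left (h z) (om_nonneg m z)
    _ = _ := by ring

lemma inner_eq (hm : 0 < m) {F : Fn} (hF : Adm m F) {s : ℂ} (hs : s ^ (12 * m) ≠ 1) :
    ∫ z, P2 m F (z, s) =
      nu m s * ∑ i : Sh, ∫ z, om m z * F z s (shU m s i) (shV m s i) := by
  obtain ⟨C, hC⟩ := hF.bdd
  have hi : ∀ i : Sh, Integrable fun z => om m z * F z s (shU m s i) (shV m s i) := fun i =>
    intZ hm hF.cf (onCurve_sh i) hs fun z => hC z s _ _ (onCurve_sh i)
  rw [← integral_finsetSum _ fun i _ => hi i, ← integral_const_mul]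
  refine integral_congr_ae (Eventually.of_forall fun z => ?_)
  simp only [P2, shSum, wt, Finset.mul_sum]
  exact Finset.sum_congr rfl fun i _ => by ring

/-- Transfer of an inequality at fixed `s`. -/
lemma I2_le_of_inner (hm : 0 < m) {F G H : Fn} (hF : Adm m F) (hG : Adm m G) (hH : Adm m H)
    {k l : ℝ}
    (h : ∀ s u v, OnCurve m s u v → s ^ (12 * m) ≠ 1 →
      ∫ z, om m z * F z s u v ≤ k * (∫ z, om m z * G z s u v) + l * ∫ z, om m z * H z s u v) :
    I2 m F ≤ k * I2 m G + l * I2 m H := by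
  have iF := hF.integrable hm
  have iG := hG.integrable hm
  have iH := hH.integrable hm
  simp only [I2]
  rw [integral_prod_symm _ iF, integral_prod_symm _ iG, integral_prod_symm _ iH,
    ← integral_const_mul, ← integral_const_mul,
    ← integral_add (iG.integral_prod_right.const_mul k) (iH.integral_prod_right.const_mul l)]
  refine integral_mono_ae iF.integral_prod_right
    ((iG.integral_prod_right.const_mul k).add (iH.integral_prod_right.const_mul l)) ?_
  filter_upwards [ae_notR hm] with s hs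
  simp only [inner_eq hm hF hs, inner_eq hm hG hs, inner_eq hm hH hs]
  calc nu m s * ∑ i : Sh, ∫ z, om m z * F z s (shU m s i) (shV m s i)
      ≤ nu m s * ∑ i : Sh, (k * (∫ z, om m z * G z s (shU m s i) (shV m s i)) +
          l * ∫ z, om m z * H z s (shU m s i) (shV m s i)) :=
        mul_le_mul_of_nonneg_left (Finset.sum_le_sum fun i _ => h s _ _ (onCurve_sh i) hs)
          (nu_nonneg m s)
    _ = _ := by rw [Finset.sum_add_distrib, ← Finset.mul_sum, ← Finset.mul_sum]; ring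

lemma I2_add (hm : 0 < m) {F G : Fn} (hF : Adm m F) (hG : Adm m G) :
    I2 m (fun z s u v => F z s u v + G z s u v) = I2 m F + I2 m G := by
  rw [I2, I2, I2, ← integral_add (hF.integrable hm) (hG.integrable hm)]
  refine integral_congr_ae (Eventually.of_forall fun p => ?_)
  simp only [P2, shSum, wt, mul_add, Finset.sum_add_distrib]

lemma Adm.add {F G : Fn} (hF : Adm m F) (hG : Adm m G) :
    Adm m (fun z s u v => F z s u v + G z s u v) := by
  obtain ⟨C, hC⟩ := hF.bdd
  obtain ⟨C', hC'⟩ := hG.bdd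
  exact ⟨hF.cf.add hG.cf, C + C', fun z s u v h =>
    ⟨add_nonneg (hC z s u v h).1 (hC' z s u v h).1, add_le_add (hC z s u v h).2 (hC' z s u v h).2⟩⟩

lemma I2_nonneg {F : Fn} (hF : Adm m F) : 0 ≤ I2 m F := by
  obtain ⟨C, hC⟩ := hF.bdd
  exact integral_nonneg fun p => mul_nonneg (om_nonneg m _) (Finset.sum_nonneg fun i _ =>
    mul_nonneg (nu_nonneg m _) (hC _ _ _ _ (onCurve_sh i)).1)

lemma I2_qw_pos (D : MetricData m) (hm : 0 < m) (hw : Adm m (qw D)) : 0 < I2 m (qw D) := by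
  have hnn : 0 ≤ P2 m (qw D) := fun p => mul_nonneg (om_nonneg m _)
    (Finset.sum_nonneg fun i _ => mul_nonneg (nu_nonneg m _) (q_nonneg D (onCurve_sh i)).2.2.1)
  refine lt_of_le_of_ne (I2_nonneg hw) fun h0 => ?_
  have hz := (integral_eq_zero_iff_of_nonneg hnn (hw.integrable hm)).1 h0.symm
  have e1 : ∀ᵐ p ∂μ2, p.1 ≠ (0 : ℂ) :=
    Measure.quasiMeasurePreserving_fst.ae (Measure.ae_ne volume 0)
  have e2 : ∀ᵐ p ∂μ2, p.2 ≠ (0 : ℂ) :=
    Measure.quasiMeasurePreserving_snd.ae (Measure.ae_ne volume 0)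
  have hf : ∀ᵐ _p ∂μ2, False := by
    filter_upwards [hz, e1, e2, ae_notR2 hm] with p hp hp1 hp2 hpR
    have hpos : 0 < shSum m (wt (nu m) (qw D) p.1) p.2 := by
      refine Finset.sum_pos (fun i _ => mul_pos (nu_pos hm hpR hp2) ?_) Finset.univ_nonempty
      obtain ⟨-, -, -, hv, hN⟩ := curve_facts (onCurve_sh (s := p.2) i) hpR
      have hne : wW (shU m p.2 i) (shV m p.2 i) ≠ 0 := by
        intro h
        have := congrFun h 0
        simp [wW] at this
        rcases this with h | h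
        · exact absurd h (by exact_mod_cast (show ‖shU m p.2 i‖ ^ 2 + ‖shV m p.2 i‖ ^ 2 ≠ 0
            from hN.ne'))
        · exact hv h
      exact mul_pos (Complex.pos_iff.1
        ((D.posDef p.1 p.2 _ _ (onCurve_sh i)).dotProduct_mulVec_pos hne)).1 (hl_pos _)
    have := mul_pos (om_pos hm hp1) hpos
    exact this.ne' hp
  exact (NeZero.ne μ2) (by simpa [ae_eq_bot] using hf)

/-- For large `m` no metric with Griffiths positive curvature exists. -/
theorem core : Core := by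
  set k1 : ℝ := 150000000 * 73728 with hk1
  set k2 : ℝ := 10000000 * (15 * 245760 + 4 * 9216) with hk2
  set K : ℝ := k1 + (72 * k1 + 2) + k2 * (72 * k1 + 2) + 62 * (k1 + (72 * k1 + 2)) with hK
  obtain ⟨n, hn⟩ := exists_nat_gt K
  refine ⟨max n 4, fun m hm => ⟨fun D => ?_⟩⟩
  have hm4 : 4 ≤ m := le_of_max_le_right hm
  have hm0 : 0 < m := by omega
  have hKm : K < m := hn.trans_le (by exact_mod_cast le_of_max_le_left hm)
  have hmR : (0:ℝ) < m := Nat.cast_pos.2 hm0
  obtain ⟨B, hB⟩ := D.bounded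
  have ha : Adm m (qa D) :=
    ⟨cf_qa D, B, fun z s u v h => ⟨(q_nonneg D h).1, (q_le D hB h).1⟩⟩
  have hb : Adm m (qb D) :=
    ⟨cf_qb D, B, fun z s u v h => ⟨(q_nonneg D h).2.1, (q_le D hB h).2.1⟩⟩
  have hw : Adm m (qw D) :=
    ⟨cf_qw D, B, fun z s u v h => ⟨(q_nonneg D h).2.2.1, (q_le D hB h).2.2.1⟩⟩
  have hg : Adm m (qg D) :=
    ⟨cf_qg D, B, fun z s u v h => ⟨(q_nonneg D h).2.2.2, (q_le D hB h).2.2.2.1⟩⟩
  have hS : Adm m (qS D) := ((ha.add hb).add hw).add hg
  have eS : I2 m (qS D) = I2 m (qa D) + I2 m (qb D) + I2 m (qw D) + I2 m (qg D) := by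
    show I2 m (fun z s u v => qa D z s u v + qb D z s u v + qw D z s u v + qg D z s u v) = _
    rw [I2_add hm0 ((ha.add hb).add hw) hg, I2_add hm0 (ha.add hb) hw, I2_add hm0 ha hb]
  have i1 : I2 m (qa D) ≤ k1 / m * I2 m (qS D) :=
    I2_le_of_slice hm0 ha hS fun z => (stepA' D hm0 hB z).trans_eq (by ring)
  have i2 : I2 m (qw D) ≤ k2 * I2 m (qb D) :=
    I2_le_of_slice hm0 hw hb fun z => stepW' D hm4 hB z
  have i3 : I2 m (qb D) ≤ 72 * I2 m (qa D) + 2 / m * I2 m (qg D) :=
    I2_le_of_inner hm0 hb ha hg fun s u v hc hs => stepB D hm0 hB hc hs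
  have i4 : I2 m (qg D) ≤ 62 * I2 m (qa D) + 62 * I2 m (qb D) :=
    I2_le_of_inner hm0 hg ha hb fun s u v hc hs => (stepG D hm0 hB hc hs).trans_eq (by ring)
  have na := I2_nonneg ha
  have nb := I2_nonneg hb
  have ng := I2_nonneg hg
  have nw := I2_qw_pos D hm0 hw
  set S := I2 m (qS D)
  have hS0 : 0 < S := by linarith
  set δ : ℝ := (m:ℝ)⁻¹ with hδ
  have hδ0 : 0 ≤ δ := inv_nonneg.2 hmR.le
  have j1 : I2 m (qa D) ≤ k1 * δ * S := i1.trans_eq (by ring)
  have j3 : I2 m (qb D) ≤ (72 * k1 + 2) * δ * S := by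
    have : 2 / m * I2 m (qg D) ≤ 2 / m * S := by gcongr; linarith
    refine i3.trans ?_
    calc 72 * I2 m (qa D) + 2 / m * I2 m (qg D) ≤ 72 * (k1 * δ * S) + 2 / m * S := by linarith
      _ = _ := by ring
  have j2 : I2 m (qw D) ≤ k2 * ((72 * k1 + 2) * δ * S) :=
    i2.trans (mul_le_mul_of_nonneg_left j3 (by norm_num [hk2]))
  have hfin : S ≤ K * δ * S := by
    rw [hK]; linarith
  have hlt : K * δ < 1 := by
    rw [hδ, ← div_eq_mul_inv, div_lt_one hmR]; exact hKm
  linarith [mul_lt_mul_of_pos_right hlt hS0]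

end Vale.Agent.P296.An
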